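import Vale.Agent.P283.M647.Props

/-!
C0. Lifting choices of rays on groups of trivial pages.
-/

set_option linter.all false

namespace Vale.Agent.P283.M647

open Vale.Agent.P283.T647 (psum fval Triv)

namespace C0

variable {P ι Γ : Type} [Fintype P] [DecidableEq P] [Fintype ι] [Fintype Γ] [DecidableEq Γ]

/-- The coefficients of the original book. -/
noncomputable def lift (𝒯 : Finset P) (γ : P → Γ) (c : ι → ℝ) (cf : Γ → (P → ι) → ℝ) (j : ι) : ℝ :=
  open scoped Classical in
  c j + ∑ x, ∑ f, cf x f * ∑ p ∈ 𝒯.filter (fun p => γ p = x), if f p = j then (1 : ℝ) else 0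

theorem lift_sum (𝒯 : Finset P) (γ : P → Γ) (c : ι → ℝ) (cf : Γ → (P → ι) → ℝ) (g : ι → ℝ) :
    ∑ j, lift 𝒯 γ c cf j * g j = ∑ j, c j * g j +
      ∑ x, ∑ f, cf x f * ∑ p ∈ 𝒯.filter (fun p => γ p = x), g (f p) := by
  classical
  unfold lift
  simp only [add_mul, Finset.sum_add_distrib, Finset.sum_mul]
  congr 1
  rw [Finset.sum_comm]
  refine Finset.sum_congr rfl fun x _ => ?_
  rw [Finset.sum_comm]
  refine Finset.sum_congr rfl fun f _ => ?_
  have h1 : ∀ j, cf x f * (∑ p ∈ 𝒯.filter (fun p => γ p = x), if f p = j then (1 : ℝ) else 0) *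
      g j = cf x f * ∑ p ∈ 𝒯.filter (fun p => γ p = x), if f p = j then g j else 0 := by
    intro j
    rw [mul_assoc, Finset.sum_mul]
    congr 1
    refine Finset.sum_congr rfl fun p _ => ?_
    split_ifs <;> simp
  simp only [h1]
  rw [← Finset.mul_sum, Finset.sum_comm]
  congr 1
  refine Finset.sum_congr rfl fun p _ => ?_
  rw [Finset.sum_ite_eq]
  simp

theorem psum_eq (pg : ι → Option P) (s : ι → ℕ) (c : ι → ℝ) (p : P) :
    psum pg s c p = ∑ j, c j * (if pg j = some p then (s j : ℝ) else 0) := by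
  unfold psum
  refine Finset.sum_congr rfl fun j _ => ?_
  split_ifs <;> simp

end C0

open C0 in
/-- C0. -/
theorem c0 : GroupLift := by
  classical
  intro P ι Γ _ _ _ _ _ k q pg s w κ 𝒯 γ htriv c cf hc hcf hc0 hcf0
  have hpage : ∀ x f, cf x f ≠ 0 → ∀ p ∈ 𝒯.filter (fun p => γ p = x),
      pg (f p) = some p ∧ s (f p) = 1 ∧ κ (f p) = q := by
    intro x f hf p hp
    obtain ⟨hp1, hp2⟩ := Finset.mem_filter.1 hp
    have h1 := hcf0 x f hf p hp1 hp2
    exact ⟨h1, htriv p hp1 (f p) h1⟩
  have hterm : ∀ (x : Γ) (g g' : (P → ι) → ℝ), (∀ f, cf x f ≠ 0 → g f = g' f) →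
      ∑ f, cf x f * g f = ∑ f, cf x f * g' f := by
    intro x g g' h
    refine Finset.sum_congr rfl fun f _ => ?_
    by_cases hf : cf x f = 0
    · rw [hf, zero_mul, zero_mul]
    · rw [h f hf]
  refine ⟨lift 𝒯 γ c cf, ?_, ?_, ?_, ?_, ?_, ?_⟩
  · intro j
    unfold lift
    refine add_nonneg (hc j) (Finset.sum_nonneg fun x _ => Finset.sum_nonneg fun f _ =>
      mul_nonneg (hcf x f) (Finset.sum_nonneg fun p _ => ?_))
    split_ifs <;> norm_num
  · intro p₀ hp₀
    rw [psum_eq, lift_sum, ← psum_eq, Finset.sum_eq_zero, add_zero]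
    intro x _
    rw [hterm x _ (fun _ => 0) ?_]
    · simp
    · intro f hf
      refine Finset.sum_eq_zero fun p hp => ?_
      have h1 := (hpage x f hf p hp).1
      have h2 : p ≠ p₀ := by
        rintro rfl
        exact hp₀ (Finset.mem_filter.1 hp).1
      rw [h1, if_neg]
      intro h
      exact h2 (Option.some_injective _ h)
  · intro p₀ hp₀
    rw [psum_eq, lift_sum, ← psum_eq]
    have h0 : psum pg s c p₀ = 0 := by
      rw [psum_eq]
      refine Finset.sum_eq_zero fun j _ => ?_
      split_ifs with h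
      · rw [hc0 j p₀ h hp₀, zero_mul]
      · rw [mul_zero]
    rw [h0, zero_add, Finset.sum_eq_single (γ p₀)]
    · rw [hterm _ _ (fun _ => 1) ?_]
      · simp
      · intro f hf
        have hm : p₀ ∈ 𝒯.filter (fun p => γ p = γ p₀) := Finset.mem_filter.2 ⟨hp₀, rfl⟩
        rw [Finset.sum_eq_single p₀]
        · obtain ⟨h1, h2, -⟩ := hpage _ f hf p₀ hm
          rw [h1, if_pos rfl, h2]
          norm_num
        · intro p hp hne
          rw [(hpage _ f hf p hp).1, if_neg]
          intro h
          exact hne (Option.some_injective _ h)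
        · intro h
          exact absurd hm h
    · intro x _ hx
      rw [hterm x _ (fun _ => 0) ?_]
      · simp
      · intro f hf
        refine Finset.sum_eq_zero fun p hp => ?_
        rw [(hpage x f hf p hp).1, if_neg]
        intro h
        have h1 : p = p₀ := Option.some_injective _ h
        apply hx
        rw [← (Finset.mem_filter.1 hp).2, h1]
    · intro h
      exact absurd (Finset.mem_univ _) h
  · intro j hj
    unfold lift
    rw [Finset.sum_eq_zero, add_zero]
    intro x _
    rw [hterm x _ (fun _ => 0) ?_]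
    · simp
    · intro f hf
      refine Finset.sum_eq_zero fun p hp => ?_
      rw [if_neg]
      intro h
      have h1 := (hpage x f hf p hp).1
      rw [h] at h1
      exact hj p h1 (Finset.mem_filter.1 hp).1
  · intro i
    exact lift_sum 𝒯 γ c cf fun j => (w j i : ℝ)
  · rw [lift_sum 𝒯 γ c cf fun j => (κ j : ℝ), Finset.mul_sum]
    congr 1
    refine Finset.sum_congr rfl fun x _ => ?_
    rw [hterm x _ (fun _ => q * ((𝒯.filter fun p => γ p = x).card : ℝ)) ?_]
    · rw [← Finset.sum_mul]
      ring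
    · intro f hf
      have h1 : ∑ p ∈ 𝒯.filter (fun p => γ p = x), (κ (f p) : ℝ) =
          ∑ p ∈ 𝒯.filter (fun p => γ p = x), (q : ℝ) :=
        Finset.sum_congr rfl fun p hp => by rw [(hpage x f hf p hp).2.2]
      rw [h1, Finset.sum_const, nsmul_eq_mul]
      ring

end Vale.Agent.P283.M647
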