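import Vale.Agent.P283.M647.Props

/-!
C1. The number of non-trivial pages in a flat.
-/

set_option linter.all false

namespace Vale.Agent.P283.M647

open Vale.Agent.P283.T647 (psum fval Triv)

namespace C1

lemma ratio_le {s κ q : ℕ} (hs : 0 < s) (hκ : κ ≤ q) (hq : 0 < q) (hn : ¬ (s = 1 ∧ κ = q)) :
    (κ : ℝ) / s ≤ q - 1 / 2 := by
  have hs' : (0 : ℝ) < s := by exact_mod_cast hs
  rw [div_le_iff₀ hs']
  have hκ' : (κ : ℝ) ≤ q := by exact_mod_cast hκ
  have hq' : (1 : ℝ) ≤ q := by exact_mod_cast hq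
  rcases Nat.lt_or_ge 1 s with h | h
  · have h2 : (2 : ℝ) ≤ s := by exact_mod_cast h
    nlinarith
  · have h1 : s = 1 := by omega
    subst h1
    have h3 : κ ≠ q := fun e => hn ⟨rfl, e⟩
    have h4 : κ + 1 ≤ q := by omega
    have : (κ : ℝ) + 1 ≤ q := by exact_mod_cast h4
    norm_num
    linarith

variable {P ι : Type} [Fintype P] [DecidableEq P] [Fintype ι]
  {pg : ι → Option P} {s : ι → ℕ}

lemma psum_eq (c : ι → ℝ) (p : P) :
    psum pg s c p = ∑ j, c j * (if pg j = some p then (s j : ℝ) else 0) := by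
  unfold psum
  refine Finset.sum_congr rfl fun j _ => ?_
  split_ifs <;> simp

open Classical in
lemma sum_put (T : Finset P) (l : P → ι) (a : P → ℝ) (F : ι → ℝ) :
    ∑ j, (∑ p ∈ T, if l p = j then a p else 0) * F j = ∑ p ∈ T, a p * F (l p) := by
  simp_rw [Finset.sum_mul]
  rw [Finset.sum_comm]
  refine Finset.sum_congr rfl fun p _ => ?_
  rw [Finset.sum_eq_single (l p)]
  · simp
  · intro j _ hj
    rw [if_neg (fun e => hj e.symm), zero_mul]
  · intro h
    exact absurd (Finset.mem_univ _) h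

open Classical in
lemma psum_put (hpos : ∀ j p, pg j = some p → 0 < s j) (T : Finset P) (l : P → ι)
    (hl : ∀ p ∈ T, pg (l p) = some p) (a : P → ℝ) (p : P) :
    psum pg s (fun j => ∑ p' ∈ T, if l p' = j then a p' / s (l p') else 0) p =
      if p ∈ T then a p else 0 := by
  rw [psum_eq, sum_put T l (fun p' => a p' / s (l p'))]
  have key : ∀ p' ∈ T, a p' / (s (l p') : ℝ) * (if pg (l p') = some p then (s (l p') : ℝ) else 0)
      = if p = p' then a p else 0 := by
    intro p' hp'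
    rw [hl p' hp']
    by_cases h : p = p'
    · subst h
      have h1 : (s (l p) : ℝ) ≠ 0 := by
        have := hpos (l p) p (hl p hp')
        exact_mod_cast this.ne'
      simp only [if_true]
      field_simp
    · rw [if_neg (fun e => h (Option.some.inj e).symm), if_neg h, mul_zero]
  rw [Finset.sum_congr rfl key, Finset.sum_ite_eq]

end C1

open C1 in
/-- C1. -/
theorem c1 : CountRow := by
  classical
  intro P ι _ _ _ k g q δ 𝓑 C pg s w κ hB B₀ hB₀ F hF hp 𝒩 hNF hN
  by_cases hF0 : F = ∅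
  · subst hF0
    rw [Finset.subset_empty.1 hNF]
    simp
  obtain ⟨p₀, hp₀⟩ := Finset.nonempty_iff_ne_empty.2 hF0
  obtain ⟨j₀, hj₀⟩ := hp p₀ hp₀
  have hch : ∀ p : P, ∃ j, p ∈ F → (pg j = some p ∧ (p ∈ 𝒩 → ¬ (s j = 1 ∧ κ j = q))) := by
    intro p
    by_cases hpF : p ∈ F
    · by_cases h : p ∈ 𝒩
      · have h1 := hN p h
        unfold Triv at h1
        push Not at h1
        obtain ⟨j, hj, hj'⟩ := h1
        exact ⟨j, fun _ => ⟨hj, fun _ e => hj' e.1 e.2⟩⟩
      · obtain ⟨j, hj⟩ := hp p hpF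
        exact ⟨j, fun _ => ⟨hj, fun h' => absurd h' h⟩⟩
    · exact ⟨j₀, fun h => absurd h hpF⟩
  choose l hl using hch
  have hpsum : psum pg s (fun j => ∑ p' ∈ F, if l p' = j then
      (fun _ => (1 : ℝ)) p' / s (l p') else 0) = fun p => if p ∈ F then (1 : ℝ) else 0 := by
    funext p
    rw [psum_put hB.pos F l (fun p hp => (hl p hp).1) (fun _ => (1 : ℝ)) p]
  have h0 := hB.nn (fun j => ∑ p' ∈ F, if l p' = j then
    (fun _ => (1 : ℝ)) p' / s (l p') else 0)
    (fun j => Finset.sum_nonneg fun p _ => by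
      split_ifs
      · positivity
      · exact le_refl _) B₀ hB₀ (by rw [hpsum]; exact hF)
  unfold vl at h0
  rw [sum_put F l (fun p' => (fun _ => (1 : ℝ)) p' / s (l p')), hpsum] at h0
  have h1 : ∑ p ∈ F, (1 : ℝ) / s (l p) * κ (l p) ≤
      ∑ p ∈ F, ((q : ℝ) - if p ∈ 𝒩 then 1 / 2 else 0) := by
    refine Finset.sum_le_sum fun p hpF => ?_
    have hs := hB.pos (l p) p (hl p hpF).1
    have hκ := hB.κq (l p)
    have e : (1 : ℝ) / s (l p) * κ (l p) = (κ (l p) : ℝ) / s (l p) := by ring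
    rw [e]
    split_ifs with h
    · exact ratio_le hs hκ hB.q0 ((hl p hpF).2 h)
    · have hs' : (1 : ℝ) ≤ s (l p) := by exact_mod_cast hs
      have hκ' : (κ (l p) : ℝ) ≤ q := by exact_mod_cast hκ
      rw [sub_zero, div_le_iff₀ (by linarith)]
      have hq0 : (0 : ℝ) ≤ q := by positivity
      nlinarith
  rw [Finset.sum_sub_distrib, Finset.sum_ite_mem, Finset.inter_eq_right.2 hNF] at h1
  simp only [Finset.sum_const, nsmul_eq_mul] at h1
  have h2 : ∑ p ∈ Finset.univ \ B₀, (if p ∈ F then (1 : ℝ) else 0) = ((F \ B₀).card : ℝ) := by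
    rw [Finset.sum_ite_mem, Finset.sum_const, nsmul_eq_mul, mul_one]
    congr 2
    ext p
    simp only [Finset.mem_inter, Finset.mem_sdiff, Finset.mem_univ, true_and]
    tauto
  have h3 : (F.card : ℝ) ≤ ((F \ B₀).card : ℝ) + (g + 1) := by
    have h4 := Finset.le_card_sdiff B₀ F
    have h5 := hB.mat.card B₀ hB₀
    have h6 : F.card ≤ (F \ B₀).card + (g + 1) := by omega
    exact_mod_cast h6
  simp only [h2] at h0
  have hq : (1 : ℝ) ≤ q := by exact_mod_cast hB.q0
  have h7 : (q : ℝ) * F.card ≤ q * (((F \ B₀).card : ℝ) + (g + 1)) :=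
    mul_le_mul_of_nonneg_left h3 (by linarith)
  have h8 : (𝒩.card : ℝ) ≤ 2 * q * (g + 1) := by linarith
  exact_mod_cast h8

end Vale.Agent.P283.M647
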