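import Vale.Agent.P283.M647.H425.C2

/-!
C2. The lower bound for complete books.
-/

set_option linter.all false

namespace Vale.Agent.P283.M647

/-- C2. -/
theorem c2 : FullIneq := H425.c2

end Vale.Agent.P283.M647
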