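import Vale.Agent.P283.M647.H677.C3

/-!
C3. The lower bound in a flat.
-/

namespace Vale.Agent.P283.M647

/-- C3. -/
theorem c3 : FlatIneq := c3'

end Vale.Agent.P283.M647
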