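import Vale.Agent.P283.M647.H691.C4

/-!
Row C4: complete books, points with pages in `𝒬`.
-/

set_option linter.all false

namespace Vale.Agent.P283.M647

theorem c4 (hp : T647.PointDoi) (h0 : GroupLift) (h1 : CountRow) (h2 : FullIneq) : CaseV :=
  H691.c4 hp h0 h1 h2

end Vale.Agent.P283.M647
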