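import Vale.Agent.P283.M647.Props

/-!
Row C5: complete books.
-/

set_option linter.all false

namespace Vale.Agent.P283.M647

open Vale.Agent.P283.T647 (psum fval Triv)
open Vale.Agent.P283.A647 (Sol InBook Mt)

theorem c5 (h : CaseV) : CaseM := by
  classical
  intro k g q δ hδ
  obtain ⟨k₀, hk₀, H⟩ := h k g q δ hδ
  refine ⟨k₀, hk₀, ?_⟩
  intro P ι _ instP _ 𝓑 C pg s w κ B hreal hray K hK hK0
  have M := B.mat
  have hray' := hray
  choose gg hg using hray'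
  -- the smallest set of pages
  obtain ⟨𝒬, ⟨hout, hbas⟩, hmin⟩ : ∃ 𝒬 : Finset P,
      ((∀ p, p ∉ 𝒬 → Mt q pg s w κ p) ∧ ∃ B₂ ∈ 𝓑, B₂ ⊆ 𝒬) ∧
      ∀ 𝒬' : Finset P, ((∀ p, p ∉ 𝒬' → Mt q pg s w κ p) ∧ ∃ B₂ ∈ 𝓑, B₂ ⊆ 𝒬') →
        𝒬.card ≤ 𝒬'.card := by
    let S : Finset (Finset P) := Finset.univ.filter fun 𝒬 =>
      (∀ p, p ∉ 𝒬 → Mt q pg s w κ p) ∧ ∃ B₂ ∈ 𝓑, B₂ ⊆ 𝒬
    have hS : S.Nonempty := by
      obtain ⟨B₂, hB₂⟩ := M.ne
      exact ⟨Finset.univ, Finset.mem_filter.2 ⟨Finset.mem_univ _,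
        fun p hp => absurd (Finset.mem_univ p) hp, B₂, hB₂, Finset.subset_univ _⟩⟩
    obtain ⟨𝒬, h1, h2⟩ := Finset.exists_min_image S Finset.card hS
    exact ⟨𝒬, (Finset.mem_filter.1 h1).2,
      fun 𝒬' h' => h2 𝒬' (Finset.mem_filter.2 ⟨Finset.mem_univ _, h'⟩)⟩
  have hwo : ∀ j p, pg j = some p → p ∉ 𝒬 → s j = 1 ∧ κ j = q ∧ w j = w (gg p) := by
    intro j p hj hp
    exact ⟨((hout p hp).1 j hj).1, ((hout p hp).1 j hj).2, (hout p hp).2 j (gg p) hj (hg p)⟩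
  let W : Fin k → ℤ := fun i => ∑ p ∈ 𝒬ᶜ, w (gg p) i
  have hdW : ∀ y : Fin k → ℤ, ∑ p ∈ 𝒬ᶜ, ∑ i, y i * w (gg p) i = ∑ i, y i * W i := by
    intro y
    rw [Finset.sum_comm]
    exact Finset.sum_congr rfl fun i _ => (Finset.mul_sum _ _ _).symm
  have hsplit : ∀ f : P → ℤ, ∑ p, f p = ∑ p ∈ 𝒬, f p + ∑ p ∈ 𝒬ᶜ, f p :=
    fun f => (Finset.sum_add_sum_compl 𝒬 f).symm
  have hswap : ∀ (c : Fin k → ℤ) (τ : P → ℕ), ∑ i, c i * ∑ p ∈ 𝒬ᶜ, (τ p : ℤ) * w (gg p) i =
      ∑ p ∈ 𝒬ᶜ, (τ p : ℤ) * ∑ i, c i * w (gg p) i := by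
    intro c τ
    simp only [Finset.mul_sum]
    rw [Finset.sum_comm]
    exact Finset.sum_congr rfl fun p _ => Finset.sum_congr rfl fun i _ => by ring
  have hres : IsRes q 𝓑 pg s w κ 𝒬 W := by
    refine ⟨hbas, hout, ?_, ?_⟩
    · intro p hp hMt B₂ hB₂ hsub
      by_contra hpB
      have h1 := hmin (𝒬.erase p) ⟨fun p' hp' => by
        by_cases h2 : p' = p
        · rw [h2]; exact hMt
        · exact hout p' fun h3 => hp' (Finset.mem_erase.2 ⟨h2, h3⟩), B₂, hB₂, fun x hx =>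
          Finset.mem_erase.2 ⟨fun h2 => hpB (by rw [← h2]; exact hx), hsub hx⟩⟩
      have h2 := Finset.card_erase_lt_of_mem hp
      omega
    · intro l hl i
      refine Finset.sum_congr rfl fun p hp => ?_
      have hp' := Finset.mem_compl.1 hp
      rw [(hwo (l p) p (hl p hp') hp').2.2]
  have hlow : ∀ (r : ℕ) (b : P → ℤ) (c : Fin k → ℤ),
      (∀ j, fval q r pg s w b c j ≤ r * κ j) → ∀ p, p ∉ 𝒬 →
        ∑ i, c i * w (gg p) i ≤ b p := by
    intro r b c hs p hp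
    have h3 := hs (gg p)
    unfold fval at h3
    rw [hg p] at h3
    simp only [Option.elim_some] at h3
    obtain ⟨w1, w2, w3⟩ := hwo (gg p) p (hg p) hp
    rw [w1, w2] at h3
    push_cast at h3
    linarith
  -- solutions for the pages in `𝒬`
  have case1 : ∀ B₁ ∈ 𝓑, B₁ ⊆ 𝒬 → ∀ p₀ ∈ B₁, ∀ (σ : P → ℕ) (a : Fin k → ℤ), σ p₀ = 0 →
      (∀ p ∈ 𝒬, (∀ b ∈ C B₁ p, σ p ≤ σ b) ∧ ∃ b ∈ C B₁ p, σ p = σ b) →
      ((∃ p ∈ 𝒬, σ p ≠ 0) ∨ a ≠ 0) → InBookQ pg s w 𝒬 W σ a →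
      ∃ (b : P → ℤ) (c : Fin k → ℤ), SolQ g q K pg s w κ 𝒬 W b c ∧
        0 < tval q K b c B₁ 𝒬 σ a := by
    intro B₁ hB₁ hB₁Q p₀ hp₀ σ a hσ0 had hne hin
    refine H P ι 𝓑 C pg s w κ B hray 𝒬 W hres p₀ (hB₁Q hp₀) B₁ hB₁ hB₁Q σ a hσ0 had hne hin
      ?_ K hK hK0
    let σ' : P → ℕ := fun p => (C B₁ p).inf' (M.nz B₁ hB₁ p) σ
    have hσ1 : ∀ p, ∀ b ∈ C B₁ p, σ' p ≤ σ b := fun p b hb => Finset.inf'_le _ hb
    have hσ2 : ∀ p, ∃ b ∈ C B₁ p, σ' p = σ b := fun p =>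
      Finset.exists_mem_eq_inf' (M.nz B₁ hB₁ p) σ
    have hσQ : ∀ p ∈ 𝒬, σ' p = σ p := by
      intro p hp
      obtain ⟨h1, b, hb, h2⟩ := had p hp
      obtain ⟨b', hb', h3⟩ := hσ2 p
      exact le_antisymm (by rw [h2]; exact hσ1 p b hb) (by rw [h3]; exact h1 b' hb')
    have hCQ : ∀ p, ∀ b ∈ C B₁ p, b ∈ 𝒬 := fun p b hb => hB₁Q (M.sub B₁ hB₁ p hb)
    have hAd : Ad C B₁ σ' := by
      intro p
      refine ⟨fun b hb => ?_, ?_⟩
      · rw [hσQ b (hCQ p b hb)]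
        exact hσ1 p b hb
      · obtain ⟨b, hb, h3⟩ := hσ2 p
        exact ⟨b, hb, by rw [hσQ b (hCQ p b hb)]; exact h3⟩
    let a' : Fin k → ℤ := fun i => a i + ∑ p ∈ 𝒬ᶜ, (σ' p : ℤ) * w (gg p) i
    have hca : ∀ c : Fin k → ℤ, ∑ i, c i * a' i =
        ∑ i, c i * a i + ∑ p ∈ 𝒬ᶜ, (σ' p : ℤ) * ∑ i, c i * w (gg p) i := by
      intro c
      rw [← hswap, ← Finset.sum_add_distrib]
      exact Finset.sum_congr rfl fun i _ => by simp only [a']; ring
    have hin' : InBook pg s w σ' a' := by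
      intro e c he hc
      have hlo : ∀ p, p ∉ 𝒬 → 0 ≤ e p + ∑ i, c i * w (gg p) i := by
        intro p hp
        have h1 := hc (gg p)
        rw [hg p] at h1
        simp only [Option.elim_some] at h1
        rw [(hwo (gg p) p (hg p) hp).1] at h1
        push_cast at h1
        linarith
      have h1 := hin e c
        (by
          rw [hsplit] at he
          have h2 : 0 ≤ ∑ p ∈ 𝒬ᶜ, (e p + ∑ i, c i * w (gg p) i) :=
            Finset.sum_nonneg fun p hp => hlo p (Finset.mem_compl.1 hp)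
          rw [Finset.sum_add_distrib, hdW] at h2
          linarith)
        (fun j _ => hc j)
      rw [hca, hsplit (fun p => (σ' p : ℤ) * e p)]
      have h3 : ∑ p ∈ 𝒬, (σ' p : ℤ) * e p = ∑ p ∈ 𝒬, (σ p : ℤ) * e p :=
        Finset.sum_congr rfl fun p hp => by rw [hσQ p hp]
      have h4 : 0 ≤ ∑ p ∈ 𝒬ᶜ, (σ' p : ℤ) * (e p + ∑ i, c i * w (gg p) i) :=
        Finset.sum_nonneg fun p hp => mul_nonneg (Int.natCast_nonneg _)
          (hlo p (Finset.mem_compl.1 hp))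
      simp only [mul_add] at h4
      rw [Finset.sum_add_distrib] at h4
      rw [h3]
      linarith
    have hne' : σ' ≠ 0 ∨ a' ≠ 0 := by
      by_contra hcon
      rw [not_or, not_not, not_not] at hcon
      obtain ⟨c1, c2⟩ := hcon
      rcases hne with ⟨p, hp, h1⟩ | h1
      · apply h1
        rw [← hσQ p hp, c1]; rfl
      · apply h1
        rw [← c2]
        funext i
        simp [a', c1]
    obtain ⟨r, hr, b, c, hsol, hpos⟩ := hreal B₁ σ' a'
      ⟨hB₁, hAd, ⟨p₀, by rw [hσQ p₀ (hB₁Q hp₀), hσ0]⟩, hne'⟩ hin'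
    refine ⟨r, hr, b, c, ⟨?_, fun j _ => hsol.2 j⟩, ?_⟩
    · have h1 := hsol.1
      rw [hsplit] at h1
      have h2 : ∑ p ∈ 𝒬ᶜ, ∑ i, c i * w (gg p) i ≤ ∑ p ∈ 𝒬ᶜ, b p :=
        Finset.sum_le_sum fun p hp => hlow r b c hsol.2 p (Finset.mem_compl.1 hp)
      rw [hdW] at h2
      linarith
    · refine hpos.trans_le ?_
      unfold tval
      rw [hca, hsplit (fun p => b p * σ' p)]
      have h3 : ∑ p ∈ 𝒬, b p * (σ' p : ℤ) = ∑ p ∈ 𝒬, b p * (σ p : ℤ) :=
        Finset.sum_congr rfl fun p hp => by rw [hσQ p hp]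
      have h4 : ∑ p ∈ B₁, (σ' p : ℤ) = ∑ p ∈ B₁, (σ p : ℤ) :=
        Finset.sum_congr rfl fun p hp => by rw [hσQ p (hB₁Q hp)]
      have h5 : 0 ≤ ∑ p ∈ 𝒬ᶜ, (σ' p : ℤ) * (b p - ∑ i, c i * w (gg p) i) :=
        Finset.sum_nonneg fun p hp => mul_nonneg (Int.natCast_nonneg _)
          (sub_nonneg.2 (hlow r b c hsol.2 p (Finset.mem_compl.1 hp)))
      simp only [mul_sub] at h5
      rw [Finset.sum_sub_distrib] at h5
      have h6 : ∑ p ∈ 𝒬ᶜ, b p * (σ' p : ℤ) = ∑ p ∈ 𝒬ᶜ, (σ' p : ℤ) * b p :=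
        Finset.sum_congr rfl fun p _ => mul_comm _ _
      rw [h3, h4, h6]
      linarith
  -- the extension of a functional
  have back : ∀ (b : P → ℤ) (c : Fin k → ℤ), SolQ g q K pg s w κ 𝒬 W b c →
      ∀ (B₀ : Finset P) (σ : P → ℕ) (a : Fin k → ℤ),
      0 < q * K * ∑ p ∈ B₀, (σ p : ℤ) - ∑ p ∈ 𝒬, b p * σ p +
        ∑ i, c i * (a i - ∑ p ∈ 𝒬ᶜ, (σ p : ℤ) * w (gg p) i) →
      Good g q K pg s w κ B₀ σ a := by
    intro b c hs B₀ σ a hpos
    let b' : P → ℤ := fun p => if p ∈ 𝒬 then b p else ∑ i, c i * w (gg p) i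
    have hb1 : ∀ p ∈ 𝒬, b' p = b p := fun p hp => by simp only [b', if_pos hp]
    have hb2 : ∀ p, p ∉ 𝒬 → b' p = ∑ i, c i * w (gg p) i :=
      fun p hp => by simp only [b', if_neg hp]
    refine ⟨b', c, ⟨?_, fun j => ?_⟩, ?_⟩
    · rw [hsplit]
      have h1 : ∑ p ∈ 𝒬, b' p = ∑ p ∈ 𝒬, b p := Finset.sum_congr rfl fun p hp => hb1 p hp
      have h2 : ∑ p ∈ 𝒬ᶜ, b' p = ∑ i, c i * W i := by
        rw [← hdW]
        exact Finset.sum_congr rfl fun p hp => hb2 p (Finset.mem_compl.1 hp)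
      rw [h1, h2]
      exact hs.1
    · unfold fval
      rcases hj : pg j with _ | p
      · have h1 := hs.2 j (by rw [hj]; intro p hp; cases hp)
        unfold fval at h1
        rw [hj] at h1
        exact h1
      · by_cases hp : p ∈ 𝒬
        · have h1 := hs.2 j (by
            rw [hj]
            intro p' hp'
            cases hp'
            exact hp)
          unfold fval at h1
          rw [hj] at h1
          simp only [Option.elim_some] at h1 ⊢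
          rw [hb1 p hp]
          exact h1
        · obtain ⟨w1, w2, w3⟩ := hwo j p hj hp
          simp only [Option.elim_some]
          rw [hb2 p hp, w1, w2, w3]
          push_cast
          linarith
    · unfold tval
      rw [hsplit (fun p => b' p * σ p)]
      have h1 : ∑ p ∈ 𝒬, b' p * (σ p : ℤ) = ∑ p ∈ 𝒬, b p * (σ p : ℤ) :=
        Finset.sum_congr rfl fun p hp => by rw [hb1 p hp]
      have h2 : ∑ p ∈ 𝒬ᶜ, b' p * (σ p : ℤ) = ∑ p ∈ 𝒬ᶜ, (σ p : ℤ) * ∑ i, c i * w (gg p) i :=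
        Finset.sum_congr rfl fun p hp => by rw [hb2 p (Finset.mem_compl.1 hp)]; ring
      have h3 : ∑ i, c i * (a i - ∑ p ∈ 𝒬ᶜ, (σ p : ℤ) * w (gg p) i) =
          ∑ i, c i * a i - ∑ p ∈ 𝒬ᶜ, (σ p : ℤ) * ∑ i, c i * w (gg p) i := by
        rw [← hswap, ← Finset.sum_sub_distrib]
        exact Finset.sum_congr rfl fun i _ => by ring
      rw [h3] at hpos
      rw [h1, h2]
      linarith
  intro B₀ σ a hPt hin
  obtain ⟨hB₀, hAd, ⟨z₀, hz₀⟩, hne⟩ := hPt
  -- the basis in `𝒬`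
  obtain ⟨B₁, hB₁m, hmax⟩ := Finset.exists_max_image (𝓑.filter fun B₂ => B₂ ⊆ 𝒬)
    (fun B₂ => ∑ p ∈ B₂, σ p) (by
      obtain ⟨B₂, h1, h2⟩ := hbas
      exact ⟨B₂, Finset.mem_filter.2 ⟨h1, h2⟩⟩)
  obtain ⟨hB₁, hB₁Q⟩ := Finset.mem_filter.1 hB₁m
  have cA : ∀ p ∈ 𝒬, ∀ b ∈ C B₁ p, σ p ≤ σ b := by
    intro p hp b hb
    by_cases hpB : p ∈ B₁
    · rw [M.self B₁ hB₁ p hpB, Finset.mem_singleton] at hb
      rw [hb]
    · have hbB := M.sub B₁ hB₁ p hb
      have h1 := hmax (insert p (B₁.erase b)) (Finset.mem_filter.2 ⟨M.exch B₁ hB₁ p b hb, by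
        intro x hx
        rcases Finset.mem_insert.1 hx with h2 | h2
        · rw [h2]; exact hp
        · exact hB₁Q (Finset.mem_of_mem_erase h2)⟩)
      rw [Finset.sum_insert (fun h2 => hpB (Finset.mem_of_mem_erase h2))] at h1
      have h2 := Finset.add_sum_erase B₁ σ hbB
      omega
  have cT : ∀ p, ∀ x ∈ C B₀ p, ∃ b ∈ C B₁ p, σ b ≤ σ x := by
    intro p x hx
    obtain ⟨b, hb, hxb⟩ := M.trans B₁ hB₁ B₀ hB₀ p x hx
    exact ⟨b, hb, (hAd b).1 x hxb⟩
  have cB : ∀ p ∈ 𝒬, ∃ b ∈ C B₁ p, σ p = σ b := by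
    intro p hp
    obtain ⟨x, hx, hpx⟩ := (hAd p).2
    obtain ⟨b, hb, hbx⟩ := cT p x hx
    exact ⟨b, hb, le_antisymm (cA p hp b hb) (by rw [hpx]; exact hbx)⟩
  obtain ⟨p₀, hp₀, hσ0⟩ : ∃ p₀ ∈ B₁, σ p₀ = 0 := by
    obtain ⟨x, hx, hpx⟩ := (hAd z₀).2
    obtain ⟨b, hb, hbx⟩ := cT z₀ x hx
    exact ⟨b, M.sub B₁ hB₁ z₀ hb, by rw [← hpx, hz₀] at hbx; omega⟩
  by_cases hcase : (∃ p ∈ 𝒬, σ p ≠ 0) ∨
      (fun i => a i - ∑ p ∈ 𝒬ᶜ, (σ p : ℤ) * w (gg p) i) ≠ 0
  · obtain ⟨b, c, hs, hpos⟩ := case1 B₁ hB₁ hB₁Q p₀ hp₀ σ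
      (fun i => a i - ∑ p ∈ 𝒬ᶜ, (σ p : ℤ) * w (gg p) i) hσ0
      (fun p hp => ⟨cA p hp, cB p hp⟩) hcase (by
        intro e c he hc
        let e' : P → ℤ := fun p => if p ∈ 𝒬 then e p else -∑ i, c i * w (gg p) i
        have he1 : ∀ p ∈ 𝒬, e' p = e p := fun p hp => by simp only [e', if_pos hp]
        have he2 : ∀ p, p ∉ 𝒬 → e' p = -∑ i, c i * w (gg p) i :=
          fun p hp => by simp only [e', if_neg hp]
        have h2 := hin e' c
          (by
            rw [hsplit]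
            have h1 : ∑ p ∈ 𝒬, e' p = ∑ p ∈ 𝒬, e p :=
              Finset.sum_congr rfl fun p hp => he1 p hp
            have h2 : ∑ p ∈ 𝒬ᶜ, e' p = -∑ i, c i * W i := by
              rw [← hdW, ← Finset.sum_neg_distrib]
              exact Finset.sum_congr rfl fun p hp => he2 p (Finset.mem_compl.1 hp)
            rw [h1, h2]
            linarith)
          (fun j => by
            rcases hj : pg j with _ | p
            · have h1 := hc j (by rw [hj]; intro p hp; cases hp)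
              rw [hj] at h1
              exact h1
            · by_cases hp : p ∈ 𝒬
              · have h1 := hc j (by
                  rw [hj]
                  intro p' hp'
                  cases hp'
                  exact hp)
                rw [hj] at h1
                simp only [Option.elim_some] at h1 ⊢
                rw [he1 p hp]
                exact h1
              · obtain ⟨w1, w2, w3⟩ := hwo j p hj hp
                simp only [Option.elim_some]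
                rw [he2 p hp, w1, w3]
                push_cast
                linarith)
        rw [hsplit (fun p => (σ p : ℤ) * e' p)] at h2
        have h3 : ∑ p ∈ 𝒬, (σ p : ℤ) * e' p = ∑ p ∈ 𝒬, (σ p : ℤ) * e p :=
          Finset.sum_congr rfl fun p hp => by rw [he1 p hp]
        have h4 : ∑ p ∈ 𝒬ᶜ, (σ p : ℤ) * e' p =
            -∑ p ∈ 𝒬ᶜ, (σ p : ℤ) * ∑ i, c i * w (gg p) i := by
          rw [← Finset.sum_neg_distrib]
          exact Finset.sum_congr rfl fun p hp => by rw [he2 p (Finset.mem_compl.1 hp)]; ring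
        have h5 : ∑ i, c i * (a i - ∑ p ∈ 𝒬ᶜ, (σ p : ℤ) * w (gg p) i) =
            ∑ i, c i * a i - ∑ p ∈ 𝒬ᶜ, (σ p : ℤ) * ∑ i, c i * w (gg p) i := by
          rw [← hswap, ← Finset.sum_sub_distrib]
          exact Finset.sum_congr rfl fun i _ => by ring
        rw [h3, h4] at h2
        rw [h5]
        linarith)
    refine back b c hs B₀ σ a ?_
    unfold tval at hpos
    have h1 : ∑ p ∈ B₁, (σ p : ℤ) ≤ ∑ p ∈ B₀, (σ p : ℤ) := by
      obtain ⟨f, hf, hf'⟩ := M.mtch B₀ hB₀ B₁ hB₁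
      calc ∑ p ∈ B₁, (σ p : ℤ) ≤ ∑ p ∈ B₁, (σ (f p) : ℤ) :=
            Finset.sum_le_sum fun p hp => by exact_mod_cast (hAd p).1 (f p) (hf' p hp)
        _ = ∑ p ∈ B₁.image f, (σ p : ℤ) :=
            (Finset.sum_image (f := fun p => (σ p : ℤ)) fun x hx y hy hxy => hf hx hy hxy).symm
        _ ≤ ∑ p ∈ B₀, (σ p : ℤ) := by
            refine Finset.sum_le_sum_of_subset_of_nonneg (fun x hx => ?_)
              fun p _ _ => Int.natCast_nonneg _
            obtain ⟨y, hy, rfl⟩ := Finset.mem_image.1 hx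
            exact M.sub B₀ hB₀ y (hf' y hy)
    have h2 : (0 : ℤ) ≤ q * K := by positivity
    have h3 := mul_le_mul_of_nonneg_left h1 h2
    linarith
  · -- any solution
    rw [not_or, not_not] at hcase
    obtain ⟨hσQ, ha⟩ := hcase
    push Not at hσQ
    obtain ⟨p₂, hp₂, hp₂0⟩ : ∃ p₂ ∈ B₁, p₂ ≠ p₀ := by
      have h1 : 1 < B₁.card := by
        rw [M.card B₁ hB₁]
        have := B.g0
        omega
      exact Finset.exists_mem_ne h1 p₀
    have hs0 : 0 < s (gg p₂) := B.pos _ _ (hg p₂)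
    obtain ⟨b, c, hs, -⟩ := case1 B₁ hB₁ hB₁Q p₀ hp₀ (fun p => if p = p₂ then s (gg p₂) else 0)
      (w (gg p₂)) (by simp only [if_neg hp₂0.symm]) (fun p hp => by
        by_cases h1 : p = p₂
        · rw [h1, M.self B₁ hB₁ p₂ hp₂]
          refine ⟨fun b hb => ?_, p₂, Finset.mem_singleton_self _, rfl⟩
          rw [Finset.mem_singleton.1 hb]
        · simp only [if_neg h1]
          refine ⟨fun b hb => Nat.zero_le _, ?_⟩
          by_contra hcon
          push Not at hcon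
          apply h1
          apply M.simple B₁ hB₁
          refine Finset.eq_singleton_iff_nonempty_unique_mem.2 ⟨M.nz B₁ hB₁ p, fun b hb => ?_⟩
          by_contra hb2
          exact hcon b hb (by rw [if_neg hb2]))
      (Or.inl ⟨p₂, hB₁Q hp₂, by simp only [if_true]; omega⟩)
      (by
        intro e c he hc
        have h1 := hc (gg p₂) (by
          rw [hg p₂]
          intro p' hp'
          cases hp'
          exact hB₁Q hp₂)
        rw [hg p₂] at h1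
        have h2 : ∑ p ∈ 𝒬, (((if p = p₂ then s (gg p₂) else 0 : ℕ)) : ℤ) * e p =
            s (gg p₂) * e p₂ := by
          rw [Finset.sum_eq_single p₂]
          · rw [if_pos rfl]
          · intro p _ hp
            rw [if_neg hp]; simp
          · intro h3
            exact absurd (hB₁Q hp₂) h3
        rw [h2]
        simpa using h1)
    refine back b c hs B₀ σ a ?_
    have h1 : ∑ p ∈ 𝒬, b p * (σ p : ℤ) = 0 :=
      Finset.sum_eq_zero fun p hp => by rw [hσQ p hp]; simp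
    have h2 : ∀ i, a i - ∑ p ∈ 𝒬ᶜ, (σ p : ℤ) * w (gg p) i = 0 := fun i => congrFun ha i
    simp only [h1, h2, mul_zero, Finset.sum_const_zero, sub_zero, add_zero]
    have h3 : ∃ p, σ p ≠ 0 := by
      by_contra hcon
      push Not at hcon
      rcases hne with h4 | h4
      · exact h4 (funext hcon)
      · apply h4
        funext i
        have h5 := h2 i
        simp only [hcon, Nat.cast_zero, zero_mul, Finset.sum_const_zero, sub_zero] at h5
        exact h5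
    obtain ⟨p, hp⟩ := h3
    obtain ⟨x, hx, hpx⟩ := (hAd p).2
    have h4 : 0 < ∑ p ∈ B₀, (σ p : ℤ) :=
      Finset.sum_pos' (fun p _ => Int.natCast_nonneg _)
        ⟨x, M.sub B₀ hB₀ p hx, by
          rw [← hpx]
          exact_mod_cast Nat.pos_of_ne_zero hp⟩
    have h5 : (0 : ℤ) < q := by exact_mod_cast B.q0
    have h6 : (0 : ℤ) < K := by exact_mod_cast hK0
    positivity

end Vale.Agent.P283.M647
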