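import Vale.Agent.P283.M647.Props
import Vale.Agent.P283.T647.R9

/-!
Row C6: some page has no rays.
-/

set_option linter.all false

namespace Vale.Agent.P283.M647

open Vale.Agent.P283.T647 (psum fval Triv exists_sum_zero bd abs_le_bd bd_nonneg)
open Vale.Agent.P283.A647 (Sol InBook)

/-- Bounded solutions for vectors with a small support. -/
theorem doiS (h : T647.PointDoi) (M q : ℕ) (δ : ℝ) (hδ : 0 < δ) : ∃ k₀ : ℕ, 0 < k₀ ∧
    ∀ (X ι : Type) [Fintype X] [DecidableEq X] [Fintype ι] (S : Finset X), S.card ≤ M →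
    ∀ (v : ι → X → ℤ) (Ls : Finset (X → ℤ)) (T : ι → ℤ) (κ : ι → ℕ), (∀ j x, x ∉ S → v j x = 0) →
    (∀ j, κ j ≤ q) → (∀ ℓ ∈ Ls, ∀ j, ∑ x, ℓ x * v j x ≤ T j + κ j) →
    (∀ c : ι → ℝ, (∀ j, 0 ≤ c j) → ∀ b : X → ℤ, b ≠ 0 → (∀ x, (b x : ℝ) = ∑ j, c j * v j x) →
      ∃ ℓ ∈ Ls, δ ≤ ∑ j, c j * (((∑ x, ℓ x * v j x : ℤ) : ℝ) - T j)) →
    ∀ k : ℕ, k₀ ∣ k → 0 < k → ∀ a : X → ℤ, a ≠ 0 → (∀ x, x ∉ S → a x = 0) →
      (∀ u : X → ℤ, (∀ j, 0 ≤ ∑ x, v j x * u x) → 0 ≤ ∑ x, a x * u x) →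
      (∃ (r : ℕ) (Y : X → ℤ), (∀ j, r * T j ≤ ∑ x, Y x * v j x) ∧
        ∃ ℓ ∈ Ls, ∑ x, Y x * a x < r * ∑ x, ℓ x * a x) →
      ∃ Y : X → ℤ, (∀ j, k * T j ≤ ∑ x, Y x * v j x) ∧
        ∃ ℓ ∈ Ls, ∑ x, Y x * a x < k * ∑ x, ℓ x * a x := by
  classical
  choose K₀ hK₀ H using fun m => h m q δ hδ
  refine ⟨∏ m ∈ Finset.range (M + 1), K₀ m, Finset.prod_pos fun m _ => hK₀ m, ?_⟩
  intro X ι _ _ _ S hS v Ls T κ hv hκ hℓ hc k hk hk0 a ha haS hdual hreal
  have hk' : K₀ S.card ∣ k :=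
    (Finset.dvd_prod_of_mem _ (Finset.mem_range.2 (by omega))).trans hk
  have sumS : ∀ F : X → ℤ, (∀ x, x ∉ S → F x = 0) → ∑ x : {x // x ∈ S}, F x.1 = ∑ x, F x := by
    intro F hF
    rw [Finset.sum_coe_sort S F]
    exact Finset.sum_subset (Finset.subset_univ S) fun x _ hx => hF x hx
  have s1 : ∀ (Y : X → ℤ) j, ∑ x : {x // x ∈ S}, Y x.1 * v j x.1 = ∑ x, Y x * v j x := by
    intro Y j
    exact sumS (fun x => Y x * v j x) fun x hx => by simp only [hv j x hx, mul_zero]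
  have s2 : ∀ (Y : X → ℤ) , ∑ x : {x // x ∈ S}, Y x.1 * a x.1 = ∑ x, Y x * a x := by
    intro Y
    exact sumS (fun x => Y x * a x) fun x hx => by simp only [haS x hx, mul_zero]
  let ext : ({x // x ∈ S} → ℤ) → X → ℤ := fun y x => if h : x ∈ S then y ⟨x, h⟩ else 0
  have hext : ∀ y (x : {x // x ∈ S}), ext y x.1 = y x := by
    intro y x
    simp only [ext, dif_pos x.2]
  have hext0 : ∀ y x, x ∉ S → ext y x = 0 := by
    intro y x hx
    simp only [ext, dif_neg hx]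
  obtain ⟨Y, hY, ℓ', hℓ', hYa⟩ := H S.card {x // x ∈ S} ι (Fintype.card_coe S)
    (fun j x => v j x.1) (Ls.image fun ℓ x => ℓ x.1) T κ hκ
    (fun ℓ' hℓ' j => by
      obtain ⟨ℓ, hℓ1, rfl⟩ := Finset.mem_image.1 hℓ'
      exact (s1 ℓ j).le.trans (hℓ ℓ hℓ1 j))
    (fun c hc0 b hb hbc => by
      obtain ⟨ℓ, hℓ1, hℓ2⟩ := hc c hc0 (ext b)
        (by
          intro h0
          apply hb
          funext x
          rw [← hext b x, h0]
          rfl)
        (fun x => by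
          by_cases hx : x ∈ S
          · rw [hext b ⟨x, hx⟩]
            exact hbc ⟨x, hx⟩
          · rw [hext0 b x hx, Int.cast_zero]
            symm
            refine Finset.sum_eq_zero fun j _ => ?_
            rw [hv j x hx, Int.cast_zero, mul_zero])
      refine ⟨fun x => ℓ x.1, Finset.mem_image_of_mem _ hℓ1, hℓ2.trans (le_of_eq ?_)⟩
      refine Finset.sum_congr rfl fun j _ => ?_
      rw [← s1 ℓ j])
    k hk' hk0 (fun x => a x.1)
    (by
      intro h0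
      apply ha
      funext x
      by_cases hx : x ∈ S
      · exact congrFun h0 ⟨x, hx⟩
      · exact haS x hx)
    (fun u hu => by
      have h1 := hdual (ext u) (fun j => by
        refine (hu j).trans (le_of_eq ?_)
        rw [← sumS (fun x => v j x * ext u x) fun x hx => by simp only [hv j x hx, zero_mul]]
        exact Finset.sum_congr rfl fun x _ => by rw [hext])
      refine h1.trans (le_of_eq ?_)
      rw [← sumS (fun x => a x * ext u x) fun x hx => by simp only [haS x hx, zero_mul]]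
      exact Finset.sum_congr rfl fun x _ => by rw [hext])
    (by
      obtain ⟨r, Y, h1, ℓ, h2, h3⟩ := hreal
      refine ⟨r, fun x => Y x.1, fun j => ?_, fun x => ℓ x.1, Finset.mem_image_of_mem _ h2, ?_⟩
      · exact (h1 j).trans (s1 Y j).ge
      · have e1 := s2 Y
        have e2 := s2 ℓ
        rw [e1, e2]
        exact h3)
  obtain ⟨ℓ, hℓ1, rfl⟩ := Finset.mem_image.1 hℓ'
  refine ⟨ext Y, fun j => ?_, ℓ, hℓ1, ?_⟩
  · refine (hY j).trans (le_of_eq ?_)
    rw [← s1 (ext Y) j]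
    exact Finset.sum_congr rfl fun x _ => by rw [hext]
  · have e1 := s2 (ext Y)
    have e2 := s2 ℓ
    rw [← e1, ← e2]
    refine lt_of_eq_of_lt ?_ hYa
    exact Finset.sum_congr rfl fun x _ => by rw [hext]

section Core

variable {P ι : Type} [Fintype P] [DecidableEq P] [Fintype ι] {k : ℕ}

/-- The ray lies on the spine or on a page in `N`. -/
def Rel (N : Finset P) (pg : ι → Option P) (j : ι) : Prop := ∀ p, pg j = some p → p ∈ N

/-- `f` chooses a ray on every page of the group `x`. -/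
def Ok (𝒯 : Finset P) (γ : P → P) (pg : ι → Option P) (x : P) (f : P → ι) : Prop :=
  x ∈ 𝒯.image γ ∧ ∀ p ∈ 𝒯, γ p = x → pg (f p) = some p

open Classical in
/-- The vectors. -/
noncomputable def vv (N 𝒯 : Finset P) (γ : P → P) (pg : ι → Option P) (s : ι → ℕ)
    (w : ι → Fin k → ℤ) : ι ⊕ (P × (P → ι)) → P ⊕ (P ⊕ Fin k) → ℤ
  | Sum.inl j => if Rel N pg j then
      Sum.elim (fun p => if pg j = some p then (s j : ℤ) else 0)
        (Sum.elim (fun _ => 0) (fun i => w j i)) else fun _ => 0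
  | Sum.inr xf => if Ok 𝒯 γ pg xf.1 xf.2 then
      Sum.elim (fun _ => 0) (Sum.elim (fun y => if y = xf.1 then 1 else 0)
        (fun i => ∑ p ∈ 𝒯.filter (fun p => γ p = xf.1), w (xf.2 p) i)) else fun _ => 0

open Classical in
/-- The lower bounds. -/
noncomputable def TT (q : ℕ) (N : Finset P) (pg : ι → Option P) (s : ι → ℕ) (κ : ι → ℕ) :
    ι ⊕ (P × (P → ι)) → ℤ
  | Sum.inl j => if Rel N pg j then (pg j).elim 0 (fun _ => (q : ℤ) * s j) - κ j else 0
  | Sum.inr _ => 0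

open Classical in
/-- The slacks. -/
noncomputable def KK (g q : ℕ) (N 𝒯 : Finset P) (γ : P → P) (pg : ι → Option P) (κ : ι → ℕ) :
    ι ⊕ (P × (P → ι)) → ℕ
  | Sum.inl j => if Rel N pg j then κ j else 0
  | Sum.inr xf => if Ok 𝒯 γ pg xf.1 xf.2 then (g + 1) * q else 0

/-- The linear functions. -/
def LL (k q : ℕ) (𝒯 : Finset P) (γ : P → P) (B : Finset P) : P ⊕ (P ⊕ Fin k) → ℤ :=
  Sum.elim (fun p => if p ∈ B then (q : ℤ) else 0)
    (Sum.elim (fun x => q * (((𝒯 ∩ B).filter (fun p => γ p = x)).card : ℤ)) (fun _ => 0))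

variable {N 𝒯 : Finset P} {γ : P → P} {pg : ι → Option P} {s : ι → ℕ} {w : ι → Fin k → ℤ}
  {κ : ι → ℕ}

theorem pair_inl (Y : P ⊕ (P ⊕ Fin k) → ℤ) {j : ι} (hj : Rel N pg j) :
    ∑ z, Y z * vv N 𝒯 γ pg s w (Sum.inl j) z =
      (pg j).elim 0 (fun p => Y (Sum.inl p) * s j) + ∑ i, Y (Sum.inr (Sum.inr i)) * w j i := by
  rw [Fintype.sum_sum_type, Fintype.sum_sum_type]
  simp only [vv, if_pos hj, Sum.elim_inl, Sum.elim_inr, mul_zero, Finset.sum_const_zero, zero_add]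
  congr 1
  rcases hpg : pg j with _ | p
  · simp
  · simp

theorem pair_inl0 (Y : P ⊕ (P ⊕ Fin k) → ℤ) {j : ι} (hj : ¬ Rel N pg j) :
    ∑ z, Y z * vv N 𝒯 γ pg s w (Sum.inl j) z = 0 := by
  simp only [vv, if_neg hj, mul_zero, Finset.sum_const_zero]

theorem pair_inr (Y : P ⊕ (P ⊕ Fin k) → ℤ) {x : P} {f : P → ι} (hf : Ok 𝒯 γ pg x f) :
    ∑ z, Y z * vv N 𝒯 γ pg s w (Sum.inr (x, f)) z = Y (Sum.inr (Sum.inl x)) +
      ∑ p ∈ 𝒯.filter (fun p => γ p = x), ∑ i, Y (Sum.inr (Sum.inr i)) * w (f p) i := by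
  rw [Fintype.sum_sum_type, Fintype.sum_sum_type]
  simp only [vv, if_pos hf, Sum.elim_inl, Sum.elim_inr, mul_zero, Finset.sum_const_zero, zero_add]
  rw [Finset.sum_comm (s := 𝒯.filter (fun p => γ p = x))]
  congr 1
  · simp
  · exact Finset.sum_congr rfl fun i _ => Finset.mul_sum _ _ _

theorem pair_inr0 (Y : P ⊕ (P ⊕ Fin k) → ℤ) {x : P} {f : P → ι} (hf : ¬ Ok 𝒯 γ pg x f) :
    ∑ z, Y z * vv N 𝒯 γ pg s w (Sum.inr (x, f)) z = 0 := by
  simp only [vv, if_neg hf, mul_zero, Finset.sum_const_zero]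

/-- Sums over the groups. -/
theorem sum_grp {R : Type} [CommRing R] (A : Finset P) (γ : P → P) (β : P → R) :
    ∑ x, ((A.filter fun p => γ p = x).card : R) * β x = ∑ p ∈ A, β (γ p) := by
  have h1 : ∀ x, ((A.filter fun p => γ p = x).card : R) * β x =
      ∑ p ∈ A, if γ p = x then β x else 0 := by
    intro x
    rw [← Finset.sum_filter, Finset.sum_const, nsmul_eq_mul]
  simp only [h1]
  rw [Finset.sum_comm]
  refine Finset.sum_congr rfl fun p _ => ?_
  simp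

/-- The bound for the linear functions. -/
theorem LL_le (g q : ℕ) {B : Finset P} (hB : B.card = g + 1) (j : ι ⊕ (P × (P → ι))) :
    ∑ z, LL k q 𝒯 γ B z * vv N 𝒯 γ pg s w j z ≤
      TT q N pg s κ j + KK g q N 𝒯 γ pg κ j := by
  rcases j with j | ⟨x, f⟩
  · by_cases hj : Rel N pg j
    · rw [pair_inl _ hj]
      simp only [TT, KK, if_pos hj, LL, Sum.elim_inl, Sum.elim_inr, zero_mul,
        Finset.sum_const_zero, add_zero]
      rcases hpg : pg j with _ | p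
      · simp
      · simp only [Option.elim_some]
        split_ifs
        · linarith
        · have : (0 : ℤ) ≤ q * s j := by positivity
          linarith
    · rw [pair_inl0 _ hj]
      simp [TT, KK, if_neg hj]
  · by_cases hf : Ok 𝒯 γ pg x f
    · rw [pair_inr _ hf]
      simp only [TT, KK, if_pos hf, LL, Sum.elim_inl, Sum.elim_inr, zero_mul,
        Finset.sum_const_zero, add_zero, zero_add]
      have h1 : ((𝒯 ∩ B).filter (fun p => γ p = x)).card ≤ g + 1 :=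
        (Finset.card_le_card ((Finset.filter_subset _ _).trans Finset.inter_subset_right)).trans
          hB.le
      have h2 : q * ((𝒯 ∩ B).filter (fun p => γ p = x)).card ≤ q * (g + 1) :=
        Nat.mul_le_mul_left _ h1
      have h3 : (q : ℤ) * (((𝒯 ∩ B).filter (fun p => γ p = x)).card : ℤ) ≤ q * (g + 1) := by
        exact_mod_cast h2
      push_cast
      linarith
    · rw [pair_inr0 _ hf]
      simp [TT, KK, if_neg hf]

/-- The lower bound. -/
theorem core_ineq (h0 : GroupLift) (h3 : FlatIneq) {g q : ℕ} {δ : ℝ} {𝓑 : Finset (Finset P)}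
    {C : Finset P → P → Finset P} (Bk : IsBook g q δ 𝓑 C pg s w κ) {B₀ : Finset P}
    (hB₀ : B₀ ∈ 𝓑) (hd : Disjoint N 𝒯)
    (hAd : Ad C B₀ (fun p => if p ∈ N ∪ 𝒯 then (1 : ℝ) else 0)) {p₁ : P} (hp₁ : p₁ ∉ N ∪ 𝒯)
    (hray : ∀ p ∈ N ∪ 𝒯, ∃ j, pg j = some p) (htr : ∀ p ∈ 𝒯, Triv q pg s κ p)
    (c : ι ⊕ (P × (P → ι)) → ℝ) (hc : ∀ j, 0 ≤ c j) (b : P ⊕ (P ⊕ Fin k) → ℤ) (hb : b ≠ 0)
    (hbc : ∀ x, (b x : ℝ) = ∑ j, c j * vv N 𝒯 γ pg s w j x) :
    ∃ ℓ ∈ 𝓑.image (LL k q 𝒯 γ), min δ (1 / 2) ≤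
      ∑ j, c j * (((∑ x, ℓ x * vv N 𝒯 γ pg s w j x : ℤ) : ℝ) - TT q N pg s κ j) := by
  classical
  set c₁ : ι → ℝ := fun j => if Rel N pg j then c (Sum.inl j) else 0 with hc₁
  set cf : P → (P → ι) → ℝ := fun x f => if Ok 𝒯 γ pg x f then c (Sum.inr (x, f)) else 0 with hcf
  have hc₁0 : ∀ j, 0 ≤ c₁ j := by
    intro j
    simp only [hc₁]
    split_ifs
    · exact hc _
    · exact le_refl _
  have hcf0 : ∀ x f, 0 ≤ cf x f := by
    intro x f
    simp only [hcf]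
    split_ifs
    · exact hc _
    · exact le_refl _
  have hb1 : ∀ p, (b (Sum.inl p) : ℝ) = psum pg s c₁ p := by
    intro p
    rw [hbc, Fintype.sum_sum_type]
    have h2 : ∑ xf : P × (P → ι), c (Sum.inr xf) *
        ((vv N 𝒯 γ pg s w (Sum.inr xf) (Sum.inl p) : ℤ) : ℝ) = 0 := by
      refine Finset.sum_eq_zero fun xf _ => ?_
      simp only [vv]
      split_ifs <;> simp
    rw [h2, add_zero]
    unfold psum
    refine Finset.sum_congr rfl fun j _ => ?_
    simp only [vv, hc₁]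
    by_cases hj : Rel N pg j
    · simp only [if_pos hj, Sum.elim_inl]
      split_ifs <;> simp
    · simp [if_neg hj]
  have hb2 : ∀ x, (b (Sum.inr (Sum.inl x)) : ℝ) = ∑ f, cf x f := by
    intro x
    rw [hbc, Fintype.sum_sum_type]
    have h2 : ∑ j, c (Sum.inl j) *
        ((vv N 𝒯 γ pg s w (Sum.inl j) (Sum.inr (Sum.inl x)) : ℤ) : ℝ) = 0 := by
      refine Finset.sum_eq_zero fun j _ => ?_
      simp only [vv]
      split_ifs <;> simp
    rw [h2, zero_add, Fintype.sum_prod_type, Finset.sum_eq_single x]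
    · refine Finset.sum_congr rfl fun f _ => ?_
      simp only [vv, hcf]
      by_cases hf : Ok 𝒯 γ pg x f
      · simp [if_pos hf]
      · simp [if_neg hf]
    · intro y _ hy
      refine Finset.sum_eq_zero fun f _ => ?_
      simp only [vv]
      by_cases hf : Ok 𝒯 γ pg y f
      · simp [if_pos hf, Ne.symm hy]
      · simp [if_neg hf]
    · intro h
      exact absurd (Finset.mem_univ _) h
  have hb3 : ∀ i, (b (Sum.inr (Sum.inr i)) : ℝ) = ∑ j, c₁ j * (w j i : ℝ) +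
      ∑ x, ∑ f, cf x f * ∑ p ∈ 𝒯.filter (fun p => γ p = x), (w (f p) i : ℝ) := by
    intro i
    rw [hbc, Fintype.sum_sum_type, Fintype.sum_prod_type]
    congr 1
    · refine Finset.sum_congr rfl fun j _ => ?_
      simp only [vv, hc₁]
      by_cases hj : Rel N pg j
      · simp [if_pos hj]
      · simp [if_neg hj]
    · refine Finset.sum_congr rfl fun x _ => Finset.sum_congr rfl fun f _ => ?_
      simp only [vv, hcf]
      by_cases hf : Ok 𝒯 γ pg x f
      · simp [if_pos hf]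
      · simp [if_neg hf]
  have hc₁N : ∀ j p, pg j = some p → p ∉ N → c₁ j = 0 := by
    intro j p hj hp
    simp only [hc₁]
    rw [if_neg]
    intro hr
    exact hp (hr p hj)
  obtain ⟨c', hc', hps, hpsT, heq, hw', hκ'⟩ := h0 P ι P k q pg s w κ 𝒯 γ htr c₁ cf hc₁0 hcf0
    (fun j p hj hp => hc₁N j p hj fun h => Finset.disjoint_left.1 hd h hp)
    (fun x f hne => by
      by_cases hf : Ok 𝒯 γ pg x f
      · exact hf.2
      · exact absurd (by simp only [hcf, if_neg hf]) hne)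
  have hpsN : ∀ p, p ∉ N → psum pg s c₁ p = 0 := by
    intro p hp
    unfold psum
    refine Finset.sum_eq_zero fun j _ => ?_
    split_ifs with hj
    · rw [hc₁N j p hj hp, zero_mul]
    · rfl
  obtain ⟨B, hB, hle⟩ := h3 P ι k g q δ 𝓑 C pg s w κ Bk B₀ hB₀ (N ∪ 𝒯) hAd ⟨p₁, hp₁⟩ hray c' hc'
    (fun j p hj hp => by
      rw [Finset.mem_union, not_or] at hp
      rw [heq j fun p' hp' => by rw [hj, Option.some.injEq] at hp'; rw [← hp']; exact hp.2]
      exact hc₁N j p hj hp.1)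
    (fun p => by
      by_cases hp : p ∈ 𝒯
      · exact ⟨b (Sum.inr (Sum.inl (γ p))), by rw [hpsT p hp, hb2]⟩
      · exact ⟨b (Sum.inl p), by rw [hps p hp, hb1]⟩)
    (fun i => b (Sum.inr (Sum.inr i)))
    (fun i => by rw [hw' i, hb3 i])
    (by
      by_contra hcon
      rw [not_or, not_not] at hcon
      obtain ⟨hcon1, hcon2⟩ := hcon
      push Not at hcon1
      apply hb
      funext z
      rcases z with p | x | i
      · by_cases hp : p ∈ N
        · have h2 : p ∉ 𝒯 := fun h => Finset.disjoint_left.1 hd hp h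
          have h4 := hcon1 p
          rw [hps p h2, ← hb1] at h4
          exact_mod_cast h4
        · have h4 := hb1 p
          rw [hpsN p hp] at h4
          exact_mod_cast h4
      · by_cases hx : x ∈ 𝒯.image γ
        · obtain ⟨p, hp, rfl⟩ := Finset.mem_image.1 hx
          have h4 := hcon1 p
          rw [hpsT p hp, ← hb2] at h4
          exact_mod_cast h4
        · have h4 := hb2 x
          rw [Finset.sum_eq_zero fun f _ => by
            simp only [hcf]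
            rw [if_neg]
            intro hf
            exact hx hf.1] at h4
          exact_mod_cast h4
      · exact congrFun hcon2 i)
  refine ⟨LL k q 𝒯 γ B, Finset.mem_image_of_mem _ hB, hle.trans (le_of_eq ?_)⟩
  -- the values
  have hA : ∀ j, c (Sum.inl j) * (((∑ x, LL k q 𝒯 γ B x * vv N 𝒯 γ pg s w (Sum.inl j) x : ℤ) : ℝ) -
      TT q N pg s κ (Sum.inl j)) = c₁ j * κ j -
        q * ∑ p ∈ N \ B, if pg j = some p then c₁ j * s j else 0 := by
    intro j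
    by_cases hj : Rel N pg j
    · rw [pair_inl _ hj]
      simp only [TT, if_pos hj, LL, Sum.elim_inl, Sum.elim_inr, zero_mul,
        Finset.sum_const_zero, add_zero, hc₁]
      rcases hpg : pg j with _ | p
      · simp
      · simp only [Option.elim_some, Option.some.injEq]
        rw [Finset.sum_ite_eq]
        have hpN : p ∈ N := hj p hpg
        by_cases hpB : p ∈ B
        · rw [if_pos hpB, if_neg (by simp [hpB])]
          push_cast
          ring
        · rw [if_neg hpB, if_pos (by simp [hpB, hpN])]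
          push_cast
          ring
    · rw [pair_inl0 _ hj]
      simp [TT, if_neg hj, hc₁]
  have hB' : ∀ x f, c (Sum.inr (x, f)) *
      (((∑ z, LL k q 𝒯 γ B z * vv N 𝒯 γ pg s w (Sum.inr (x, f)) z : ℤ) : ℝ) -
      TT q N pg s κ (Sum.inr (x, f))) =
        q * ((((𝒯 ∩ B).filter (fun p => γ p = x)).card : ℝ) * cf x f) := by
    intro x f
    by_cases hf : Ok 𝒯 γ pg x f
    · rw [pair_inr _ hf]
      simp only [TT, LL, Sum.elim_inl, Sum.elim_inr, zero_mul,
        Finset.sum_const_zero, add_zero, hcf, if_pos hf]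
      push_cast
      ring
    · rw [pair_inr0 _ hf]
      simp [TT, if_neg hf, hcf]
  rw [Fintype.sum_sum_type, Fintype.sum_prod_type]
  simp only [hA, hB']
  have e1 : ∑ x, ∑ f, (q : ℝ) * ((((𝒯 ∩ B).filter (fun p => γ p = x)).card : ℝ) * cf x f) =
      q * ∑ p ∈ 𝒯 ∩ B, ∑ f, cf (γ p) f := by
    rw [← sum_grp (𝒯 ∩ B) γ (fun x => ∑ f, cf x f), Finset.mul_sum]
    refine Finset.sum_congr rfl fun x _ => ?_
    rw [Finset.mul_sum, Finset.mul_sum]
  have e2 : ∑ j, (c₁ j * (κ j : ℝ) - q * ∑ p ∈ N \ B, if pg j = some p then c₁ j * s j else 0) =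
      ∑ j, c₁ j * (κ j : ℝ) - q * ∑ p ∈ N \ B, psum pg s c₁ p := by
    rw [Finset.sum_sub_distrib, ← Finset.mul_sum, Finset.sum_comm]
    rfl
  have e3 : ∑ x, ((𝒯.filter fun p => γ p = x).card : ℝ) * ∑ f, cf x f =
      ∑ p ∈ 𝒯 ∩ B, ∑ f, cf (γ p) f + ∑ p ∈ 𝒯 \ B, ∑ f, cf (γ p) f := by
    rw [sum_grp 𝒯 γ (fun x => ∑ f, cf x f), Finset.sum_inter_add_sum_sdiff]
  have e4 : ∑ p ∈ (N ∪ 𝒯) \ B, psum pg s c' p =
      ∑ p ∈ N \ B, psum pg s c₁ p + ∑ p ∈ 𝒯 \ B, ∑ f, cf (γ p) f := by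
    rw [Finset.union_sdiff_distrib, Finset.sum_union (hd.mono Finset.sdiff_subset
      Finset.sdiff_subset)]
    congr 1
    · refine Finset.sum_congr rfl fun p hp => hps p fun h => ?_
      exact Finset.disjoint_left.1 hd (Finset.mem_sdiff.1 hp).1 h
    · exact Finset.sum_congr rfl fun p hp => hpsT p (Finset.mem_sdiff.1 hp).1
  rw [e1, e2]
  unfold vl
  rw [hκ', e3, e4]
  ring

/-- A choice of rays. -/
theorem ex_choice (A : Finset P) {Q : P → ι → Prop} (h : ∀ p ∈ A, ∃ j, Q p j)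
    (hne : A.Nonempty) : ∃ f : P → ι, ∀ p ∈ A, Q p (f p) := by
  classical
  obtain ⟨p0, hp0⟩ := hne
  obtain ⟨j0, _⟩ := h p0 hp0
  have h' : ∀ p, ∃ j, p ∈ A → Q p j := fun p => by
    by_cases hp : p ∈ A
    · obtain ⟨j, hj⟩ := h p hp
      exact ⟨j, fun _ => hj⟩
    · exact ⟨j0, fun h => absurd h hp⟩
  choose f hf using h'
  exact ⟨f, fun p hp => hf p hp⟩

/-- The least values on the pages. -/
theorem ex_min (A : Finset P) (pg : ι → Option P) (w : ι → Fin k → ℤ) (u : Fin k → ℤ)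
    (h : ∀ p ∈ A, ∃ j, pg j = some p) :
    ∃ m : P → ℤ, ∀ p ∈ A, (∃ j, pg j = some p ∧ ∑ i, u i * w j i = m p) ∧
      ∀ j, pg j = some p → m p ≤ ∑ i, u i * w j i := by
  classical
  have h' : ∀ p, ∃ m : ℤ, p ∈ A → (∃ j, pg j = some p ∧ ∑ i, u i * w j i = m) ∧
      ∀ j, pg j = some p → m ≤ ∑ i, u i * w j i := by
    intro p
    by_cases hp : p ∈ A
    · obtain ⟨j, hj⟩ := h p hp
      obtain ⟨j0, hj0, hmin⟩ := Finset.exists_min_image
        (Finset.univ.filter fun j => pg j = some p) (fun j => ∑ i, u i * w j i)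
        ⟨j, by simp [hj]⟩
      exact ⟨∑ i, u i * w j0 i, fun _ => ⟨⟨j0, (Finset.mem_filter.1 hj0).2, rfl⟩,
        fun j' hj' => hmin j' (by simp [hj'])⟩⟩
    · exact ⟨0, fun h => absurd h hp⟩
  choose m hm using h'
  exact ⟨m, hm⟩

/-- The condition for a group. -/
theorem grp_ineq (Y : P ⊕ (P ⊕ Fin k) → ℤ)
    (hY : ∀ x f, 0 ≤ ∑ z, Y z * vv N 𝒯 γ pg s w (Sum.inr (x, f)) z) (m : P → ℤ)
    (hm : ∀ p ∈ 𝒯, ∃ j, pg j = some p ∧ ∑ i, Y (Sum.inr (Sum.inr i)) * w j i = m p) {x : P}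
    (hx : x ∈ 𝒯.image γ) :
    0 ≤ Y (Sum.inr (Sum.inl x)) + ∑ p ∈ 𝒯.filter (fun p => γ p = x), m p := by
  obtain ⟨p, hp, rfl⟩ := Finset.mem_image.1 hx
  obtain ⟨f, hf⟩ := ex_choice 𝒯 hm ⟨p, hp⟩
  have h1 := hY (γ p) f
  rw [pair_inr Y ⟨hx, fun p' hp' _ => (hf p' hp').1⟩] at h1
  refine h1.trans (le_of_eq ?_)
  congr 1
  exact Finset.sum_congr rfl fun p' hp' => (hf p' (Finset.mem_filter.1 hp').1).2

/-- The target. -/
def tg (N 𝒯 : Finset P) (γ : P → P) (σ : P → ℕ) (a : Fin k → ℤ) : P ⊕ (P ⊕ Fin k) → ℤ :=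
  Sum.elim (fun p => if p ∈ N then (σ p : ℤ) else 0)
    (Sum.elim (fun x => if x ∈ 𝒯.image γ then (σ x : ℤ) else 0) a)

theorem pair_tg (Y : P ⊕ (P ⊕ Fin k) → ℤ) (σ : P → ℕ) (a : Fin k → ℤ) :
    ∑ z, Y z * tg N 𝒯 γ σ a z = ∑ p ∈ N, Y (Sum.inl p) * σ p +
      (∑ x ∈ 𝒯.image γ, Y (Sum.inr (Sum.inl x)) * σ x + ∑ i, Y (Sum.inr (Sum.inr i)) * a i) := by
  rw [Fintype.sum_sum_type, Fintype.sum_sum_type]
  simp only [tg, Sum.elim_inl, Sum.elim_inr, mul_ite, mul_zero]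
  rw [Finset.sum_ite_mem, Finset.sum_ite_mem, Finset.univ_inter, Finset.univ_inter]

theorem sum_NT (hd : Disjoint N 𝒯) (F : P → ℤ) (hF : ∀ p, p ∉ N ∪ 𝒯 → F p = 0) :
    ∑ p, F p = ∑ p ∈ N, F p + ∑ p ∈ 𝒯, F p := by
  rw [← Finset.sum_union hd]
  exact (Finset.sum_subset (Finset.subset_univ _) fun p _ hp => hF p hp).symm

/-- Sums over the groups. -/
theorem sum_fib (σ : P → ℕ) (hγ : ∀ p ∈ 𝒯, σ (γ p) = σ p) (F : P → ℤ) :
    ∑ x ∈ 𝒯.image γ, (∑ p ∈ 𝒯.filter (fun p => γ p = x), F p) * σ x = ∑ p ∈ 𝒯, F p * σ p := by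
  rw [← Finset.sum_fiberwise_of_maps_to (g := γ) (fun p hp => Finset.mem_image_of_mem γ hp)
    (fun p => F p * (σ p : ℤ))]
  refine Finset.sum_congr rfl fun x _ => ?_
  rw [Finset.sum_mul]
  refine Finset.sum_congr rfl fun p hp => ?_
  obtain ⟨h1, h2⟩ := Finset.mem_filter.1 hp
  rw [← hγ p h1, h2]

/-- The value of a linear function at the target. -/
theorem LL_tg (q : ℕ) (hd : Disjoint N 𝒯) (σ : P → ℕ) (a : Fin k → ℤ)
    (hγ : ∀ p ∈ 𝒯, σ (γ p) = σ p) (hσ : ∀ p, p ∉ N ∪ 𝒯 → σ p = 0) (B : Finset P) :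
    ∑ z, LL k q 𝒯 γ B z * tg N 𝒯 γ σ a z = q * ∑ p ∈ B, (σ p : ℤ) := by
  rw [pair_tg]
  simp only [LL, Sum.elim_inl, Sum.elim_inr, zero_mul, Finset.sum_const_zero, add_zero]
  have e1 : ∀ x, (((𝒯 ∩ B).filter (fun p => γ p = x)).card : ℤ) =
      ∑ p ∈ 𝒯.filter (fun p => γ p = x), if p ∈ B then (1 : ℤ) else 0 := by
    intro x
    rw [← Finset.sum_filter, Finset.sum_const, nsmul_eq_mul, mul_one]
    congr 2
    ext p
    simp only [Finset.mem_filter, Finset.mem_inter]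
    tauto
  have e2 : ∑ x ∈ 𝒯.image γ, (q : ℤ) * (((𝒯 ∩ B).filter (fun p => γ p = x)).card : ℤ) * σ x =
      q * ∑ p ∈ 𝒯, (if p ∈ B then (1 : ℤ) else 0) * σ p := by
    rw [← sum_fib σ hγ, Finset.mul_sum]
    refine Finset.sum_congr rfl fun x _ => ?_
    rw [e1]
    ring
  have e3 : ∑ p ∈ N, (if p ∈ B then (q : ℤ) else 0) * σ p =
      q * ∑ p ∈ N, (if p ∈ B then (1 : ℤ) else 0) * σ p := by
    rw [Finset.mul_sum]
    refine Finset.sum_congr rfl fun p _ => ?_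
    split_ifs <;> ring
  rw [e2, e3, ← mul_add, ← sum_NT hd _ fun p hp => by rw [hσ p hp, Nat.cast_zero, mul_zero]]
  congr 1
  simp only [ite_mul, one_mul, zero_mul]
  rw [Finset.sum_ite_mem, Finset.univ_inter]

/-- The functional on the pages: `Y` on `N`, `-m` on `𝒯`, `d` elsewhere. -/
def ee (N 𝒯 : Finset P) (Y : P ⊕ (P ⊕ Fin k) → ℤ) (m : P → ℤ) (d : ℤ) (p : P) : ℤ :=
  if p ∈ N then Y (Sum.inl p) else if p ∈ 𝒯 then -m p else d

theorem sum_ee (hd : Disjoint N 𝒯) (Y : P ⊕ (P ⊕ Fin k) → ℤ) (m : P → ℤ) (d : ℤ) {p₁ : P}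
    (hp₁ : p₁ ∉ N ∪ 𝒯) (e : P → ℤ) (he : ∀ p, p ≠ p₁ → e p = ee N 𝒯 Y m d p) (σ : P → ℕ)
    (hσ : ∀ p, p ∉ N ∪ 𝒯 → σ p = 0) :
    ∑ p, e p * (σ p : ℤ) = ∑ p ∈ N, Y (Sum.inl p) * σ p - ∑ p ∈ 𝒯, m p * σ p := by
  rw [sum_NT hd _ fun p hp => by rw [hσ p hp, Nat.cast_zero, mul_zero], sub_eq_add_neg,
    ← Finset.sum_neg_distrib]
  congr 1
  · refine Finset.sum_congr rfl fun p hp => ?_
    rw [he p fun h => hp₁ (by rw [← h]; exact Finset.mem_union_left _ hp), ee, if_pos hp]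
  · refine Finset.sum_congr rfl fun p hp => ?_
    rw [he p fun h => hp₁ (by rw [← h]; exact Finset.mem_union_right _ hp), ee,
      if_neg fun h => Finset.disjoint_left.1 hd h hp, if_pos hp]
    ring

/-- The target lies in the cone. -/
theorem dual_ok {q : ℕ} {σ : P → ℕ} {a : Fin k → ℤ} (hin : InBook pg s w σ a)
    (hd : Disjoint N 𝒯) {p₁ : P} (hp : ∀ j, pg j ≠ some p₁) (hp₁ : p₁ ∉ N ∪ 𝒯)
    (hσ : ∀ p, p ∉ N ∪ 𝒯 → σ p = 0) (hγ : ∀ p ∈ 𝒯, σ (γ p) = σ p)
    (htr : ∀ p ∈ 𝒯, Triv q pg s κ p) (hray : ∀ p ∈ N ∪ 𝒯, ∃ j, pg j = some p)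
    (hpos : ∀ j p, pg j = some p → 0 < s j) (u : P ⊕ (P ⊕ Fin k) → ℤ)
    (hu : ∀ j, 0 ≤ ∑ x, vv N 𝒯 γ pg s w j x * u x) : 0 ≤ ∑ x, tg N 𝒯 γ σ a x * u x := by
  have hu' : ∀ j, 0 ≤ ∑ x, u x * vv N 𝒯 γ pg s w j x := by
    intro j
    refine (hu j).trans (le_of_eq (Finset.sum_congr rfl fun x _ => mul_comm _ _))
  obtain ⟨m, hm⟩ := ex_min 𝒯 pg w (fun i => u (Sum.inr (Sum.inr i)))
    fun p hp => hray p (Finset.mem_union_right _ hp)
  obtain ⟨e, he, he0⟩ := exists_sum_zero p₁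
    (ee N 𝒯 u m (bd w (fun i => u (Sum.inr (Sum.inr i)))))
  have h2 := hin e (fun i => u (Sum.inr (Sum.inr i))) he0.le (fun j => by
    rcases hj : pg j with _ | p
    · have h3 := hu' (Sum.inl j)
      rw [pair_inl u (fun p h => by rw [hj] at h; exact absurd h (by simp)), hj] at h3
      simpa using h3
    · simp only [Option.elim_some]
      have hpne : p ≠ p₁ := fun h => hp j (by rw [hj, h])
      rw [he p hpne]
      by_cases hpN : p ∈ N
      · rw [ee, if_pos hpN]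
        have h3 := hu' (Sum.inl j)
        rw [pair_inl u (fun p' h => by rw [hj, Option.some.injEq] at h; rw [← h]; exact hpN),
          hj] at h3
        simp only [Option.elim_some] at h3
        rw [mul_comm]
        exact h3
      · rw [ee, if_neg hpN]
        by_cases hpT : p ∈ 𝒯
        · rw [if_pos hpT, (htr p hpT j hj).1]
          have h3 := (hm p hpT).2 j hj
          push_cast
          linarith
        · rw [if_neg hpT]
          have h3 := abs_le_bd w (fun i => u (Sum.inr (Sum.inr i))) j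
          have h4 := neg_abs_le (∑ i, u (Sum.inr (Sum.inr i)) * w j i)
          have h5 := bd_nonneg w (fun i => u (Sum.inr (Sum.inr i)))
          have h6 : (1 : ℤ) ≤ s j := by exact_mod_cast hpos j p hj
          nlinarith)
  have h3 : ∑ p, (σ p : ℤ) * e p = ∑ p, e p * (σ p : ℤ) :=
    Finset.sum_congr rfl fun p _ => mul_comm _ _
  rw [h3, sum_ee hd u m _ hp₁ e he σ hσ, ← sum_fib σ hγ] at h2
  have h4 : ∑ x, tg N 𝒯 γ σ a x * u x = ∑ x, u x * tg N 𝒯 γ σ a x :=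
    Finset.sum_congr rfl fun x _ => mul_comm _ _
  rw [h4, pair_tg]
  have h5 : 0 ≤ ∑ x ∈ 𝒯.image γ, (u (Sum.inr (Sum.inl x)) +
      ∑ p ∈ 𝒯.filter (fun p => γ p = x), m p) * σ x := by
    refine Finset.sum_nonneg fun x hx => mul_nonneg ?_ (Int.natCast_nonneg _)
    exact grp_ineq u (fun x f => hu' (Sum.inr (x, f))) m (fun p hp => (hm p hp).1) hx
  simp only [add_mul, Finset.sum_add_distrib] at h5
  linarith

/-- The solution over the reals. -/
theorem real_ok {g q r : ℕ} {σ : P → ℕ} {a : Fin k → ℤ} {B₀ : Finset P}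
    (hd : Disjoint N 𝒯)
    (hσ : ∀ p, p ∉ N ∪ 𝒯 → σ p = 0) (hγ : ∀ p ∈ 𝒯, σ (γ p) = σ p)
    (htr : ∀ p ∈ 𝒯, Triv q pg s κ p) {b : P → ℤ} {c : Fin k → ℤ}
    (hsol : Sol g q r pg s w κ b c) (ht : 0 < tval q r b c B₀ Finset.univ σ a) :
    ∃ Y : P ⊕ (P ⊕ Fin k) → ℤ,
      (∀ j, r * TT q N pg s κ j ≤ ∑ x, Y x * vv N 𝒯 γ pg s w j x) ∧
      ∑ x, Y x * tg N 𝒯 γ σ a x < r * ∑ x, LL k q 𝒯 γ B₀ x * tg N 𝒯 γ σ a x := by
  refine ⟨Sum.elim b (Sum.elim (fun x => ∑ p ∈ 𝒯.filter (fun p => γ p = x), b p)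
    (fun i => -c i)), fun j => ?_, ?_⟩
  · rcases j with j | ⟨x, f⟩
    · by_cases hj : Rel N pg j
      · rw [pair_inl _ hj]
        simp only [TT, if_pos hj, Sum.elim_inl, Sum.elim_inr, neg_mul, Finset.sum_neg_distrib]
        have h1 := hsol.2 j
        unfold fval at h1
        rcases hpg : pg j with _ | p
        · simp only [hpg, Option.elim_none] at h1 ⊢
          linarith
        · simp only [hpg, Option.elim_some] at h1 ⊢
          linarith
      · rw [pair_inl0 _ hj]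
        simp [TT, if_neg hj]
    · by_cases hf : Ok 𝒯 γ pg x f
      · rw [pair_inr _ hf]
        simp only [TT, Sum.elim_inl, Sum.elim_inr, neg_mul, Finset.sum_neg_distrib, mul_zero]
        rw [← sub_eq_add_neg, ← Finset.sum_sub_distrib]
        refine Finset.sum_nonneg fun p hp => ?_
        obtain ⟨hp1, hp2⟩ := Finset.mem_filter.1 hp
        have hj := hf.2 p hp1 hp2
        have h1 := hsol.2 (f p)
        unfold fval at h1
        rw [hj, (htr p hp1 (f p) hj).1, (htr p hp1 (f p) hj).2] at h1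
        simp only [Option.elim_some] at h1
        push_cast at h1
        linarith
      · rw [pair_inr0 _ hf]
        simp [TT]
  · rw [LL_tg q hd σ a hγ hσ, pair_tg]
    simp only [Sum.elim_inl, Sum.elim_inr, neg_mul, Finset.sum_neg_distrib]
    rw [sum_fib σ hγ]
    unfold tval at ht
    rw [sum_NT hd _ fun p hp => by rw [hσ p hp, Nat.cast_zero, mul_zero]] at ht
    linarith

/-- Bases. -/
theorem sum_basis {n : ℕ} {𝓑 : Finset (Finset P)} {C : Finset P → P → Finset P}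
    (M : IsMat n 𝓑 C) {B₀ B : Finset P} (hB₀ : B₀ ∈ 𝓑) (hB : B ∈ 𝓑) {σ : P → ℕ}
    (hAd : Ad C B₀ σ) : ∑ p ∈ B, (σ p : ℤ) ≤ ∑ p ∈ B₀, (σ p : ℤ) := by
  obtain ⟨f, hf, hfC⟩ := M.mtch B₀ hB₀ B hB
  calc ∑ p ∈ B, (σ p : ℤ) ≤ ∑ p ∈ B, (σ (f p) : ℤ) :=
        Finset.sum_le_sum fun p hp => by exact_mod_cast (hAd p).1 (f p) (hfC p hp)
    _ = ∑ y ∈ B.image f, (σ y : ℤ) := 
        (Finset.sum_image (f := fun y => (σ y : ℤ)) fun x hx y hy h => hf hx hy h).symm
    _ ≤ ∑ p ∈ B₀, (σ p : ℤ) := by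
        refine Finset.sum_le_sum_of_subset_of_nonneg ?_ fun _ _ _ => Int.natCast_nonneg _
        intro y hy
        obtain ⟨p, hp, rfl⟩ := Finset.mem_image.1 hy
        exact M.sub B₀ hB₀ p (hfC p hp)

/-- The solution of the book. -/
theorem back_ok {g q K : ℕ} {σ : P → ℕ} {a : Fin k → ℤ} {B₀ B : Finset P}
    (hd : Disjoint N 𝒯) {p₁ : P} (hp : ∀ j, pg j ≠ some p₁) (hp₁ : p₁ ∉ N ∪ 𝒯)
    (hσ : ∀ p, p ∉ N ∪ 𝒯 → σ p = 0) (hγ : ∀ p ∈ 𝒯, σ (γ p) = σ p)
    (htr : ∀ p ∈ 𝒯, Triv q pg s κ p) (hray : ∀ p ∈ N ∪ 𝒯, ∃ j, pg j = some p)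
    (hpos : ∀ j p, pg j = some p → 0 < s j)
    (hBB : ∑ p ∈ B, (σ p : ℤ) ≤ ∑ p ∈ B₀, (σ p : ℤ)) (Y : P ⊕ (P ⊕ Fin k) → ℤ)
    (hY : ∀ j, K * TT q N pg s κ j ≤ ∑ x, Y x * vv N 𝒯 γ pg s w j x)
    (hYt : ∑ x, Y x * tg N 𝒯 γ σ a x < K * ∑ x, LL k q 𝒯 γ B x * tg N 𝒯 γ σ a x) :
    Good g q K pg s w κ B₀ σ a := by
  obtain ⟨m, hm⟩ := ex_min 𝒯 pg w (fun i => Y (Sum.inr (Sum.inr i)))
    fun p hp => hray p (Finset.mem_union_right _ hp)
  obtain ⟨b, hb, hb0⟩ := exists_sum_zero p₁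
    (ee N 𝒯 Y m (q * K + bd w (fun i => -Y (Sum.inr (Sum.inr i)))))
  refine ⟨b, fun i => -Y (Sum.inr (Sum.inr i)), ⟨?_, fun j => ?_⟩, ?_⟩
  · rw [hb0]; positivity
  · unfold fval
    rcases hj : pg j with _ | p
    · have h3 := hY (Sum.inl j)
      have hR : Rel N pg j := fun p h => by rw [hj] at h; exact absurd h (by simp)
      rw [pair_inl Y hR, hj] at h3
      simp only [TT, if_pos hR, hj, Option.elim_none] at h3 ⊢
      simp only [neg_mul, Finset.sum_neg_distrib]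
      linarith
    · simp only [Option.elim_some]
      have hpne : p ≠ p₁ := fun h => hp j (by rw [hj, h])
      rw [hb p hpne]
      by_cases hpN : p ∈ N
      · rw [ee, if_pos hpN]
        have h3 := hY (Sum.inl j)
        have hR : Rel N pg j := fun p' h => by
          rw [hj, Option.some.injEq] at h; rw [← h]; exact hpN
        rw [pair_inl Y hR, hj] at h3
        simp only [TT, if_pos hR, hj, Option.elim_some] at h3 ⊢
        simp only [neg_mul, Finset.sum_neg_distrib]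
        linarith
      · rw [ee, if_neg hpN]
        by_cases hpT : p ∈ 𝒯
        · rw [if_pos hpT, (htr p hpT j hj).1, (htr p hpT j hj).2]
          have h3 := (hm p hpT).2 j hj
          simp only [neg_mul, Finset.sum_neg_distrib]
          push_cast
          linarith
        · rw [if_neg hpT]
          have h3 := abs_le_bd w (fun i => -Y (Sum.inr (Sum.inr i))) j
          have h4 := le_abs_self (∑ i, (-Y (Sum.inr (Sum.inr i))) * w j i)
          have h5 := bd_nonneg w (fun i => -Y (Sum.inr (Sum.inr i)))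
          have h6 : (1 : ℤ) ≤ s j := by exact_mod_cast hpos j p hj
          have h7 : (0 : ℤ) ≤ K * κ j := by positivity
          nlinarith
  · rw [LL_tg q hd σ a hγ hσ, pair_tg] at hYt
    unfold tval
    rw [sum_ee hd Y m _ hp₁ b hb σ hσ, ← sum_fib σ hγ]
    have h5 : 0 ≤ ∑ x ∈ 𝒯.image γ, (Y (Sum.inr (Sum.inl x)) +
        ∑ p ∈ 𝒯.filter (fun p => γ p = x), m p) * σ x := by
      refine Finset.sum_nonneg fun x hx => mul_nonneg ?_ (Int.natCast_nonneg _)
      refine grp_ineq (N := N) (s := s) Y (fun x f => ?_) m (fun p hp => (hm p hp).1) hx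
      have h6 := hY (Sum.inr (x, f))
      simpa [TT] using h6
    simp only [add_mul, Finset.sum_add_distrib] at h5
    have h6 : (q : ℤ) * K * ∑ p ∈ B, (σ p : ℤ) ≤ q * K * ∑ p ∈ B₀, (σ p : ℤ) :=
      mul_le_mul_of_nonneg_left hBB (by positivity)
    simp only [neg_mul, Finset.sum_neg_distrib]
    linarith

end Core

theorem c6 (hp : T647.PointDoi) (h0 : GroupLift) (h1 : CountRow) (h3 : FlatIneq) : CaseA := by
  classical
  intro k g q δ hδ
  obtain ⟨k₀, hk₀, H⟩ := doiS hp (2 * q * (g + 1) + 2 * (g + 1) + k) ((g + 1) * q)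
    (min δ (1 / 2)) (lt_min hδ (by norm_num))
  refine ⟨k₀, hk₀, ?_⟩
  intro P ι _ _ _ 𝓑 C pg s w κ Bk hreal p₁ hp₁ K hK hK0 B₀ σ a hpt hin
  obtain ⟨hB₀, hAd, -, hne⟩ := hpt
  -- pages without rays
  have hempty : ∀ p, (∀ j, pg j ≠ some p) → σ p = 0 := by
    intro p hpj
    have h2 := hin (fun p' => if p' = p then -1 else 0) 0 (by simp) (fun j => by
      rcases hj : pg j with _ | p'
      · simp
      · have hpne : p' ≠ p := fun h => hpj j (by rw [hj, h])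
        simp [hpne])
    simp at h2
    omega
  have hrayσ : ∀ p, σ p ≠ 0 → ∃ j, pg j = some p := by
    intro p hσp
    by_contra hcon
    push Not at hcon
    exact hσp (hempty p hcon)
  let F : Finset P := Finset.univ.filter fun p => σ p ≠ 0
  have hF : ∀ p, p ∈ F ↔ σ p ≠ 0 := fun p => by simp [F]
  let N : Finset P := F.filter fun p => p ∈ B₀ ∨ ¬ Triv q pg s κ p
  let 𝒯 : Finset P := F.filter fun p => ¬ (p ∈ B₀ ∨ ¬ Triv q pg s κ p)
  have hNT : N ∪ 𝒯 = F := Finset.filter_union_filter_not_eq _ _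
  have hd : Disjoint N 𝒯 := Finset.disjoint_filter_filter_not _ _ _
  have hγex : ∀ p, ∃ b, b ∈ C B₀ p ∧ σ p = σ b := fun p => (hAd p).2
  choose γ hγC hγσ using hγex
  have hγB : ∀ p, γ p ∈ B₀ := fun p => Bk.mat.sub B₀ hB₀ p (hγC p)
  have htr : ∀ p ∈ 𝒯, Triv q pg s κ p := by
    intro p hpT
    have h2 := (Finset.mem_filter.1 hpT).2
    rw [not_or, not_not] at h2
    exact h2.2
  have hAdF : Ad C B₀ (fun p => if p ∈ N ∪ 𝒯 then (1 : ℝ) else 0) := by
    intro p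
    simp only [hNT, hF]
    refine ⟨fun b hb => ?_, γ p, hγC p, by rw [hγσ p]⟩
    by_cases h2 : σ p = 0
    · rw [if_neg (by simpa using h2)]
      split_ifs <;> norm_num
    · have h4 := (hAd p).1 b hb
      rw [if_pos h2, if_pos (by omega)]
  have hNN : (F.filter fun p => ¬ Triv q pg s κ p).card ≤ 2 * q * (g + 1) :=
    h1 P ι k g q δ 𝓑 C pg s w κ Bk B₀ hB₀ F (by rw [← hNT]; exact hAdF)
      (fun p hpF => hrayσ p ((hF p).1 hpF)) _ (Finset.filter_subset _ _)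
      (fun p hpF => (Finset.mem_filter.1 hpF).2)
  have hNcard : N.card ≤ (g + 1) + 2 * q * (g + 1) := by
    have h2 : N ⊆ B₀ ∪ F.filter fun p => ¬ Triv q pg s κ p := by
      intro p hpN
      obtain ⟨h4, h5⟩ := Finset.mem_filter.1 hpN
      rcases h5 with h5 | h5
      · exact Finset.mem_union_left _ h5
      · exact Finset.mem_union_right _ (Finset.mem_filter.2 ⟨h4, h5⟩)
    have h4 := (Finset.card_le_card h2).trans (Finset.card_union_le _ _)
    rw [Bk.mat.card B₀ hB₀] at h4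
    omega
  have hGcard : (𝒯.image γ).card ≤ g + 1 := by
    rw [← Bk.mat.card B₀ hB₀]
    refine Finset.card_le_card fun x hx => ?_
    obtain ⟨p, -, rfl⟩ := Finset.mem_image.1 hx
    exact hγB p
  have hp₁F : p₁ ∉ N ∪ 𝒯 := by
    rw [hNT, hF, not_not]
    exact hempty p₁ hp₁
  have hσ0 : ∀ p, p ∉ N ∪ 𝒯 → σ p = 0 := by
    intro p hpF
    rw [hNT, hF, not_not] at hpF
    exact hpF
  have hray : ∀ p ∈ N ∪ 𝒯, ∃ j, pg j = some p := by
    intro p hpF
    rw [hNT, hF] at hpF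
    exact hrayσ p hpF
  have hγ' : ∀ p ∈ 𝒯, σ (γ p) = σ p := fun p _ => (hγσ p).symm
  let S : Finset (P ⊕ (P ⊕ Fin k)) := N.disjSum ((𝒯.image γ).disjSum Finset.univ)
  have hS1 : ∀ p, Sum.inl p ∈ S ↔ p ∈ N := fun p => Finset.inl_mem_disjSum
  have hS2 : ∀ x, Sum.inr (Sum.inl x) ∈ S ↔ x ∈ 𝒯.image γ := fun x =>
    Finset.inr_mem_disjSum.trans Finset.inl_mem_disjSum
  have hS3 : ∀ i, Sum.inr (Sum.inr i) ∈ S := fun i =>
    Finset.inr_mem_disjSum.2 (Finset.inr_mem_disjSum.2 (Finset.mem_univ i))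
  have hScard : S.card ≤ 2 * q * (g + 1) + 2 * (g + 1) + k := by
    rw [Finset.card_disjSum, Finset.card_disjSum, Finset.card_univ, Fintype.card_fin]
    omega
  have hvS : ∀ j x, x ∉ S → vv N 𝒯 γ pg s w j x = 0 := by
    intro j z hz
    rcases j with j | xf
    · by_cases hj : Rel N pg j
      · simp only [vv, if_pos hj]
        rcases z with p | x | i
        · rw [hS1] at hz
          simp only [Sum.elim_inl]
          rw [if_neg fun h => hz (hj p h)]
        · rfl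
        · exact absurd (hS3 i) hz
      · simp only [vv, if_neg hj]
    · by_cases hf : Ok 𝒯 γ pg xf.1 xf.2
      · simp only [vv, if_pos hf]
        rcases z with p | x | i
        · rfl
        · rw [hS2] at hz
          simp only [Sum.elim_inl, Sum.elim_inr]
          rw [if_neg]
          intro h
          exact hz (h ▸ hf.1)
        · exact absurd (hS3 i) hz
      · simp only [vv, if_neg hf]
  have htS : ∀ x, x ∉ S → tg N 𝒯 γ σ a x = 0 := by
    intro z hz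
    rcases z with p | x | i
    · rw [hS1] at hz
      simp [tg, hz]
    · rw [hS2] at hz
      simp only [tg, Sum.elim_inl, Sum.elim_inr]
      rw [if_neg hz]
    · exact absurd (hS3 i) hz
  obtain ⟨Y, hY, ℓ, hℓ, hYt⟩ := H (P ⊕ (P ⊕ Fin k)) (ι ⊕ (P × (P → ι))) S hScard
    (vv N 𝒯 γ pg s w) (𝓑.image (LL k q 𝒯 γ)) (TT q N pg s κ) (KK g q N 𝒯 γ pg κ) hvS
    (fun j => by
      rcases j with j | xf
      · simp only [KK]
        split_ifs
        · have := Bk.κq j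
          nlinarith
        · exact Nat.zero_le _
      · simp only [KK]
        split_ifs
        · exact le_refl _
        · exact Nat.zero_le _)
    (fun ℓ hℓ j => by
      obtain ⟨B, hB, rfl⟩ := Finset.mem_image.1 hℓ
      exact LL_le g q (Bk.mat.card B hB) j)
    (fun c hc b hb hbc =>
      core_ineq h0 h3 Bk hB₀ hd hAdF hp₁F hray htr c hc b hb hbc)
    K hK hK0 (tg N 𝒯 γ σ a)
    (by
      intro ht0
      rcases hne with h2 | h2
      · apply h2
        funext p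
        have h4 := congrFun ht0 (Sum.inl (γ p))
        simp only [tg, Sum.elim_inl, Pi.zero_apply] at h4
        by_cases h5 : γ p ∈ N
        · rw [if_pos h5] at h4
          rw [hγσ p]
          exact_mod_cast h4
        · have h6 : γ p ∉ F := fun h => h5 (Finset.mem_filter.2 ⟨h, Or.inl (hγB p)⟩)
          rw [hF, not_not] at h6
          rw [hγσ p]
          exact h6
      · apply h2
        funext i
        exact congrFun ht0 (Sum.inr (Sum.inr i)))
    htS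
    (fun u hu => dual_ok hin hd hp₁ hp₁F hσ0 hγ' htr hray Bk.pos u hu)
    (by
      obtain ⟨r, hr, b, c, hsol, ht⟩ := hreal B₀ σ a ⟨hB₀, hAd, ⟨p₁, hempty p₁ hp₁⟩, hne⟩ hin
      obtain ⟨Y, hY1, hY2⟩ := real_ok hd hσ0 hγ' htr hsol ht
      exact ⟨r, Y, hY1, LL k q 𝒯 γ B₀, Finset.mem_image_of_mem _ hB₀, hY2⟩)
  obtain ⟨B, hB, rfl⟩ := Finset.mem_image.1 hℓ
  exact back_ok hd hp₁ hp₁F hσ0 hγ' htr hray Bk.pos (sum_basis Bk.mat hB₀ hB hAd) Y hY hYt

end Vale.Agent.P283.M647
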