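import Vale.Agent.P283.M647.Props

/-!
C7. The matroid of an arrangement.
-/

set_option linter.all false

namespace Vale.Agent.P283.M647

open Finset

namespace C7

variable {g R : ℕ} {a : Fin R → Fin (g + 1) → ℂ}

/-- The matrix of a basis. -/
def mx (a : Fin R → Fin (g + 1) → ℂ) (e : Fin (g + 1) → Option (Fin R)) :
    Matrix (Fin (g + 1)) (Fin (g + 1)) ℂ := Matrix.of fun i => vec a (e i)

/-- The coordinates in a basis. -/
noncomputable def ce (a : Fin R → Fin (g + 1) → ℂ) (e : Fin (g + 1) → Option (Fin R))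
    (u : Fin (g + 1) → ℂ) : Fin (g + 1) → ℂ := Matrix.vecMul u (mx a e)⁻¹

theorem unit_det {e : Fin (g + 1) → Option (Fin R)} (h : IsBas a e) : IsUnit (mx a e).det :=
  isUnit_iff_ne_zero.2 h

theorem ce_mul {e : Fin (g + 1) → Option (Fin R)} (h : IsBas a e) (u : Fin (g + 1) → ℂ) :
    Matrix.vecMul (ce a e u) (mx a e) = u := by
  unfold ce
  rw [Matrix.vecMul_vecMul, Matrix.nonsing_inv_mul _ (unit_det h), Matrix.vecMul_one]

theorem mul_ce {e : Fin (g + 1) → Option (Fin R)} (h : IsBas a e) (c : Fin (g + 1) → ℂ) :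
    ce a e (Matrix.vecMul c (mx a e)) = c := by
  unfold ce
  rw [Matrix.vecMul_vecMul, Matrix.mul_nonsing_inv _ (unit_det h), Matrix.vecMul_one]

theorem vecMul_eq (e : Fin (g + 1) → Option (Fin R)) (c : Fin (g + 1) → ℂ) :
    Matrix.vecMul c (mx a e) = ∑ i, c i • vec a (e i) := by
  funext j
  rw [Finset.sum_apply]
  rfl

theorem rep {e : Fin (g + 1) → Option (Fin R)} (h : IsBas a e) (u : Fin (g + 1) → ℂ) :
    u = ∑ i, ce a e u i • vec a (e i) := by
  rw [← vecMul_eq, ce_mul h]

theorem ce_zero (e : Fin (g + 1) → Option (Fin R)) : ce a e 0 = 0 := by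
  unfold ce
  rw [Matrix.zero_vecMul]

theorem ce_sum {ι : Type} (s : Finset ι) (e : Fin (g + 1) → Option (Fin R)) (c : ι → ℂ)
    (u : ι → Fin (g + 1) → ℂ) : ce a e (∑ x ∈ s, c x • u x) = ∑ x ∈ s, c x • ce a e (u x) := by
  classical
  unfold ce
  induction s using Finset.induction_on with
  | empty => simp
  | insert x s hx ih =>
    rw [Finset.sum_insert hx, Finset.sum_insert hx, Matrix.add_vecMul, Matrix.smul_vecMul, ih]

theorem ce_self {e : Fin (g + 1) → Option (Fin R)} (h : IsBas a e) (i : Fin (g + 1)) :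
    ce a e (vec a (e i)) = Pi.single i 1 := by
  have h1 : Matrix.vecMul (Pi.single i 1 : Fin (g + 1) → ℂ) (mx a e) = vec a (e i) := by
    rw [Matrix.single_one_vecMul]
    rfl
  rw [← h1, mul_ce h]

theorem inj_of {e : Fin (g + 1) → Option (Fin R)} (h : IsBas a e) : Function.Injective e := by
  intro i j hij
  by_contra hne
  apply h
  exact Matrix.det_zero_of_row_eq hne (by
    show vec a (e i) = vec a (e j)
    rw [hij])

open scoped Classical in
/-- The bases. -/
noncomputable def bs (a : Fin R → Fin (g + 1) → ℂ) : Finset (Finset (Option (Fin R))) :=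
  univ.filter fun B => ∃ e : Fin (g + 1) → Option (Fin R), IsBas a e ∧ univ.image e = B

open scoped Classical in
/-- An ordering of a basis. -/
noncomputable def od (a : Fin R → Fin (g + 1) → ℂ) (B : Finset (Option (Fin R))) :
    Fin (g + 1) → Option (Fin R) :=
  if h : ∃ e : Fin (g + 1) → Option (Fin R), IsBas a e ∧ univ.image e = B then h.choose
  else fun _ => none

open scoped Classical in
/-- The circuits. -/
noncomputable def cir (a : Fin R → Fin (g + 1) → ℂ) (B : Finset (Option (Fin R)))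
    (p : Option (Fin R)) : Finset (Option (Fin R)) :=
  (univ.filter fun i => ce a (od a B) (vec a p) i ≠ 0).image (od a B)

theorem mem_bs {B : Finset (Option (Fin R))} : B ∈ bs a ↔
    ∃ e : Fin (g + 1) → Option (Fin R), IsBas a e ∧ univ.image e = B := by
  classical
  unfold bs
  rw [mem_filter]
  constructor
  · rintro ⟨-, e, h1, h2⟩
    refine ⟨e, h1, ?_⟩
    rw [← h2]
  · rintro ⟨e, h1, h2⟩
    refine ⟨mem_univ _, e, h1, ?_⟩
    rw [← h2]

theorem mem_bs_of {e : Fin (g + 1) → Option (Fin R)} (h : IsBas a e)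
    {B : Finset (Option (Fin R))} (hB : ∀ p, p ∈ B ↔ ∃ i, e i = p) : B ∈ bs a := by
  rw [mem_bs]
  refine ⟨e, h, ?_⟩
  ext p
  rw [mem_image, hB]
  simp

theorem od_spec {B : Finset (Option (Fin R))} (h : B ∈ bs a) :
    IsBas a (od a B) ∧ ∀ p, p ∈ B ↔ ∃ i, od a B i = p := by
  classical
  have h1 : ∃ e : Fin (g + 1) → Option (Fin R), IsBas a e ∧ univ.image e = B := by
    obtain ⟨e, h1, h2⟩ := mem_bs.1 h
    exact ⟨e, h1, by rw [← h2]⟩
  unfold od
  rw [dif_pos h1]
  obtain ⟨h2, h3⟩ := h1.choose_spec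
  refine ⟨h2, fun p => ?_⟩
  conv_lhs => rw [← h3]
  rw [mem_image]
  simp

theorem mem_cir {B : Finset (Option (Fin R))} {p b : Option (Fin R)} : b ∈ cir a B p ↔
    ∃ i, ce a (od a B) (vec a p) i ≠ 0 ∧ od a B i = b := by
  classical
  unfold cir
  rw [mem_image]
  simp

theorem vec_ne (hg : 0 < g) (h : IsArr a) (p : Option (Fin R)) : vec a p ≠ 0 := by
  obtain ⟨⟨e, he⟩, h2⟩ := h
  have hinj := inj_of he
  have h01 : (0 : Fin (g + 1)) ≠ Fin.last g := by
    intro h0
    have := congrArg Fin.val h0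
    rw [Fin.val_zero, Fin.val_last] at this
    omega
  obtain ⟨p', hp'⟩ : ∃ p', p ≠ p' := by
    by_cases h3 : p = e 0
    · exact ⟨e (Fin.last g), fun h4 => h01 (hinj (h3.symm.trans h4))⟩
    · exact ⟨e 0, h3⟩
  intro h0
  apply h2 p p' hp' 0
  rw [h0, zero_smul]

theorem card_bs {B : Finset (Option (Fin R))} (h : B ∈ bs a) : B.card = g + 1 := by
  classical
  obtain ⟨e, h1, h2⟩ := mem_bs.1 h
  rw [← h2, card_image_of_injective _ (inj_of h1), card_univ, Fintype.card_fin]

theorem sum_bs {B : Finset (Option (Fin R))} (h : B ∈ bs a) (w : Option (Fin R) → ℤ) :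
    ∑ p ∈ B, w p = ∑ i, w (od a B i) := by
  classical
  obtain ⟨h1, h2⟩ := od_spec h
  have h3 : B = univ.image (od a B) := by
    ext p
    rw [h2, mem_image]
    simp
  conv_lhs => rw [h3]
  exact sum_image fun x _ y _ hxy => inj_of h1 hxy

theorem exch {B : Finset (Option (Fin R))} (hB : B ∈ bs a) (p b : Option (Fin R))
    (hb : b ∈ cir a B p) : insert p (B.erase b) ∈ bs a := by
  classical
  obtain ⟨h1, h2⟩ := od_spec hB
  obtain ⟨i, hi, rfl⟩ := mem_cir.1 hb
  have hinj := inj_of h1
  have hbas : IsBas a (Function.update (od a B) i p) := by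
    unfold IsBas
    have h3 : (Matrix.of fun j => vec a (Function.update (od a B) i p j)) =
        (mx a (od a B)).updateRow i (∑ j, ce a (od a B) (vec a p) j • (mx a (od a B)) j) := by
      have h4 : ∑ j, ce a (od a B) (vec a p) j • (mx a (od a B)) j = vec a p := (rep h1 _).symm
      rw [h4]
      ext j l
      by_cases hj : j = i
      · subst hj
        rw [Matrix.updateRow_self, Matrix.of_apply, Function.update_self]
      · rw [Matrix.updateRow_ne hj, Matrix.of_apply, Function.update_of_ne hj]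
        rfl
    rw [h3, Matrix.det_updateRow_sum]
    exact smul_ne_zero hi h1
  apply mem_bs_of hbas
  intro q
  rw [mem_insert, mem_erase, h2]
  constructor
  · rintro (rfl | ⟨h3, j, rfl⟩)
    · exact ⟨i, Function.update_self _ _ _⟩
    · refine ⟨j, Function.update_of_ne ?_ _ _⟩
      rintro rfl
      exact h3 rfl
  · rintro ⟨j, rfl⟩
    by_cases hj : j = i
    · subst hj
      exact Or.inl (Function.update_self _ _ _)
    · rw [Function.update_of_ne hj]
      exact Or.inr ⟨fun h3 => hj (hinj h3), j, rfl⟩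

theorem self {B : Finset (Option (Fin R))} (hB : B ∈ bs a) (p : Option (Fin R)) (hp : p ∈ B) :
    cir a B p = {p} := by
  classical
  obtain ⟨h1, h2⟩ := od_spec hB
  obtain ⟨i, rfl⟩ := (h2 p).1 hp
  ext q
  rw [mem_cir, mem_singleton, ce_self h1]
  constructor
  · rintro ⟨j, hj, rfl⟩
    by_cases hji : j = i
    · rw [hji]
    · exact absurd (Pi.single_eq_of_ne hji _) hj
  · rintro rfl
    refine ⟨i, ?_, rfl⟩
    rw [Pi.single_eq_same]
    exact one_ne_zero

theorem mtch {B B' : Finset (Option (Fin R))} (hB : B ∈ bs a) (hB' : B' ∈ bs a) :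
    ∃ f : Option (Fin R) → Option (Fin R), Set.InjOn f B' ∧ ∀ p ∈ B', f p ∈ cir a B p := by
  classical
  obtain ⟨h1, h2⟩ := od_spec hB
  obtain ⟨h1', h2'⟩ := od_spec hB'
  have hinj := inj_of h1
  have hinj' := inj_of h1'
  set e := od a B with he
  set e' := od a B' with he'
  set Mt : Matrix (Fin (g + 1)) (Fin (g + 1)) ℂ :=
    Matrix.of fun i => ce a e (vec a (e' i)) with hMt
  have hmul : Mt * mx a e = mx a e' := by
    ext i j
    have h3 := congrFun (ce_mul h1 (vec a (e' i))) j
    exact h3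
  have hdet : Mt.det ≠ 0 := by
    intro h0
    apply h1'
    have h3 := congrArg Matrix.det hmul
    rw [Matrix.det_mul, h0, zero_mul] at h3
    exact h3.symm
  rw [Matrix.det_apply] at hdet
  obtain ⟨τ, -, hτ⟩ := Finset.exists_ne_zero_of_sum_ne_zero hdet
  have hτ' : ∏ i, Mt (τ i) i ≠ 0 := by
    intro h0
    apply hτ
    rw [h0, smul_zero]
  have hne : ∀ i, ce a e (vec a (e' (τ i))) i ≠ 0 := fun i =>
    (Finset.prod_ne_zero_iff.1 hτ') i (mem_univ i)
  have hne' : ∀ i, ce a e (vec a (e' i)) (τ.symm i) ≠ 0 := fun i => by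
    have := hne (τ.symm i)
    rwa [Equiv.apply_symm_apply] at this
  refine ⟨fun p => if h : ∃ i, e' i = p then e (τ.symm h.choose) else p, ?_, ?_⟩
  · intro p hp q hq hpq
    have hp' := (h2' p).1 hp
    have hq' := (h2' q).1 hq
    simp only [dif_pos hp', dif_pos hq'] at hpq
    have h3 := τ.symm.injective (hinj hpq)
    rw [← hp'.choose_spec, ← hq'.choose_spec, h3]
  · intro p hp
    have hp' := (h2' p).1 hp
    simp only [dif_pos hp']
    rw [mem_cir]
    refine ⟨τ.symm hp'.choose, ?_, rfl⟩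
    have h3 := hne' hp'.choose
    rwa [hp'.choose_spec] at h3

theorem trans {B B' : Finset (Option (Fin R))} (hB : B ∈ bs a) (hB' : B' ∈ bs a)
    (p x : Option (Fin R)) (hx : x ∈ cir a B' p) :
    ∃ b ∈ cir a B p, x ∈ cir a B' b := by
  classical
  obtain ⟨h1, h2⟩ := od_spec hB
  obtain ⟨j, hj, rfl⟩ := mem_cir.1 hx
  have h3 := rep h1 (vec a p)
  have h4 : ce a (od a B') (vec a p) =
      ∑ i, ce a (od a B) (vec a p) i • ce a (od a B') (vec a (od a B i)) := by
    conv_lhs => rw [h3]
    exact ce_sum _ _ _ _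
  rw [h4, Finset.sum_apply] at hj
  obtain ⟨i, -, hi⟩ := Finset.exists_ne_zero_of_sum_ne_zero hj
  rw [Pi.smul_apply, smul_eq_mul] at hi
  refine ⟨od a B i, mem_cir.2 ⟨i, left_ne_zero_of_mul hi, rfl⟩, mem_cir.2
    ⟨j, right_ne_zero_of_mul hi, rfl⟩⟩

theorem simple (h : IsArr a) {B : Finset (Option (Fin R))} (hB : B ∈ bs a)
    (p b : Option (Fin R)) (hb : cir a B p = {b}) : p = b := by
  classical
  obtain ⟨h1, h2⟩ := od_spec hB
  have hinj := inj_of h1
  have hmem : b ∈ cir a B p := by rw [hb]; exact mem_singleton_self b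
  obtain ⟨i, hi, rfl⟩ := mem_cir.1 hmem
  by_contra hne
  apply h.2 p (od a B i) hne (ce a (od a B) (vec a p) i)
  have h3 := rep h1 (vec a p)
  rw [Finset.sum_eq_single i] at h3
  · exact h3
  · intro j _ hj
    have h4 : ce a (od a B) (vec a p) j = 0 := by
      by_contra h5
      have h6 : od a B j ∈ cir a B p := mem_cir.2 ⟨j, h5, rfl⟩
      rw [hb, mem_singleton] at h6
      exact hj (hinj h6)
    rw [h4, zero_smul]
  · intro h4
    exact absurd (mem_univ i) h4

theorem nz (hg : 0 < g) (h : IsArr a) {B : Finset (Option (Fin R))} (hB : B ∈ bs a)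
    (p : Option (Fin R)) : (cir a B p).Nonempty := by
  classical
  obtain ⟨h1, h2⟩ := od_spec hB
  by_contra hno
  rw [not_nonempty_iff_eq_empty] at hno
  apply vec_ne hg h p
  rw [rep h1 (vec a p)]
  apply Finset.sum_eq_zero
  intro i _
  have h4 : ce a (od a B) (vec a p) i = 0 := by
    by_contra h5
    have h6 : od a B i ∈ cir a B p := mem_cir.2 ⟨i, h5, rfl⟩
    rw [hno] at h6
    exact notMem_empty _ h6
  rw [h4, zero_smul]

theorem isMat (hg : 0 < g) (h : IsArr a) : IsMat (g + 1) (bs a) (cir a) where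
  ne := by
    classical
    obtain ⟨e, he⟩ := h.1
    exact ⟨univ.image e, mem_bs.2 ⟨e, he, rfl⟩⟩
  card := fun B hB => card_bs hB
  sub := fun B hB p b hb => by
    obtain ⟨i, -, rfl⟩ := mem_cir.1 hb
    exact ((od_spec hB).2 _).2 ⟨i, rfl⟩
  nz := fun B hB p => nz hg h hB p
  self := fun B hB p hp => self hB p hp
  exch := fun B hB p b hb => exch hB p b hb
  mtch := fun B hB B' hB' => mtch hB hB'
  trans := fun B hB B' hB' p x hx => trans hB hB' p x hx
  simple := fun B hB p b hb => simple h hB p b hb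

theorem ad (h : IsArr a) (w : Option (Fin R) → ℤ) (hw : TropW a w) :
    ∃ B ∈ bs a, Ad (cir a) B w := by
  classical
  have hne : (bs a).Nonempty := by
    obtain ⟨e, he⟩ := h.1
    exact ⟨univ.image e, mem_bs.2 ⟨e, he, rfl⟩⟩
  obtain ⟨B, hB, hmax⟩ := Finset.exists_max_image (bs a) (fun B => ∑ p ∈ B, w p) hne
  refine ⟨B, hB, fun p => ?_⟩
  obtain ⟨h1, h2⟩ := od_spec hB
  by_cases hp : p ∈ B
  · rw [self hB p hp]
    refine ⟨fun b hb => ?_, p, mem_singleton_self p, rfl⟩
    rw [mem_singleton] at hb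
    rw [hb]
  · have hle : ∀ b ∈ cir a B p, w p ≤ w b := by
      intro b hb
      have h3 := hmax _ (exch hB p b hb)
      have hbB : b ∈ B := by
        obtain ⟨i, -, rfl⟩ := mem_cir.1 hb
        exact (h2 _).2 ⟨i, rfl⟩
      have h4 : p ∉ B.erase b := fun h5 => hp (mem_of_mem_erase h5)
      have h3' : ∑ q ∈ insert p (B.erase b), w q ≤ ∑ q ∈ B, w q := h3
      rw [sum_insert h4, ← add_sum_erase B w hbB] at h3'
      linarith
    refine ⟨hle, ?_⟩
    set c : Option (Fin R) → ℂ := fun x => (if x = p then 1 else 0) -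
      ∑ i, if od a B i = x then ce a (od a B) (vec a p) i else 0 with hc
    have hrel : ∑ x, c x • vec a x = 0 := by
      have h5 : ∀ x, c x • vec a x = (if x = p then (1 : ℂ) else 0) • vec a x -
          ∑ i, (if od a B i = x then ce a (od a B) (vec a p) i else 0) • vec a x := by
        intro x
        rw [hc, sub_smul, Finset.sum_smul]
      rw [Finset.sum_congr rfl fun x _ => h5 x, Finset.sum_sub_distrib, Finset.sum_comm]
      have h6 : ∑ x, (if x = p then (1 : ℂ) else 0) • vec a x = vec a p := by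
        rw [Finset.sum_eq_single p]
        · rw [if_pos rfl, one_smul]
        · intro x _ hx
          rw [if_neg hx, zero_smul]
        · intro h7
          exact absurd (mem_univ p) h7
      have h7 : ∀ i, ∑ x, (if od a B i = x then ce a (od a B) (vec a p) i else 0) • vec a x =
          ce a (od a B) (vec a p) i • vec a (od a B i) := by
        intro i
        rw [Finset.sum_eq_single (od a B i)]
        · rw [if_pos rfl]
        · intro x _ hx
          rw [if_neg (Ne.symm hx), zero_smul]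
        · intro h7
          exact absurd (mem_univ _) h7
      rw [h6, Finset.sum_congr rfl fun i _ => h7 i, ← rep h1 (vec a p), sub_self]
    have hcp : c p ≠ 0 := by
      have h5 : ∑ i, (if od a B i = p then ce a (od a B) (vec a p) i else 0) = 0 := by
        apply Finset.sum_eq_zero
        intro i _
        rw [if_neg]
        intro h6
        exact hp ((h2 p).2 ⟨i, h6⟩)
      rw [hc]
      simp only [if_true, h5, sub_zero]
      exact one_ne_zero
    obtain ⟨p', hp', hcp', hwp'⟩ := hw c hrel p hcp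
    have h8 : ∑ i, (if od a B i = p' then ce a (od a B) (vec a p) i else 0) ≠ 0 := by
      intro h9
      apply hcp'
      rw [hc]
      simp only [h9, if_neg hp', sub_zero]
    obtain ⟨i, -, hi⟩ := Finset.exists_ne_zero_of_sum_ne_zero h8
    have h10 : od a B i = p' := by
      by_contra h11
      exact hi (if_neg h11)
    rw [if_pos h10] at hi
    have h12 : p' ∈ cir a B p := mem_cir.2 ⟨i, hi, h10⟩
    exact ⟨p', h12, le_antisymm (hle p' h12) hwp'⟩

theorem trop {w : Option (Fin R) → ℤ} {B : Finset (Option (Fin R))} (hB : B ∈ bs a)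
    (hAd : Ad (cir a) B w) : TropW a w ∧ top a w = ∑ p ∈ B, w p := by
  classical
  obtain ⟨h1, h2⟩ := od_spec hB
  refine ⟨?_, ?_⟩
  · intro c hc p hp
    by_contra hno
    push Not at hno
    obtain ⟨-, b, hb, hwb⟩ := hAd p
    obtain ⟨i, hi, rfl⟩ := mem_cir.1 hb
    have h3 : ∑ x, c x • ce a (od a B) (vec a x) = 0 := by
      rw [← ce_sum, hc, ce_zero]
    have h4 := congrFun h3 i
    rw [Finset.sum_apply, ← Finset.add_sum_erase _ _ (mem_univ p)] at h4
    have h5 : ∑ x ∈ univ.erase p, (c x • ce a (od a B) (vec a x)) i ≠ 0 := by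
      intro h6
      rw [h6, add_zero, Pi.smul_apply, smul_eq_mul, Pi.zero_apply] at h4
      exact (mul_ne_zero hp hi) h4
    obtain ⟨x, hx, hx'⟩ := Finset.exists_ne_zero_of_sum_ne_zero h5
    rw [Pi.smul_apply, smul_eq_mul] at hx'
    have h6 : od a B i ∈ cir a B x := mem_cir.2 ⟨i, right_ne_zero_of_mul hx', rfl⟩
    have h7 := (hAd x).1 _ h6
    have h8 := hno x (ne_of_mem_erase hx) (left_ne_zero_of_mul hx')
    omega
  · haveI : Nonempty {e : Fin (g + 1) → Option (Fin R) // IsBas a e} := ⟨⟨od a B, h1⟩⟩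
    apply le_antisymm
    · apply ciSup_le
      rintro ⟨e, he⟩
      have hB' : univ.image e ∈ bs a := mem_bs.2 ⟨e, he, rfl⟩
      have h3 : ∑ i, w (e i) = ∑ p ∈ univ.image e, w p :=
        (sum_image fun x _ y _ hxy => inj_of he hxy).symm
      obtain ⟨f, hf, hf'⟩ := mtch hB hB'
      have h4 : ∑ p ∈ univ.image e, w p ≤ ∑ p ∈ univ.image e, w (f p) :=
        sum_le_sum fun p hp => (hAd p).1 _ (hf' p hp)
      have h5 : ∑ p ∈ univ.image e, w (f p) = ∑ p ∈ (univ.image e).image f, w p :=
        (sum_image fun x hx y hy hxy => hf hx hy hxy).symm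
      have h6 : (univ.image e).image f = B := by
        apply eq_of_subset_of_card_le
        · intro q hq
          obtain ⟨p, hp, rfl⟩ := mem_image.1 hq
          obtain ⟨i, -, h7⟩ := mem_cir.1 (hf' p hp)
          exact (h2 _).2 ⟨i, h7⟩
        · rw [card_image_of_injOn hf, card_bs hB, card_bs hB']
      show ∑ i, w (e i) ≤ _
      rw [h3, ← h6, ← h5]
      exact h4
    · rw [sum_bs hB]
      exact le_ciSup (f := fun e : {e : Fin (g + 1) → Option (Fin R) // IsBas a e} =>
        ∑ i, w (e.1 i)) (Set.finite_range _).bddAbove ⟨od a B, h1⟩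

end C7

/-- C7. -/
theorem c7 : VecMatEx := by
  intro g R a hg h
  exact ⟨C7.bs a, C7.cir a, ⟨C7.isMat hg h, fun w hw => C7.ad h w hw,
    fun w B hB hAd => C7.trop hB hAd⟩⟩

end Vale.Agent.P283.M647
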