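import Vale.Agent.P283.M647.Props

/-!
The book of a pair of arrangement type.
-/

set_option linter.all false

namespace Vale.Agent.P283.M647

open Vale.Agent.P283.T647 (psum fval)
open Vale.Agent.P283.A647 (Sol InBook)

namespace C8

variable {g R k N M : ℕ}

theorem mono_le {ι : Type} [Fintype ι] (E : Fin (M + 1) → ι → ℤ) (α : ι → ℤ)
    (i : Fin (M + 1)) : ordMono E α ≤ ∑ x, E i x * α x :=
  ciInf_le (Set.finite_range (fun i => ∑ x, E i x * α x)).bddBelow i

theorem mono_att {ι : Type} [Fintype ι] (E : Fin (M + 1) → ι → ℤ) (α : ι → ℤ) :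
    ∃ i, ordMono E α = ∑ x, E i x * α x := by
  obtain ⟨i, hi⟩ := exists_eq_ciInf_of_finite (f := fun i => ∑ x, E i x * α x)
  exact ⟨i, hi.symm⟩

theorem cone_dualT {ι : Type} [Fintype ι] (v : Fin N → ι → ℤ) (a : ι → ℤ)
    (h : ∀ u : ι → ℤ, (∀ j, 0 ≤ ∑ x, v j x * u x) → 0 ≤ ∑ x, a x * u x) : InCone v a := by
  classical
  let e : ι ≃ Fin (Fintype.card ι) := Fintype.equivFin ι
  have hs : ∀ (b : ι → ℤ) (u : Fin (Fintype.card ι) → ℤ),
      ∑ i, b (e.symm i) * u i = ∑ x, b x * u (e x) := by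
    intro b u
    rw [← Equiv.sum_comp e (fun i => b (e.symm i) * u i)]
    exact Finset.sum_congr rfl fun x _ => by rw [Equiv.symm_apply_apply]
  obtain ⟨c, hc, hac⟩ := Z647.cone_dual (fun j i => v j (e.symm i)) (fun i => a (e.symm i)) (by
    intro u hu
    rw [hs]
    refine h (fun x => u (e x)) fun j => ?_
    have := hu j
    rwa [hs] at this)
  refine ⟨c, hc, fun x => ?_⟩
  have := hac (e x)
  simpa using this

/-- The vector of the point `(σ, w)`. -/
def vS (σ : Option (Fin R) → ℕ) (w : Fin k → ℤ) : Fin R ⊕ Fin k → ℤ :=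
  Sum.elim (fun i => (σ (some i) : ℤ) - σ none) w

/-- The point of a ray. -/
def sg (o : Option (Option (Fin R))) (s : ℕ) (p : Option (Fin R)) : ℕ :=
  if o = some p then s else 0

theorem wt_vS (σ : Option (Fin R) → ℕ) (w : Fin k → ℤ) (p : Option (Fin R)) :
    wt (vS σ w) p = (σ p : ℤ) - σ none := by
  rcases p with _ | i
  · simp [wt]
  · simp [wt, vS]

theorem vS_ne {σ : Option (Fin R) → ℕ} {w : Fin k → ℤ}
    (h : (∃ p p', σ p ≠ σ p') ∨ w ≠ 0) : vS σ w ≠ 0 := by
  intro hv
  have hw : w = 0 := by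
    funext l
    have := congrFun hv (Sum.inr l)
    simpa [vS] using this
  have hσ : ∀ p, σ p = σ none := by
    intro p
    rcases p with _ | i
    · rfl
    · have := congrFun hv (Sum.inl i)
      simp only [vS, Sum.elim_inl, Pi.zero_apply] at this
      omega
  rcases h with ⟨p, p', h⟩ | h
  · exact h ((hσ p).trans (hσ p').symm)
  · exact h hw

section Mat

variable {a : Fin R → Fin (g + 1) → ℂ} {𝓑 : Finset (Finset (Option (Fin R)))}
  {C : Finset (Option (Fin R)) → Option (Fin R) → Finset (Option (Fin R))}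

theorem ad_wt {B : Finset (Option (Fin R))} {σ : Option (Fin R) → ℕ} (w : Fin k → ℤ)
    (h : Ad C B σ) : Ad C B (wt (vS σ w)) := by
  intro p
  obtain ⟨h1, b, hb, h2⟩ := h p
  refine ⟨fun b hb => ?_, b, hb, ?_⟩
  · rw [wt_vS, wt_vS]
    have := h1 b hb
    omega
  · rw [wt_vS, wt_vS, h2]

theorem onTrop_vS (hV : VecMat a 𝓑 C) {B : Finset (Option (Fin R))} (hB : B ∈ 𝓑)
    {σ : Option (Fin R) → ℕ} (w : Fin k → ℤ) (h : Ad C B σ) : OnTrop a (vS σ w) :=
  (hV.trop _ B hB (ad_wt w h)).1

theorem disc_vS (hV : VecMat a 𝓑 C) {B : Finset (Option (Fin R))} (hB : B ∈ 𝓑)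
    {σ : Option (Fin R) → ℕ} (w : Fin k → ℤ) (h : Ad C B σ) :
    logDisc a (vS σ w) = ∑ p ∈ B, (σ p : ℤ) - (g + 1) * σ none + ∑ l, w l := by
  unfold logDisc
  rw [(hV.trop _ B hB (ad_wt w h)).2]
  simp only [wt_vS, Finset.sum_sub_distrib, Finset.sum_const, hV.mat.card B hB, nsmul_eq_mul]
  simp only [vS, Sum.elim_inr]
  push_cast
  ring

theorem sg_ad (hV : VecMat a 𝓑 C) (o : Option (Option (Fin R))) (s : ℕ) :
    ∃ B ∈ 𝓑, Ad C B (sg o s) ∧ ∑ p ∈ B, (sg o s p : ℤ) = ∑ p, (sg o s p : ℤ) := by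
  obtain ⟨B₁, hB₁⟩ := hV.mat.ne
  rcases o with _ | p
  · refine ⟨B₁, hB₁, fun p => ?_, by simp [sg]⟩
    obtain ⟨b, hb⟩ := hV.mat.nz B₁ hB₁ p
    exact ⟨fun b _ => by simp [sg], b, hb, by simp [sg]⟩
  · obtain ⟨b, hb⟩ := hV.mat.nz B₁ hB₁ p
    have hB := hV.mat.exch B₁ hB₁ p b hb
    have hpB : p ∈ insert p (B₁.erase b) := Finset.mem_insert_self _ _
    refine ⟨_, hB, fun x => ?_, ?_⟩
    · by_cases hx : x = p
      · subst hx
        rw [hV.mat.self _ hB x hpB]
        refine ⟨fun b hb => ?_, x, Finset.mem_singleton_self x, rfl⟩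
        rw [Finset.mem_singleton.1 hb]
      · have hx0 : sg (some p) s x = 0 := by
          simp only [sg, Option.some.injEq]
          rw [if_neg fun h => hx h.symm]
        rw [hx0]
        refine ⟨fun b _ => Nat.zero_le _, ?_⟩
        by_contra hcon
        push Not at hcon
        have h1 : ∀ y ∈ C (insert p (B₁.erase b)) x, y = p := by
          intro y hy
          by_contra hyp
          apply hcon y hy
          simp only [sg, Option.some.injEq]
          rw [if_neg fun h => hyp h.symm]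
        obtain ⟨y, hy⟩ := hV.mat.nz _ hB x
        have h2 : C (insert p (B₁.erase b)) x = {p} := by
          apply Finset.eq_singleton_iff_unique_mem.2
          exact ⟨h1 y hy ▸ hy, h1⟩
        exact hx (hV.mat.simple _ hB x p h2)
    · refine Finset.sum_subset (Finset.subset_univ _) fun x _ hx => ?_
      have hxp : x ≠ p := fun h => hx (h ▸ hpB)
      simp only [sg, Option.some.injEq]
      rw [if_neg fun h => hxp h.symm]
      rfl

theorem disc_ray (hV : VecMat a 𝓑 C) (o : Option (Option (Fin R))) (s : ℕ) (w : Fin k → ℤ) :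
    logDisc a (vS (sg o s) w) =
      ∑ p, (sg o s p : ℤ) - (g + 1) * sg o s none + ∑ l, w l := by
  obtain ⟨B, hB, h1, h2⟩ := sg_ad hV o s
  rw [disc_vS hV hB w h1, h2]

end Mat

/-- The values on the pages. -/
def ee (u : Fin R ⊕ Fin k → ℤ) (p : Option (Fin R)) : ℤ :=
  p.elim (-∑ i, u (Sum.inl i)) (fun i => u (Sum.inl i))

theorem sum_ee (u : Fin R ⊕ Fin k → ℤ) : ∑ p, ee u p = 0 := by
  rw [Fintype.sum_option]
  simp [ee]

theorem pair_vS (u : Fin R ⊕ Fin k → ℤ) (σ : Option (Fin R) → ℕ) (w : Fin k → ℤ) :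
    ∑ x, u x * vS σ w x = ∑ p, (σ p : ℤ) * ee u p + ∑ l, u (Sum.inr l) * w l := by
  rw [Fintype.sum_sum_type, Fintype.sum_option]
  simp only [vS, Sum.elim_inl, Sum.elim_inr, ee, Option.elim]
  have h : ∑ i, u (Sum.inl i) * ((σ (some i) : ℤ) - σ none) =
      (σ none : ℤ) * -∑ i, u (Sum.inl i) + ∑ i, (σ (some i) : ℤ) * u (Sum.inl i) := by
    rw [mul_neg, Finset.mul_sum, ← Finset.sum_neg_distrib, ← Finset.sum_add_distrib]
    exact Finset.sum_congr rfl fun i _ => by ring
  rw [h]

theorem sum_sg (o : Option (Option (Fin R))) (s : ℕ) (e : Option (Fin R) → ℤ) :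
    ∑ p, (sg o s p : ℤ) * e p = o.elim 0 (fun p => (s : ℤ) * e p) := by
  rcases o with _ | p
  · simp [sg]
  · simp [sg]

/-- The page of a ray. -/
theorem exists_page (v : Fin R ⊕ Fin k → ℤ) (h : OnRay v) :
    ∃ (o : Option (Option (Fin R))) (s : ℕ), v = vS (sg o s) (fun l => v (Sum.inr l)) ∧
      (o ≠ none → 0 < s) := by
  obtain ⟨p₀, m, hl, h1⟩ := h
  have hwn : wt v none = 0 := rfl
  have hws : ∀ i, wt v (some i) = v (Sum.inl i) := fun i => rfl
  have key : ∀ i, v (Sum.inl i) = (sg (some p₀) (wt v p₀ - m).toNat (some i) : ℤ) -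
      sg (some p₀) (wt v p₀ - m).toNat none := by
    intro i
    by_cases hn : p₀ = none
    · subst hn
      have h2 := h1 (some i) (by simp)
      rw [hws] at h2
      simp only [sg, if_true, Option.some.injEq, reduceCtorEq, if_false]
      rw [hwn] at hl ⊢
      omega
    · have h2 := h1 none (Ne.symm hn)
      rw [hwn] at h2
      by_cases hi : p₀ = some i
      · subst hi
        simp only [sg, if_true, Option.some.injEq, reduceCtorEq, if_false]
        rw [hws] at hl ⊢
        omega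
      · have h3 := h1 (some i) (Ne.symm hi)
        rw [hws] at h3
        simp only [sg, Option.some.injEq, hi, hn, if_false]
        omega
  by_cases hs : 0 < (wt v p₀ - m).toNat
  · refine ⟨some p₀, _, ?_, fun _ => hs⟩
    funext x
    rcases x with i | l
    · exact key i
    · rfl
  · have hs0 : (wt v p₀ - m).toNat = 0 := by omega
    refine ⟨none, 0, ?_, fun h => absurd rfl h⟩
    funext x
    rcases x with i | l
    · rw [key i, hs0]
      simp [sg, vS]
    · rfl

theorem psum_eq (pg : Fin N → Option (Option (Fin R))) (s : Fin N → ℕ) (c : Fin N → ℝ)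
    (p : Option (Fin R)) : psum pg s c p = ∑ j, c j * (sg (pg j) (s j) p : ℝ) := by
  unfold psum
  refine Finset.sum_congr rfl fun j _ => ?_
  simp only [sg]
  split_ifs <;> simp

theorem sum_disc {a : Fin R → Fin (g + 1) → ℂ} {𝓑 : Finset (Finset (Option (Fin R)))}
    {C : Finset (Option (Fin R)) → Option (Fin R) → Finset (Option (Fin R))}
    (hV : VecMat a 𝓑 C) (pg : Fin N → Option (Option (Fin R))) (s : Fin N → ℕ)
    (w : Fin N → Fin k → ℤ) (c : Fin N → ℝ) :
    ∑ j, c j * (logDisc a (vS (sg (pg j) (s j)) (w j)) : ℝ) =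
      ∑ p, psum pg s c p - ((g : ℝ) + 1) * psum pg s c none +
        ∑ l, ∑ j, c j * (w j l : ℝ) := by
  have e1 : ∑ p, psum pg s c p = ∑ j, ∑ p, c j * (sg (pg j) (s j) p : ℝ) := by
    simp only [psum_eq]
    exact Finset.sum_comm
  have e2 : ∑ l, ∑ j, c j * (w j l : ℝ) = ∑ j, ∑ l, c j * (w j l : ℝ) := Finset.sum_comm
  rw [e1, e2, psum_eq, Finset.mul_sum, ← Finset.sum_sub_distrib, ← Finset.sum_add_distrib]
  refine Finset.sum_congr rfl fun j _ => ?_
  rw [disc_ray hV]
  push_cast
  rw [← Finset.mul_sum, ← Finset.mul_sum]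
  ring

theorem conc {ι : Type} [Fintype ι] (v : Fin N → ι → ℤ) (E : Fin (M + 1) → ι → ℤ)
    (c : Fin N → ℝ) (hc : ∀ j, 0 ≤ c j) (α : ι → ℤ)
    (hα : ∀ x, (α x : ℝ) = ∑ j, c j * (v j x : ℝ)) :
    ∑ j, c j * (ordMono E (v j) : ℝ) ≤ (ordMono E α : ℝ) := by
  obtain ⟨i, hi⟩ := mono_att E α
  rw [hi]
  push_cast
  simp only [hα, Finset.mul_sum]
  rw [Finset.sum_comm]
  refine Finset.sum_le_sum fun j _ => ?_
  have h1 : (ordMono E (v j) : ℝ) ≤ ∑ x, (E i x : ℝ) * (v j x : ℝ) := by
    exact_mod_cast mono_le E (v j) i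
  calc c j * (ordMono E (v j) : ℝ) ≤ c j * ∑ x, (E i x : ℝ) * (v j x : ℝ) :=
        mul_le_mul_of_nonneg_left h1 (hc j)
    _ = ∑ x, (E i x : ℝ) * (c j * (v j x : ℝ)) := by
        rw [Finset.mul_sum]
        exact Finset.sum_congr rfl fun x _ => by ring

theorem cone_real {ι : Type} [Fintype ι] (v : Fin N → ι → ℤ)
    (c : Fin N → ℝ) (hc : ∀ j, 0 ≤ c j) (α : ι → ℤ)
    (hα : ∀ x, (α x : ℝ) = ∑ j, c j * (v j x : ℝ)) : InCone v α := by
  apply cone_dualT
  intro u hu
  have h1 : ((∑ x, α x * u x : ℤ) : ℝ) = ∑ j, c j * ((∑ x, v j x * u x : ℤ) : ℝ) := by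
    push_cast
    simp only [hα, Finset.sum_mul, Finset.mul_sum]
    rw [Finset.sum_comm]
    exact Finset.sum_congr rfl fun j _ => Finset.sum_congr rfl fun k _ => by ring
  have h2 : (0 : ℝ) ≤ ((∑ x, α x * u x : ℤ) : ℝ) := by
    rw [h1]
    exact Finset.sum_nonneg fun j _ => mul_nonneg (hc j) (by exact_mod_cast hu j)
  exact_mod_cast h2

/-- The vector of the point of a relation. -/
theorem coord_vec (pg : Fin N → Option (Option (Fin R))) (s : Fin N → ℕ)
    (w : Fin N → Fin k → ℤ) (c : Fin N → ℝ) (μ : ℝ) (σ : Option (Fin R) → ℕ)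
    (b : Fin k → ℤ) (hp : ∀ p, psum pg s c p = μ + σ p)
    (hb : ∀ i, (b i : ℝ) = ∑ j, c j * (w j i : ℝ)) (x : Fin R ⊕ Fin k) :
    (vS σ b x : ℝ) = ∑ j, c j * (vS (sg (pg j) (s j)) (w j) x : ℝ) := by
  rcases x with i | l
  · simp only [vS, Sum.elim_inl]
    push_cast
    simp only [mul_sub, Finset.sum_sub_distrib]
    rw [← psum_eq, ← psum_eq, hp, hp]
    ring
  · simp [vS, hb]

theorem core {a : Fin R → Fin (g + 1) → ℂ} {𝓑 : Finset (Finset (Option (Fin R)))}
    {C : Finset (Option (Fin R)) → Option (Fin R) → Finset (Option (Fin R))}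
    (hV : VecMat a 𝓑 C) (q : ℕ) (hq : 0 < q) (r : ℕ) (hr : 0 < r)
    (pg : Fin N → Option (Option (Fin R))) (s : Fin N → ℕ)
    (w : Fin N → Fin k → ℤ) (E : Fin (M + 1) → Fin R ⊕ Fin k → ℤ) (κ : Fin N → ℕ)
    (hκ : ∀ j, (κ j : ℝ) = q * ((logDisc a (vS (sg (pg j) (s j)) (w j)) : ℝ) -
      (ordMono E (vS (sg (pg j) (s j)) (w j)) : ℝ) / r))
    (c : Fin N → ℝ) (hc : ∀ j, 0 ≤ c j) (μ : ℝ) (σ : Option (Fin R) → ℕ)
    (B : Finset (Option (Fin R))) (hB : B ∈ 𝓑) (hσ : Ad C B σ)
    (b : Fin k → ℤ) (hp : ∀ p, psum pg s c p = μ + σ p)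
    (hb : ∀ i, (b i : ℝ) = ∑ j, c j * (w j i : ℝ)) :
    (q : ℝ) * ((logDisc a (vS σ b) : ℝ) - (ordMono E (vS σ b) : ℝ) / r) ≤
      vl q pg s κ Finset.univ c B := by
  have hrR : (0 : ℝ) < r := by exact_mod_cast hr
  have hqR : (0 : ℝ) < q := by exact_mod_cast hq
  have h1 : ∑ j, c j * (κ j : ℝ) =
      q * (∑ j, c j * (logDisc a (vS (sg (pg j) (s j)) (w j)) : ℝ) -
      (∑ j, c j * (ordMono E (vS (sg (pg j) (s j)) (w j)) : ℝ)) / r) := by
    rw [mul_sub, Finset.mul_sum, Finset.sum_div, Finset.mul_sum, ← Finset.sum_sub_distrib]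
    exact Finset.sum_congr rfl fun j _ => by rw [hκ]; ring
  have h2 := conc (fun j => vS (sg (pg j) (s j)) (w j)) E c hc (vS σ b)
    (coord_vec pg s w c μ σ b hp hb)
  have hsd := Finset.sum_sdiff (f := psum pg s c) (Finset.subset_univ B)
  have h3 : ∑ j, c j * (logDisc a (vS (sg (pg j) (s j)) (w j)) : ℝ) =
      ∑ p ∈ Finset.univ \ B, psum pg s c p + (logDisc a (vS σ b) : ℝ) := by
    rw [sum_disc hV, disc_vS hV hB b hσ, ← hsd]
    simp only [← hb]
    have h4 : ∑ p ∈ B, psum pg s c p = ((g : ℝ) + 1) * μ + ∑ p ∈ B, (σ p : ℝ) := by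
      simp only [hp, Finset.sum_add_distrib, Finset.sum_const, hV.mat.card B hB, nsmul_eq_mul]
      push_cast
      ring
    rw [h4, hp none]
    push_cast
    ring
  unfold vl
  rw [h1, h3]
  have h4 : (∑ j, c j * (ordMono E (vS (sg (pg j) (s j)) (w j)) : ℝ)) / r ≤
      (ordMono E (vS σ b) : ℝ) / r := div_le_div_of_nonneg_right h2 hrR.le
  have h5 := mul_le_mul_of_nonneg_left h4 hqR.le
  nlinarith

theorem common_den {ι : Type} [Fintype ι] (F : ι → ℚ) (hF : ∀ o, 0 ≤ F o) :
    ∃ (D : ℕ) (n : ι → ℕ), 0 < D ∧ ∀ o, (n o : ℚ) = D * F o := by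
  classical
  have h1 : ∀ o, ∃ n : ℕ, (n : ℚ) = ((∏ o, (F o).den : ℕ) : ℚ) * F o := by
    intro o
    obtain ⟨e, he⟩ := Finset.dvd_prod_of_mem (fun o => (F o).den) (Finset.mem_univ o)
    have h2 : (0 : ℤ) ≤ (F o).num := Rat.num_nonneg.2 (hF o)
    refine ⟨(F o).num.toNat * e, ?_⟩
    rw [he]
    push_cast
    have h3 : (((F o).num.toNat : ℕ) : ℚ) = (F o).num := by
      exact_mod_cast Int.toNat_of_nonneg h2
    rw [h3]
    have h4 : ((F o).den : ℚ) * F o = (F o).num := by
      rw [mul_comm]; exact Rat.mul_den_eq_num (F o)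
    rw [← h4]; ring
  choose n hn using h1
  exact ⟨_, n, Finset.prod_pos fun o _ => (F o).den_pos, hn⟩

end C8

theorem c8 (h : T647.RatApprox) : ToBook := by
  classical
  intro g q ε hg hq hε R k N M r a 𝓑 C hV v E κ hr hrays hκ hκq hlc
  choose pg s hv hpos using fun j => C8.exists_page (v j) (hrays j)
  have hrR : (0 : ℝ) < r := by exact_mod_cast hr
  have hqR : (0 : ℝ) < q := by exact_mod_cast hq
  obtain ⟨w, hw⟩ : ∃ w : Fin N → Fin k → ℤ, w = fun j l => v j (Sum.inr l) := ⟨_, rfl⟩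
  have hvv : v = fun j => C8.vS (C8.sg (pg j) (s j)) (w j) := by
    funext j; rw [hw]; exact hv j
  have hwv : (fun j l => v j (Sum.inr l)) = w := hw.symm
  refine ⟨pg, s, ?_, ?_, ?_⟩
  · intro j i
    rw [hvv]
    simp only [C8.vS, Sum.elim_inl]
    rcases hp : pg j with _ | p | i'
    · simp [C8.sg]
    · simp [C8.sg]
    · by_cases h : i = i'
      · subst h; simp [C8.sg]
      · have h' : ¬ i' = i := fun h1 => h h1.symm
        simp [C8.sg, h, h']
  · rw [hwv]
    clear hv hwv hw
    subst hvv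
    have hκR : ∀ j, (κ j : ℝ) = q * ((logDisc a (C8.vS (C8.sg (pg j) (s j)) (w j)) : ℝ) -
        (ordMono E (C8.vS (C8.sg (pg j) (s j)) (w j)) : ℝ) / r) := by
      intro j
      have h1 := congrArg (Rat.cast : ℚ → ℝ) (hκ j)
      unfold toricDisc at h1
      push_cast at h1
      exact h1
    -- a weight with integral differences
    have hint : ∀ (c : Fin N → ℝ) (B : Finset (Option (Fin R))), Ad C B (psum pg s c) →
        (∀ p p', ∃ n : ℤ, psum pg s c p - psum pg s c p' = n) →
        ∃ (μ : ℝ) (σ : Option (Fin R) → ℕ), (∀ p, psum pg s c p = μ + σ p) ∧ Ad C B σ := by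
      intro c B had hi
      obtain ⟨pm, hpm⟩ := Finite.exists_min (psum pg s c)
      choose n hn using fun p => hi p pm
      have hn0 : ∀ p, 0 ≤ n p := fun p => by
        have h1 := hpm p
        have h2 : (0 : ℝ) ≤ (n p : ℝ) := by rw [← hn p]; linarith
        exact_mod_cast h2
      have hp : ∀ p, psum pg s c p = psum pg s c pm + ((n p).toNat : ℝ) := by
        intro p
        have h1 : (((n p).toNat : ℕ) : ℝ) = ((n p : ℤ) : ℝ) := by
          exact_mod_cast Int.toNat_of_nonneg (hn0 p)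
        rw [h1, ← hn p]
        ring
      refine ⟨psum pg s c pm, fun p => (n p).toNat, hp, fun p => ?_⟩
      obtain ⟨h1, b, hb, h2⟩ := had p
      refine ⟨fun b hb => ?_, b, hb, ?_⟩
      · have h3 := h1 b hb
        rw [hp p, hp b] at h3
        have h4 : ((n p).toNat : ℝ) ≤ ((n b).toNat : ℝ) := by linarith
        exact_mod_cast h4
      · rw [hp p, hp b] at h2
        have h4 : ((n p).toNat : ℝ) = ((n b).toNat : ℝ) := by linarith
        exact_mod_cast h4
    have hlc' : ∀ c : Fin N → ℝ, (∀ j, 0 ≤ c j) → ∀ B ∈ 𝓑, Ad C B (psum pg s c) →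
        (∀ p p', ∃ n : ℤ, psum pg s c p - psum pg s c p' = n) → ∀ b : Fin k → ℤ,
        (∀ i, (b i : ℝ) = ∑ j, c j * w j i) →
        ((∃ p p', psum pg s c p ≠ psum pg s c p') ∨ b ≠ 0) →
        q * ε ≤ vl q pg s κ Finset.univ c B := by
      intro c hc B hB had hi b hb hne
      obtain ⟨μ, σ, hp, hσ⟩ := hint c B had hi
      have hne' : (∃ p p', σ p ≠ σ p') ∨ b ≠ 0 := by
        rcases hne with ⟨p, p', h1⟩ | h1
        · left
          refine ⟨p, p', fun h2 => h1 ?_⟩
          rw [hp, hp, h2]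
        · exact Or.inr h1
      have h1 := hlc (C8.vS σ b) (C8.onTrop_vS hV hB b hσ)
        (C8.cone_real _ c hc _ (C8.coord_vec pg s w c μ σ b hp hb)) (C8.vS_ne hne')
      exact (mul_le_mul_of_nonneg_left h1 hqR.le).trans
        (C8.core hV q hq r hr pg s w E κ hκR c hc μ σ B hB hσ b hp hb)
    -- the rational case
    have hnnQ : ∀ c : Fin N → ℚ, (∀ j, 0 ≤ c j) → ∀ B ∈ 𝓑,
        Ad C B (psum pg s (fun j => (c j : ℝ))) →
        0 ≤ vl q pg s κ Finset.univ (fun j => (c j : ℝ)) B := by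
      intro c hc B hB had
      obtain ⟨D, n, hD, hn⟩ := C8.common_den c hc
      have hDR : (0 : ℝ) < D := by exact_mod_cast hD
      have hnR : ∀ j, ((n j : ℕ) : ℝ) = D * (c j : ℝ) := by
        intro j
        have := congrArg (Rat.cast : ℚ → ℝ) (hn j)
        push_cast at this
        exact this
      have hps : ∀ p, psum pg s (fun j => ((n j : ℕ) : ℝ)) p =
          D * psum pg s (fun j => (c j : ℝ)) p := by
        intro p
        rw [C8.psum_eq, C8.psum_eq, Finset.mul_sum]
        refine Finset.sum_congr rfl fun j _ => ?_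
        rw [hnR]
        ring
      have had' : Ad C B (psum pg s (fun j => ((n j : ℕ) : ℝ))) := by
        intro p
        obtain ⟨h1, b, hb, h2⟩ := had p
        refine ⟨fun b hb => ?_, b, hb, ?_⟩
        · rw [hps, hps]
          exact mul_le_mul_of_nonneg_left (h1 b hb) hDR.le
        · rw [hps, hps, h2]
      have hi : ∀ p p', ∃ m : ℤ, psum pg s (fun j => ((n j : ℕ) : ℝ)) p -
          psum pg s (fun j => ((n j : ℕ) : ℝ)) p' = m := by
        intro p p'
        refine ⟨∑ j, (n j : ℤ) * C8.sg (pg j) (s j) p - ∑ j, (n j : ℤ) * C8.sg (pg j) (s j) p',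
          ?_⟩
        rw [C8.psum_eq, C8.psum_eq]
        push_cast
        rfl
      obtain ⟨b, hb⟩ : ∃ b : Fin k → ℤ, b = fun i => ∑ j, (n j : ℤ) * w j i := ⟨_, rfl⟩
      have hb' : ∀ i, (b i : ℝ) = ∑ j, ((n j : ℕ) : ℝ) * (w j i : ℝ) := by
        intro i; rw [hb]; push_cast; rfl
      have hfin : vl q pg s κ Finset.univ (fun j => ((n j : ℕ) : ℝ)) B =
          D * vl q pg s κ Finset.univ (fun j => (c j : ℝ)) B := by
        unfold vl
        have e1 : ∑ j, ((n j : ℕ) : ℝ) * (κ j : ℝ) = D * ∑ j, (c j : ℝ) * (κ j : ℝ) := by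
          rw [Finset.mul_sum]
          exact Finset.sum_congr rfl fun j _ => by rw [hnR]; ring
        have e2 : ∑ p ∈ Finset.univ \ B, psum pg s (fun j => ((n j : ℕ) : ℝ)) p =
            D * ∑ p ∈ Finset.univ \ B, psum pg s (fun j => (c j : ℝ)) p := by
          rw [Finset.mul_sum]
          exact Finset.sum_congr rfl fun p _ => hps p
        rw [e1, e2]
        ring
      have hge : 0 ≤ D * vl q pg s κ Finset.univ (fun j => (c j : ℝ)) B := by
        rw [← hfin]
        by_cases hne : (∃ p p', psum pg s (fun j => ((n j : ℕ) : ℝ)) p ≠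
            psum pg s (fun j => ((n j : ℕ) : ℝ)) p') ∨ b ≠ 0
        · exact (mul_pos hqR hε).le.trans
            (hlc' _ (fun j => Nat.cast_nonneg _) B hB had' hi b hb' hne)
        · push Not at hne
          obtain ⟨hall, hb0⟩ := hne
          have hσ0 : Ad C B (fun _ : Option (Fin R) => (0 : ℕ)) := by
            intro p
            obtain ⟨b, hb⟩ := hV.mat.nz B hB p
            exact ⟨fun _ _ => le_rfl, b, hb, rfl⟩
          have h1 := C8.core hV q hq r hr pg s w E κ hκR _ (fun j => Nat.cast_nonneg _)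
            (psum pg s (fun j => ((n j : ℕ) : ℝ)) none) (fun _ => 0) B hB hσ0 b
            (fun p => by rw [hall p none]; simp) hb'
          refine le_trans ?_ h1
          have h0 : C8.vS (R := R) (fun _ => 0) b = 0 := by
            rw [hb0]
            funext x
            rcases x with i | l
            · simp [C8.vS]
            · simp [C8.vS]
          have hd : logDisc a (C8.vS (R := R) (fun _ => 0) b) = 0 := by
            rw [C8.disc_vS hV hB b hσ0, hb0]
            simp
          rw [hd, h0]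
          obtain ⟨i, hi⟩ := C8.mono_att E (0 : Fin R ⊕ Fin k → ℤ)
          rw [hi]
          simp
      exact nonneg_of_mul_nonneg_right hge hDR
    refine ⟨hg, hq, mul_pos hqR hε, hV.mat, ?_, hκq, hlc', ?_⟩
    · intro j p hjp
      exact hpos j (by rw [hjp]; exact Option.some_ne_none _)
    · intro c hc B hB had
      choose had1 bb hbb had2 using had
      -- the linear function
      let t : Option (Fin R) → Fin N → ℕ := fun p j => C8.sg (pg j) (s j) p
      let a' : Fin N → ℝ := fun j => κ j - q * ∑ p ∈ Finset.univ \ B, (t p j : ℝ)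
      have hps : ∀ (c' : Fin N → ℝ) (p : Option (Fin R)),
          psum pg s c' p = ∑ j, c' j * (t p j : ℝ) := fun c' p => C8.psum_eq pg s c' p
      have hL : ∀ c' : Fin N → ℝ, vl q pg s κ Finset.univ c' B = ∑ j, c' j * a' j := by
        intro c'
        unfold vl
        simp only [hps]
        rw [Finset.sum_comm, Finset.mul_sum, ← Finset.sum_sub_distrib]
        refine Finset.sum_congr rfl fun j _ => ?_
        simp only [a']
        rw [← Finset.mul_sum]
        ring
      rw [hL]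
      by_contra hneg
      push Not at hneg
      have hA : 0 ≤ ∑ j, |a' j| := Finset.sum_nonneg fun j _ => abs_nonneg _
      have hdiff : ∀ (c' : Fin N → ℝ) (p p' : Option (Fin R)),
          ∑ j, (((t p' j : ℝ) - (t p j : ℝ)) * c' j) = psum pg s c' p' - psum pg s c' p := by
        intro c' p p'
        rw [hps, hps, ← Finset.sum_sub_distrib]
        exact Finset.sum_congr rfl fun j _ => by ring
      obtain ⟨c', hc', heq, hclose⟩ := h (Fin N ⊕ (Option (Fin R) × Option (Fin R)))
        ((Option (Fin R) × Option (Fin R)) ⊕ Option (Fin R))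
        (fun e o => Sum.elim
          (fun x => Sum.elim
            (fun j => if x.2 ∈ C B x.1 then (t x.2 j : ℚ) - (t x.1 j : ℚ) else 0)
            (fun y => if y = x then (-1 : ℚ) else 0) o)
          (fun p => Sum.elim (fun j => (t (bb p) j : ℚ) - (t p j : ℚ)) (fun _ => (0 : ℚ)) o) e)
        (fun o => Sum.elim c (fun x => if x.2 ∈ C B x.1 then
          psum pg s c x.2 - psum pg s c x.1 else 0) o)
        (by
          rintro (j | x)
          · exact hc j
          · simp only [Sum.elim_inr]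
            split_ifs with hx
            · have := had1 x.1 x.2 hx
              linarith
            · exact le_rfl)
        (by
          intro e
          rw [Fintype.sum_sum_type]
          rcases e with x | p
          · simp only [Sum.elim_inl, Sum.elim_inr]
            have h2 : ∑ y, ((((if y = x then (-1 : ℚ) else 0) : ℚ) : ℝ) *
                (if y.2 ∈ C B y.1 then psum pg s c y.2 - psum pg s c y.1 else 0)) =
                -(if x.2 ∈ C B x.1 then psum pg s c x.2 - psum pg s c x.1 else 0) := by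
              rw [Finset.sum_eq_single x
                (fun y _ hy => by rw [if_neg hy, Rat.cast_zero, zero_mul])
                (fun h => absurd (Finset.mem_univ x) h)]
              rw [if_pos rfl, Rat.cast_neg, Rat.cast_one, neg_one_mul]
            rw [h2]
            by_cases hx : x.2 ∈ C B x.1
            · simp only [if_pos hx]
              push_cast
              rw [hdiff]
              ring
            · simp [if_neg hx]
          · simp only [Sum.elim_inl, Sum.elim_inr]
            push_cast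
            rw [hdiff, had2 p]
            simp)
        (-(∑ j, c j * a' j) / (∑ j, |a' j| + 1)) (div_pos (by linarith) (by linarith))
      have had' : Ad C B (psum pg s (fun j => ((c' (Sum.inl j) : ℚ) : ℝ))) := by
        intro p
        refine ⟨fun b hb => ?_, bb p, hbb p, ?_⟩
        · have h1 := congrArg (Rat.cast : ℚ → ℝ) (heq (Sum.inl (p, b)))
          rw [Fintype.sum_sum_type] at h1
          simp only [Sum.elim_inl, Sum.elim_inr, if_pos hb] at h1
          have h3 : ∑ y, ((if y = (p, b) then (-1 : ℚ) else 0) * c' (Sum.inr y)) =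
              -c' (Sum.inr (p, b)) := by
            rw [Finset.sum_eq_single (p, b) (fun y _ hy => by rw [if_neg hy, zero_mul])
              (fun h => absurd (Finset.mem_univ _) h)]
            simp
          rw [h3] at h1
          push_cast at h1
          rw [hdiff (fun j => ((c' (Sum.inl j) : ℚ) : ℝ))] at h1
          have h4 : (0 : ℝ) ≤ ((c' (Sum.inr (p, b)) : ℚ) : ℝ) := by exact_mod_cast hc' _
          linarith
        · have h1 := congrArg (Rat.cast : ℚ → ℝ) (heq (Sum.inr p))
          rw [Fintype.sum_sum_type] at h1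
          simp only [Sum.elim_inl, Sum.elim_inr, zero_mul, Finset.sum_const_zero,
            add_zero] at h1
          push_cast at h1
          rw [hdiff (fun j => ((c' (Sum.inl j) : ℚ) : ℝ))] at h1
          linarith
      have h3 := hnnQ (fun j => c' (Sum.inl j)) (fun j => hc' _) B hB had'
      rw [hL] at h3
      have h5 : ∑ j, (((c' (Sum.inl j) : ℚ) : ℝ) - c j) * a' j ≤
          (-(∑ j, c j * a' j) / (∑ j, |a' j| + 1)) * ∑ j, |a' j| := by
        rw [Finset.mul_sum]
        refine Finset.sum_le_sum fun j _ => ?_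
        calc (((c' (Sum.inl j) : ℚ) : ℝ) - c j) * a' j
              ≤ |(((c' (Sum.inl j) : ℚ) : ℝ) - c j) * a' j| := le_abs_self _
          _ = |((c' (Sum.inl j) : ℚ) : ℝ) - c j| * |a' j| := abs_mul _ _
          _ ≤ _ := mul_le_mul_of_nonneg_right (hclose (Sum.inl j)).le (abs_nonneg _)
      have h6 : ∑ j, (((c' (Sum.inl j) : ℚ) : ℝ) - c j) * a' j =
          ∑ j, ((c' (Sum.inl j) : ℚ) : ℝ) * a' j - ∑ j, c j * a' j := by
        rw [← Finset.sum_sub_distrib]
        exact Finset.sum_congr rfl fun j _ => by ring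
      rw [h6] at h5
      have h7 : (-(∑ j, c j * a' j) / (∑ j, |a' j| + 1)) * ∑ j, |a' j| <
          -(∑ j, c j * a' j) := by
        rw [div_mul_eq_mul_div, div_lt_iff₀ (by linarith)]
        nlinarith
      linarith
  · rw [hwv]
    clear hv hwv hw
    subst hvv
    intro B₀ σ a₀ hpt hin
    obtain ⟨hB₀, hσ, ⟨p₀, hp₀⟩, hne⟩ := hpt
    have hne' : (∃ p p', σ p ≠ σ p') ∨ a₀ ≠ 0 := by
      rcases hne with h1 | h1
      · left
        by_contra hcon
        push Not at hcon
        apply h1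
        funext p
        rw [hcon p p₀, hp₀]
        rfl
      · exact Or.inr h1
    have hcone : InCone (fun j => C8.vS (C8.sg (pg j) (s j)) (w j)) (C8.vS σ a₀) := by
      apply C8.cone_dualT
      intro u hu
      have hcomm : ∀ y : Fin R ⊕ Fin k → ℤ, ∑ x, y x * u x = ∑ x, u x * y x := fun y =>
        Finset.sum_congr rfl fun x _ => mul_comm _ _
      rw [hcomm, C8.pair_vS]
      have h1 := hin (C8.ee u) (fun l => u (Sum.inr l)) (C8.sum_ee u).le (fun j => by
        have h2 := hu j
        rw [hcomm, C8.pair_vS, C8.sum_sg] at h2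
        exact h2)
      exact h1
    have h1 := hlc _ (C8.onTrop_vS hV hB₀ a₀ hσ) hcone (C8.vS_ne hne')
    obtain ⟨i, hi⟩ := C8.mono_att E (C8.vS σ a₀)
    have hκZ : ∀ j, (r : ℤ) * κ j = q * (r * logDisc a (C8.vS (C8.sg (pg j) (s j)) (w j)) -
        ordMono E (C8.vS (C8.sg (pg j) (s j)) (w j))) := by
      intro j
      have h2 := hκ j
      unfold toricDisc at h2
      have hrQ : (r : ℚ) ≠ 0 := by exact_mod_cast hr.ne'
      have h3 : (r : ℚ) * κ j = q * (r * logDisc a (C8.vS (C8.sg (pg j) (s j)) (w j)) -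
        ordMono E (C8.vS (C8.sg (pg j) (s j)) (w j))) := by
        rw [h2]; field_simp
      exact_mod_cast h3
    -- the functional
    obtain ⟨bb, hbb⟩ : ∃ bb : Option (Fin R) → ℤ, bb = fun p =>
        p.elim (((g : ℤ) + 1) * q * r - q * ∑ i', E i (Sum.inl i'))
          (fun i' => q * E i (Sum.inl i')) := ⟨_, rfl⟩
    have hbσ : ∀ σ' : Option (Fin R) → ℕ, ∑ p, bb p * (σ' p : ℤ) =
        ((g : ℤ) + 1) * q * r * σ' none + q * ∑ p, (σ' p : ℤ) * C8.ee (E i) p := by
      intro σ'
      rw [Fintype.sum_option, Fintype.sum_option]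
      simp only [hbb, Option.elim, C8.ee]
      have e1 : ∑ x : Fin R, q * E i (Sum.inl x) * (σ' (some x) : ℤ) =
          q * ∑ x : Fin R, (σ' (some x) : ℤ) * E i (Sum.inl x) := by
        rw [Finset.mul_sum]
        exact Finset.sum_congr rfl fun x _ => by ring
      rw [e1]
      ring
    have hcw : ∀ w' : Fin k → ℤ, ∑ l, ((r : ℤ) * q - q * E i (Sum.inr l)) * w' l =
        r * q * ∑ l, w' l - q * ∑ l, E i (Sum.inr l) * w' l := by
      intro w'
      rw [Finset.mul_sum, Finset.mul_sum, ← Finset.sum_sub_distrib]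
      exact Finset.sum_congr rfl fun x _ => by ring
    refine ⟨r, hr, bb, fun l => (r : ℤ) * q - q * E i (Sum.inr l), ⟨?_, fun j => ?_⟩, ?_⟩
    · rw [Fintype.sum_option]
      simp only [hbb, Option.elim, ← Finset.mul_sum]
      apply le_of_eq
      ring
    · have h2 := C8.sum_sg (pg j) (s j) (fun p => (q : ℤ) * r - bb p)
      have h3 := C8.mono_le E (C8.vS (C8.sg (pg j) (s j)) (w j)) i
      have hq0 : (0 : ℤ) ≤ q := by positivity
      have h4 : ∑ p, (C8.sg (pg j) (s j) p : ℤ) * ((q : ℤ) * r - bb p) =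
          q * r * ∑ p, (C8.sg (pg j) (s j) p : ℤ) -
            ∑ p, bb p * (C8.sg (pg j) (s j) p : ℤ) := by
        rw [Finset.mul_sum, ← Finset.sum_sub_distrib]
        exact Finset.sum_congr rfl fun x _ => by ring
      unfold fval
      rw [← h2, h4, hbσ, hcw, hκZ, C8.disc_ray hV]
      rw [C8.pair_vS] at h3
      nlinarith
    · unfold tval
      rw [hbσ, hcw]
      have h2 : (0 : ℝ) < q * (r * (logDisc a (C8.vS σ a₀) : ℝ) -
          (ordMono E (C8.vS σ a₀) : ℝ)) := by
        have h4 : (r : ℝ) * ε ≤ r * (logDisc a (C8.vS σ a₀) : ℝ) -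
          (ordMono E (C8.vS σ a₀) : ℝ) := by
          have h5 := mul_le_mul_of_nonneg_left h1 hrR.le
          have h6 : (r : ℝ) * ((logDisc a (C8.vS σ a₀) : ℝ) -
            (ordMono E (C8.vS σ a₀) : ℝ) / r) =
            r * (logDisc a (C8.vS σ a₀) : ℝ) -
            (ordMono E (C8.vS σ a₀) : ℝ) := by field_simp
          rw [h6] at h5
          exact h5
        have h5 := mul_pos hrR hε
        exact mul_pos hqR (by linarith)
      have h3 : (0 : ℤ) < q * (r * logDisc a (C8.vS σ a₀) - ordMono E (C8.vS σ a₀)) := by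
        exact_mod_cast h2
      rw [hi, C8.pair_vS, C8.disc_vS hV hB₀ a₀ hσ] at h3
      linarith

end Vale.Agent.P283.M647
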