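import Vale.Agent.P283.M647.Props
import Vale.Agent.P283.A647.A10

/-!
C9: the exponents of the complement.
-/

set_option linter.all false

namespace Vale.Agent.P283.M647.C9

open Vale.Agent.P283.M647
open Vale.Agent.P283.T647 (psum fval Triv)
open Vale.Agent.P283.A647 (Sol InBook Mt)
open Vale.Agent.P283.A647.A10 (ptv mul gam raise sum_off sum_mul)

section

variable {g R k N M : ℕ}

theorem wt_ptv (σ : Option (Fin R) → ℤ) (x : Fin k → ℤ) (p : Option (Fin R)) :
    wt (ptv σ x) p = σ p - σ none := by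
  rcases p with _ | i
  · simp [wt]
  · simp [wt, ptv]

/-- The log discrepancy of a point. -/
theorem logDisc_ptv {a : Fin R → Fin (g + 1) → ℂ} {𝓑 : Finset (Finset (Option (Fin R)))}
    {C : Finset (Option (Fin R)) → Option (Fin R) → Finset (Option (Fin R))}
    (hV : VecMat a 𝓑 C) {B : Finset (Option (Fin R))} (hB : B ∈ 𝓑)
    (σ : Option (Fin R) → ℤ) (x : Fin k → ℤ) (h : Ad C B σ) :
    logDisc a (ptv σ x) = ∑ p ∈ B, σ p - ((g : ℤ) + 1) * σ none + ∑ l, x l := by
  have h1 : Ad C B (wt (ptv σ x)) := by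
    intro p
    simp only [wt_ptv]
    obtain ⟨h1, b, hb, h2⟩ := h p
    exact ⟨fun b hb => by linarith [h1 b hb], b, hb, by rw [h2]⟩
  have h2 := (hV.trop _ B hB h1).2
  unfold logDisc
  rw [h2]
  simp only [wt_ptv]
  rw [Finset.sum_sub_distrib, Finset.sum_const, hV.mat.card B hB]
  simp only [nsmul_eq_mul, ptv, Sum.elim_inr]
  push_cast
  ring

/-- The exponent of a functional. -/
theorem gam_val {a : Fin R → Fin (g + 1) → ℂ} {𝓑 : Finset (Finset (Option (Fin R)))}
    {C : Finset (Option (Fin R)) → Option (Fin R) → Finset (Option (Fin R))}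
    (hV : VecMat a 𝓑 C) {B : Finset (Option (Fin R))} (hB : B ∈ 𝓑)
    (q K : ℕ) (b : Option (Fin R) → ℤ) (c : Fin k → ℤ)
    (hb : ∑ p, b p = (g + 1) * q * K) (σ : Option (Fin R) → ℤ) (x : Fin k → ℤ)
    (h : Ad C B σ) :
    K * (q * logDisc a (ptv σ x)) - ∑ i, gam q K b c i * ptv σ x i =
      q * K * ∑ p ∈ B, σ p - ∑ p, b p * σ p + ∑ i, c i * x i := by
  rw [logDisc_ptv hV hB σ x h, Fintype.sum_sum_type]
  simp only [Sum.elim_inl, Sum.elim_inr, ptv, gam]
  have h2 : ∑ l, ((K : ℤ) * q - c l) * x l = K * q * ∑ l, x l - ∑ l, c l * x l := by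
    simp only [sub_mul, Finset.sum_sub_distrib, Finset.mul_sum]
  have h3 : ∑ i, b (some i) * (σ (some i) - σ none) =
      ∑ i, b (some i) * σ (some i) - σ none * ∑ i, b (some i) := by
    rw [Finset.mul_sum, ← Finset.sum_sub_distrib]
    exact Finset.sum_congr rfl fun i _ => by ring
  rw [h2, h3, Fintype.sum_option (fun p => b p * σ p)]
  rw [Fintype.sum_option] at hb
  linear_combination (σ none) * hb

/-- A basis for a ray. -/
theorem ray_basis {P : Type} [Fintype P] [DecidableEq P] {n : ℕ} {𝓑 : Finset (Finset P)}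
    {C : Finset P → P → Finset P} (hM : IsMat n 𝓑 C) (o : Option P) (s : ℤ) (hs : 0 ≤ s) :
    ∃ B ∈ 𝓑, Ad C B (fun p => if o = some p then s else 0) ∧ ∀ p, o = some p → p ∈ B := by
  obtain ⟨B, hB⟩ := hM.ne
  rcases o with _ | p₀
  · refine ⟨B, hB, fun p => ?_, fun p h => by simp at h⟩
    obtain ⟨b, hb⟩ := hM.nz B hB p
    exact ⟨fun b _ => by simp, b, hb, by simp⟩
  · obtain ⟨B', hB', hp⟩ : ∃ B' ∈ 𝓑, p₀ ∈ B' := by
      obtain ⟨b, hb⟩ := hM.nz B hB p₀
      exact ⟨_, hM.exch B hB p₀ b hb, Finset.mem_insert_self _ _⟩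
    refine ⟨B', hB', fun p => ?_, fun p h => by rw [← Option.some.inj h]; exact hp⟩
    by_cases h : p = p₀
    · subst h
      rw [hM.self B' hB' p hp]
      exact ⟨fun b hb => by rw [Finset.mem_singleton.1 hb], p, Finset.mem_singleton_self _, rfl⟩
    · have h1 : (if some p₀ = some p then s else 0) = 0 :=
        if_neg fun h' => h (Option.some.inj h').symm
      obtain ⟨b, hb, hbp⟩ : ∃ b ∈ C B' p, b ≠ p₀ := by
        by_contra hno
        push Not at hno
        refine h (hM.simple B' hB' p p₀ ?_)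
        obtain ⟨b, hb⟩ := hM.nz B' hB' p
        refine Finset.eq_singleton_iff_unique_mem.2 ⟨?_, hno⟩
        rw [← hno b hb]
        exact hb
      refine ⟨fun b _ => ?_, b, hb, ?_⟩
      · simp only [h1]
        split_ifs
        · exact hs
        · exact le_rfl
      · simp only [h1]
        rw [if_neg fun h' => hbp (Option.some.inj h').symm]

/-- The points of the tropicalization. -/
theorem onTrop_ptv {a : Fin R → Fin (g + 1) → ℂ} {𝓑 : Finset (Finset (Option (Fin R)))}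
    {C : Finset (Option (Fin R)) → Option (Fin R) → Finset (Option (Fin R))}
    (hV : VecMat a 𝓑 C) {α : Fin R ⊕ Fin k → ℤ} (h : OnTrop a α) :
    ∃ σ : Option (Fin R) → ℕ, ∃ B ∈ 𝓑, Ad C B σ ∧ Ad C B (fun p => (σ p : ℤ)) ∧
      (∃ p, σ p = 0) ∧ α = ptv (fun p => (σ p : ℤ)) (fun l => α (Sum.inr l)) := by
  obtain ⟨B, hB, hAd⟩ := hV.ad _ h
  obtain ⟨p₀, hp₀⟩ := Finite.exists_min (wt α)
  have h1 : ∀ p, (((wt α p - wt α p₀).toNat : ℕ) : ℤ) = wt α p - wt α p₀ := fun p =>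
    Int.toNat_of_nonneg (by linarith [hp₀ p])
  have h2 : Ad C B (fun p => (((wt α p - wt α p₀).toNat : ℕ) : ℤ)) := by
    intro p
    simp only [h1]
    obtain ⟨h2, b, hb, h3⟩ := hAd p
    exact ⟨fun b hb => by linarith [h2 b hb], b, hb, by rw [h3]⟩
  refine ⟨fun p => (wt α p - wt α p₀).toNat, B, hB, ?_, h2, ?_, ?_⟩
  · intro p
    obtain ⟨h3, b, hb, h4⟩ := h2 p
    exact ⟨fun b hb => (Nat.cast_le (α := ℤ)).1 (h3 b hb), b, hb, Nat.cast_injective (R := ℤ) h4⟩
  · exact ⟨p₀, by simp⟩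
  · funext x
    rcases x with i | l
    · simp only [ptv, Sum.elim_inl, h1]
      simp [wt]
    · rfl

end

end Vale.Agent.P283.M647.C9

namespace Vale.Agent.P283.M647

open C9
open Vale.Agent.P283.T647 (psum fval Triv)
open Vale.Agent.P283.A647 (Sol InBook Mt)
open Vale.Agent.P283.A647.A10 (ptv mul gam raise sum_off sum_mul)

theorem c9 (hM : CaseM) (hA : CaseA) (hV : VecMatEx) (hT : ToBook) : BookExpos := by
  classical
  intro g k q ε hg hq hε
  have hqε : 0 < q * ε := by positivity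
  obtain ⟨k₁, hk₁, hmain₁⟩ := hM k g q (q * ε) hqε
  obtain ⟨k₂, hk₂, hmain₂⟩ := hA k g q (q * ε) hqε
  refine ⟨k₁ * k₂, Nat.mul_pos hk₁ hk₂, ?_⟩
  intro R N M r a v E κ ha hr hv hκ hκq hlc hsub K hK hK0
  obtain ⟨𝓑, C, hVM⟩ := hV g R a hg ha
  obtain ⟨pg, s, hlink, hbook, hreal⟩ :=
    hT g q ε hg hq hε R k N M r a 𝓑 C hVM v E κ hr hv hκ hκq hlc
  have hlink' : A647.Link v pg s := hlink
  have hgoal : Goal g q K 𝓑 C pg s (fun j l => v j (Sum.inr l)) κ := by
    by_cases hp : ∀ p, ∃ j, pg j = some p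
    · exact hmain₁ _ _ 𝓑 C pg s _ κ hbook hreal hp K ((dvd_mul_right _ _).trans hK) hK0
    · push Not at hp
      obtain ⟨p₁, hp₁⟩ := hp
      exact hmain₂ _ _ 𝓑 C pg s _ κ hbook hreal p₁ hp₁ K ((dvd_mul_left _ _).trans hK) hK0
  by_cases hex : ∃ α, OnTrop a α ∧ InCone v α ∧ α ≠ 0
  swap
  · push Not at hex
    refine ⟨{0}, Finset.singleton_nonempty _, ?_, fun α h1 h2 h3 => absurd (hex α h1 h2) h3⟩
    intro γ hγ α h1 h2
    rw [Finset.mem_singleton] at hγ
    subst hγ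
    have h0 : α = 0 := hex α h1 h2
    subst h0
    have h1 : ordMono E (0 : Fin R ⊕ Fin k → ℤ) = 0 := by
      obtain ⟨i, hi⟩ := A647.A10.ordMono_att E (0 : Fin R ⊕ Fin k → ℤ)
      have hi' : ordMono E (0 : Fin R ⊕ Fin k → ℤ) = ∑ x, E i x * (0 : Fin R ⊕ Fin k → ℤ) x := hi
      rw [hi']; simp
    rw [h1]; simp
  let T : Fin N → ℤ := fun j => q * logDisc a (v j) - κ j
  have hT : ∀ j, (T j : ℚ) = q * ((ordMono E (v j) : ℚ) / r) := by
    intro j
    have h1 := hκ j
    simp only [T]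
    push_cast
    rw [h1]
    unfold toricDisc
    ring
  have hpoint : ∀ α, OnTrop a α → InCone v α → α ≠ 0 → ∃ x : Fin R ⊕ Fin k → ℤ,
      (∀ j, K * T j ≤ ∑ i, x i * v j i) ∧ ∑ i, x i * α i < K * (q * logDisc a α) := by
    intro α hα hc hα0
    obtain ⟨σ, B, hB, hAd, hAd', hz, hσ⟩ := onTrop_ptv hVM hα
    obtain ⟨u, hu⟩ : ∃ u : Fin k → ℤ, u = fun l => α (Sum.inr l) := ⟨_, rfl⟩
    rw [← hu] at hσ
    have hne : σ ≠ 0 ∨ u ≠ 0 := by
      by_contra hno
      push Not at hno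
      refine hα0 ?_
      rw [hσ, hno.1, hno.2]
      funext x
      rcases x with i | l
      · simp [ptv]
      · simp [ptv]
    rw [hσ] at hc
    obtain ⟨b, c, ⟨hb1, hb2⟩, hb3⟩ := hgoal B σ u ⟨hB, hAd, hz, hne⟩
      (A647.A10.inBook_of_inCone hlink' hz hc)
    obtain ⟨p₁, hp₁⟩ := hz
    obtain ⟨b', h1, h2, h3⟩ := raise p₁ b ((g + 1) * q * K) hb1
    refine ⟨gam q K b' c, fun j => ?_, ?_⟩
    · obtain ⟨B', hB', hAdj, hBj⟩ := ray_basis hVM.mat (pg j) (s j) (by positivity)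
      have h4 := gam_val hVM hB' q K b' c h3 (mul pg s j) (fun l => v j (Sum.inr l)) hAdj
      rw [← A647.A10.ptv_link hlink' j] at h4
      have h8 : (q : ℤ) * K * ∑ p ∈ B', mul pg s j p - ∑ p, b' p * mul pg s j p =
          (pg j).elim 0 (fun p => (s j : ℤ) * (q * K - b' p)) := by
        have h9 : ∑ p, b' p * mul pg s j p = (pg j).elim 0 (fun p => (s j : ℤ) * b' p) := by
          rw [← sum_mul]
          exact Finset.sum_congr rfl fun p _ => mul_comm _ _
        have h10 : ∑ p ∈ B', mul pg s j p = (pg j).elim 0 (fun _ => (s j : ℤ)) := by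
          unfold mul
          rcases h11 : pg j with _ | p₂
          · simp
          · simp only [Option.elim, Option.some.injEq]
            rw [Finset.sum_ite_eq B' p₂ (fun _ => (s j : ℤ)), if_pos (hBj p₂ h11)]
        rw [h9, h10]
        rcases pg j with _ | p₂
        · simp
        · simp only [Option.elim]
          ring
      have h5 := hb2 j
      have h6 : (pg j).elim 0 (fun p => (s j : ℤ) * (q * K - b' p)) ≤
          (pg j).elim 0 (fun p => (s j : ℤ) * (q * K - b p)) := by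
        rcases pg j with _ | p
        · exact le_rfl
        · exact mul_le_mul_of_nonneg_left (by linarith [h1 p]) (by positivity)
      simp only [fval] at h5
      simp only [T]
      have h7 : (K : ℤ) * (q * logDisc a (v j) - κ j) = K * (q * logDisc a (v j)) - K * κ j := by
        ring
      rw [h7]
      linarith
    · have h4 := gam_val hVM hB q K b' c h3 (fun p => (σ p : ℤ)) u hAd'
      rw [← hσ] at h4
      have h5 : ∑ p, b' p * (σ p : ℤ) = ∑ p, b p * (σ p : ℤ) := by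
        have h6 := sum_off (σ := fun p => (σ p : ℤ)) (p₁ := p₁) (by simp [hp₁]) h2
        have h7 : ∀ e : Option (Fin R) → ℤ, ∑ p, e p * (σ p : ℤ) = ∑ p, (σ p : ℤ) * e p :=
          fun e => Finset.sum_congr rfl fun p _ => mul_comm _ _
        rw [h7, h7]
        exact h6
      rw [h5] at h4
      unfold tval at hb3
      linarith
  -- finitely many exponents
  let P : Set (Fin R ⊕ Fin k → ℤ) := {x | ∀ j, K * T j ≤ ∑ i, x i * v j i}
  let F : (Fin R ⊕ Fin k → ℤ) → (Fin N → ℕ) := fun x j =>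
    (∑ i, x i * v j i - K * T j).toNat
  have hF : ∀ x ∈ P, ∀ j, ((F x j : ℕ) : ℤ) = ∑ i, x i * v j i - K * T j := fun x hx j =>
    Int.toNat_of_nonneg (by have := hx j; linarith)
  obtain ⟨Ff, hFf1, hFf2⟩ := Z647.dickson (F '' P)
  choose! G hG1 hG2 using hFf1
  have hle : ∀ x ∈ P, ∃ γ ∈ Ff.image G, ∀ j, ∑ i, γ i * v j i ≤ ∑ i, x i * v j i := by
    intro x hx
    obtain ⟨z, hz, hzx⟩ := hFf2 (F x) ⟨x, hx, rfl⟩
    refine ⟨G z, Finset.mem_image_of_mem G hz, fun j => ?_⟩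
    have h1 := hF x hx j
    have h2 := hF (G z) (hG1 z hz) j
    have h3 : F (G z) j ≤ F x j := by rw [hG2 z hz]; exact hzx j
    have h4 : ((F (G z) j : ℕ) : ℤ) ≤ F x j := by exact_mod_cast h3
    linarith
  refine ⟨Ff.image G, ?_, ?_, ?_⟩
  · obtain ⟨α, h1, h2, h3⟩ := hex
    obtain ⟨x, hx, -⟩ := hpoint α h1 h2 h3
    obtain ⟨γ, hγ, -⟩ := hle x hx
    exact ⟨γ, hγ⟩
  · intro γ hγ α hα hc
    obtain ⟨z, hz, rfl⟩ := Finset.mem_image.1 hγ
    obtain ⟨t, ht, hta, htE⟩ := hsub α hα hc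
    have h2 : (K : ℚ) * q * ((ordMono E α : ℚ) / r) = ∑ j, t j * (K * T j) := by
      rw [htE]
      simp only [hT, Finset.mul_sum, Finset.sum_div]
      exact Finset.sum_congr rfl fun j _ => by ring
    rw [A647.A10.inCone_pair hta, h2]
    refine Finset.sum_le_sum fun j _ => mul_le_mul_of_nonneg_left ?_ (ht j)
    exact_mod_cast hG1 z hz j
  · intro α hα hc hα0
    obtain ⟨x, hx, hlt⟩ := hpoint α hα hc hα0
    obtain ⟨γ, hγ, hγx⟩ := hle x hx
    refine ⟨γ, hγ, lt_of_le_of_lt ?_ hlt⟩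
    obtain ⟨t, ht, hta⟩ := hc
    have h1 : ((∑ i, γ i * α i : ℤ) : ℚ) ≤ ((∑ i, x i * α i : ℤ) : ℚ) := by
      rw [A647.A10.inCone_pair hta, A647.A10.inCone_pair hta]
      refine Finset.sum_le_sum fun j _ => mul_le_mul_of_nonneg_left ?_ (ht j)
      exact_mod_cast hγx j
    exact_mod_cast h1

end Vale.Agent.P283.M647
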