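import Vale.Agent.P283.M647.Props
import Vale.Agent.P283.A647.H170.Poly
import Vale.Agent.P283.A647.B1

/-!
Row D1: the function field of a chart.
-/

set_option linter.all false

namespace Vale.Agent.P283.M647

open MvPolynomial
open Vale.Agent.P283.A647 (IsRat lin chartY chartF)
open Vale.Agent.P283.A647.B1 (q0)
open Vale.Agent.P283.A647.H170 (pY pF poly_hyp poly_res)

namespace D1

section Chart

variable {L : Type} [Field L] [Algebra ℂ L] {d : ℕ} {U : Type} [Fintype U]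

theorem fac_ne {A : ℂ} {B : Fin d → ℂ} (hA : A ≠ 0 ∨ B ≠ 0) :
    (C A + ∑ j, C (B j) * X j : MvPolynomial (Fin d) ℂ) ≠ 0 := by
  intro h0
  have h3 : ∀ v : Fin d → ℂ, A + ∑ j, B j * v j = 0 := by
    intro v
    have h4 := congrArg (eval v) h0
    rw [map_add, map_sum, eval_C, map_zero] at h4
    rw [← h4]
    refine congrArg _ (Finset.sum_congr rfl fun j _ => ?_)
    rw [map_mul, eval_C, eval_X]
  have h4 : A = 0 := by
    have := h3 0
    rwa [Finset.sum_eq_zero, add_zero] at this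
    intro j _
    rw [Pi.zero_apply, mul_zero]
  refine hA.elim (fun h => h h4) (fun h => h (funext fun j => ?_))
  have h5 := h3 (Pi.single j 1)
  rw [h4, zero_add, Finset.sum_eq_single j, Pi.single_eq_same, mul_one] at h5
  · exact h5
  · intro i _ hi
    rw [Pi.single_eq_of_ne hi, mul_zero]
  · intro h
    exact absurd (Finset.mem_univ j) h

theorem q0_ne {A : U → ℂ} {B : U → Fin d → ℂ} (hA : ∀ i, A i ≠ 0 ∨ B i ≠ 0) : q0 d A B ≠ 0 :=
  Finset.prod_ne_zero_iff.2 fun i _ => fac_ne (hA i)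

theorem aeval_fac (y : Fin d → L) (A : U → ℂ) (B : U → Fin d → ℂ) (i : U) :
    aeval y (C (A i) + ∑ j, C (B i j) * X j : MvPolynomial (Fin d) ℂ) = lin y A B i := by
  rw [map_add, map_sum, aeval_C]
  refine congrArg _ (Finset.sum_congr rfl fun j _ => ?_)
  rw [map_mul, aeval_C, aeval_X]

theorem aeval_q0 (y : Fin d → L) (A : U → ℂ) (B : U → Fin d → ℂ) :
    aeval y (q0 d A B) = ∏ i, lin y A B i := by
  unfold q0
  rw [map_prod]
  exact Finset.prod_congr rfl fun i _ => aeval_fac y A B i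

theorem lin_ne {y : Fin d → L} (H : IsRat y) {A : U → ℂ} {B : U → Fin d → ℂ}
    (hA : ∀ i, A i ≠ 0 ∨ B i ≠ 0) (i : U) : lin y A B i ≠ 0 := by
  intro h0
  rw [← aeval_fac] at h0
  exact fac_ne (hA i) (H.ind.eq_zero_of_aeval_eq_zero _ h0)

theorem prod_lin_ne {y : Fin d → L} (H : IsRat y) {A : U → ℂ} {B : U → Fin d → ℂ}
    (hA : ∀ i, A i ≠ 0 ∨ B i ≠ 0) : ∏ i, lin y A B i ≠ 0 :=
  Finset.prod_ne_zero_iff.2 fun i _ => lin_ne H hA i

theorem pY_eq (y : Fin d → L) (A : U → ℂ) (B : U → Fin d → ℂ) :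
    pY y (q0 d A B) = chartY y A B := by
  unfold pY chartY
  rw [aeval_q0]

theorem pF_eq (A : U → ℂ) (B : U → Fin d → ℂ) : pF (q0 d A B) = chartF d A B :=
  (Vale.Agent.P283.A647.B1.chartF_eq A B).symm

end Chart

end D1

/-- D1. -/
theorem d1 : ChartHyp := by
  intro d U _ L _ _ y A B H hA
  have h1 := poly_hyp H (D1.q0_ne hA)
  rwa [D1.pY_eq, D1.pF_eq] at h1

end Vale.Agent.P283.M647
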