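import Vale.Agent.P283.M647.D1

/-!
Row D2: the residue form of a chart.
-/

set_option linter.all false

namespace Vale.Agent.P283.M647

open Vale.Agent.P283.A647.H170 (poly_res)

/-- D2. -/
theorem d2 : ChartRes := by
  intro d U _ L _ _ y A B H hA D' h hh
  have h1 := poly_res H (D1.q0_ne hA) hh
  rwa [D1.pY_eq, D1.pF_eq, D1.aeval_q0] at h1

end Vale.Agent.P283.M647
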