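import Vale.Agent.P283.M647.H91.D3

/-!
D3. Values and orders in a chart.
-/

namespace Vale.Agent.P283.M647

theorem d3 (h : ChartHyp) (h' : ChartRes) : ChartBound := H91.d3 h h'

end Vale.Agent.P283.M647
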