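import Vale.Agent.P283.M647.Defs
import Vale.Agent.P283.A647.Props

/-!
Statements of the parts of the proof.
-/

set_option linter.all false

namespace Vale.Agent.P283.M647

open MvPolynomial
open Vale.Agent.P283.T647 (psum fval Triv)
open Vale.Agent.P283.A647 (Sol InBook Mt IsRat lin chartY chartF term)

/-! ## Combinatorics -/

section Mat

variable {P : Type} [Fintype P] [DecidableEq P]

/-- The bases of a matroid of rank `n` on `P`; for a basis `B`, `C B p` is the fundamental circuit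
of `p` without `p`, and `C B p = {p}` for `p ∈ B`. -/
structure IsMat (n : ℕ) (𝓑 : Finset (Finset P)) (C : Finset P → P → Finset P) : Prop where
  ne : 𝓑.Nonempty
  card : ∀ B ∈ 𝓑, B.card = n
  sub : ∀ B ∈ 𝓑, ∀ p, C B p ⊆ B
  nz : ∀ B ∈ 𝓑, ∀ p, (C B p).Nonempty
  self : ∀ B ∈ 𝓑, ∀ p ∈ B, C B p = {p}
  exch : ∀ B ∈ 𝓑, ∀ p, ∀ b ∈ C B p, insert p (B.erase b) ∈ 𝓑
  mtch : ∀ B ∈ 𝓑, ∀ B' ∈ 𝓑, ∃ f : P → P, Set.InjOn f B' ∧ ∀ p ∈ B', f p ∈ C B p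
  trans : ∀ B ∈ 𝓑, ∀ B' ∈ 𝓑, ∀ p, ∀ x ∈ C B' p, ∃ b ∈ C B p, x ∈ C B' b
  simple : ∀ B ∈ 𝓑, ∀ p b, C B p = {b} → p = b

/-- `w` is adapted to the basis `B`. -/
def Ad {β : Type} [LinearOrder β] (C : Finset P → P → Finset P) (B : Finset P) (w : P → β) :
    Prop :=
  ∀ p, (∀ b ∈ C B p, w p ≤ w b) ∧ ∃ b ∈ C B p, w p = w b

end Mat

section Book

variable {P ι : Type} [Fintype P] [DecidableEq P] [Fintype ι] {k : ℕ}

/-- The lower bound, with the pages in `𝒬`. -/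
noncomputable def vl (q : ℕ) (pg : ι → Option P) (s : ι → ℕ) (κ : ι → ℕ) (𝒬 : Finset P)
    (c : ι → ℝ) (B : Finset P) : ℝ :=
  ∑ j, c j * κ j - q * ∑ p ∈ 𝒬 \ B, psum pg s c p

/-- Combinatorial data of a pair of arrangement type. -/
structure IsBook (g q : ℕ) (δ : ℝ) (𝓑 : Finset (Finset P)) (C : Finset P → P → Finset P)
    (pg : ι → Option P) (s : ι → ℕ) (w : ι → Fin k → ℤ) (κ : ι → ℕ) : Prop where
  g0 : 0 < g
  q0 : 0 < q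
  δ0 : 0 < δ
  mat : IsMat (g + 1) 𝓑 C
  pos : ∀ j p, pg j = some p → 0 < s j
  κq : ∀ j, κ j ≤ q
  lc : ∀ c : ι → ℝ, (∀ j, 0 ≤ c j) → ∀ B ∈ 𝓑, Ad C B (psum pg s c) →
    (∀ p p', ∃ n : ℤ, psum pg s c p - psum pg s c p' = n) → ∀ b : Fin k → ℤ,
    (∀ i, (b i : ℝ) = ∑ j, c j * w j i) →
    ((∃ p p', psum pg s c p ≠ psum pg s c p') ∨ b ≠ 0) →
    δ ≤ vl q pg s κ Finset.univ c B
  nn : ∀ c : ι → ℝ, (∀ j, 0 ≤ c j) → ∀ B ∈ 𝓑, Ad C B (psum pg s c) →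
    0 ≤ vl q pg s κ Finset.univ c B

/-- The value of the functional `(b, c)` at the point `(σ, a)`, where `σ` is adapted to `B₀`; only
the pages in `𝒬` count. -/
def tval (q K : ℕ) (b : P → ℤ) (c : Fin k → ℤ) (B₀ 𝒬 : Finset P) (σ : P → ℕ) (a : Fin k → ℤ) : ℤ :=
  q * K * ∑ p ∈ B₀, (σ p : ℤ) - ∑ p ∈ 𝒬, b p * σ p + ∑ i, c i * a i

/-- There is an admissible functional of denominator `K` which is positive at the point. -/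
def Good (g q K : ℕ) (pg : ι → Option P) (s : ι → ℕ) (w : ι → Fin k → ℤ) (κ : ι → ℕ)
    (B₀ : Finset P) (σ : P → ℕ) (a : Fin k → ℤ) : Prop :=
  ∃ (b : P → ℤ) (c : Fin k → ℤ), Sol g q K pg s w κ b c ∧ 0 < tval q K b c B₀ Finset.univ σ a

/-- `(σ, a)` is a point of the tropical variety, `σ` is adapted to `B₀`, its least entry is `0`. -/
def Pt (𝓑 : Finset (Finset P)) (C : Finset P → P → Finset P) (B₀ : Finset P) (σ : P → ℕ)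
    (a : Fin k → ℤ) : Prop :=
  B₀ ∈ 𝓑 ∧ Ad C B₀ σ ∧ (∃ p, σ p = 0) ∧ (σ ≠ 0 ∨ a ≠ 0)

/-- Admissible functionals (of any denominator) which are positive at the points of the cone. -/
def HasReal (g q : ℕ) (𝓑 : Finset (Finset P)) (C : Finset P → P → Finset P) (pg : ι → Option P)
    (s : ι → ℕ) (w : ι → Fin k → ℤ) (κ : ι → ℕ) : Prop :=
  ∀ (B₀ : Finset P) (σ : P → ℕ) (a : Fin k → ℤ), Pt 𝓑 C B₀ σ a → InBook pg s w σ a →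
    ∃ r : ℕ, 0 < r ∧ Good g q r pg s w κ B₀ σ a

/-- Admissible functionals of denominator `K` which are positive at the points of the cone. -/
def Goal (g q K : ℕ) (𝓑 : Finset (Finset P)) (C : Finset P → P → Finset P) (pg : ι → Option P)
    (s : ι → ℕ) (w : ι → Fin k → ℤ) (κ : ι → ℕ) : Prop :=
  ∀ (B₀ : Finset P) (σ : P → ℕ) (a : Fin k → ℤ), Pt 𝓑 C B₀ σ a → InBook pg s w σ a →
    Good g q K pg s w κ B₀ σ a

/-- The pages outside `𝒬` are empty, and an empty page in `𝒬` is in every basis in `𝒬`; `W` is the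
sum of the spine parts of the pages outside `𝒬`. -/
structure IsRes (q : ℕ) (𝓑 : Finset (Finset P)) (pg : ι → Option P) (s : ι → ℕ)
    (w : ι → Fin k → ℤ) (κ : ι → ℕ) (𝒬 : Finset P) (W : Fin k → ℤ) : Prop where
  bas : ∃ B ∈ 𝓑, B ⊆ 𝒬
  out : ∀ p, p ∉ 𝒬 → Mt q pg s w κ p
  inn : ∀ p ∈ 𝒬, Mt q pg s w κ p → ∀ B ∈ 𝓑, B ⊆ 𝒬 → p ∈ B
  sum : ∀ l : P → ι, (∀ p, p ∉ 𝒬 → pg (l p) = some p) → ∀ i, W i = ∑ p ∈ 𝒬ᶜ, w (l p) i

/-- Admissible functionals for the pages in `𝒬`. -/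
def SolQ (g q K : ℕ) (pg : ι → Option P) (s : ι → ℕ) (w : ι → Fin k → ℤ) (κ : ι → ℕ)
    (𝒬 : Finset P) (W : Fin k → ℤ) (b : P → ℤ) (c : Fin k → ℤ) : Prop :=
  ∑ p ∈ 𝒬, b p + ∑ i, c i * W i ≤ (g + 1) * q * K ∧
    ∀ j, (∀ p, pg j = some p → p ∈ 𝒬) → fval q K pg s w b c j ≤ K * κ j

/-- The point `(σ, a)` lies in the cone for the pages in `𝒬` (dual description). -/
def InBookQ (pg : ι → Option P) (s : ι → ℕ) (w : ι → Fin k → ℤ) (𝒬 : Finset P) (W : Fin k → ℤ)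
    (σ : P → ℕ) (a : Fin k → ℤ) : Prop :=
  ∀ (e : P → ℤ) (c : Fin k → ℤ), ∑ p ∈ 𝒬, e p - ∑ i, c i * W i ≤ 0 →
    (∀ j, (∀ p, pg j = some p → p ∈ 𝒬) →
      0 ≤ (pg j).elim 0 (fun p => (s j : ℤ) * e p) + ∑ i, c i * w j i) →
    0 ≤ ∑ p ∈ 𝒬, (σ p : ℤ) * e p + ∑ i, c i * a i

end Book

/-- C0. Lifting choices of rays on groups of trivial pages. -/
def GroupLift : Prop := ∀ (P ι Γ : Type) [Fintype P] [DecidableEq P] [Fintype ι] [Fintype Γ]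
  [DecidableEq Γ] (k q : ℕ) (pg : ι → Option P) (s : ι → ℕ) (w : ι → Fin k → ℤ) (κ : ι → ℕ)
  (𝒯 : Finset P) (γ : P → Γ), (∀ p ∈ 𝒯, Triv q pg s κ p) →
  ∀ (c : ι → ℝ) (cf : Γ → (P → ι) → ℝ), (∀ j, 0 ≤ c j) → (∀ x f, 0 ≤ cf x f) →
  (∀ j p, pg j = some p → p ∈ 𝒯 → c j = 0) →
  (∀ x f, cf x f ≠ 0 → ∀ p ∈ 𝒯, γ p = x → pg (f p) = some p) →
  ∃ c' : ι → ℝ, (∀ j, 0 ≤ c' j) ∧ (∀ p, p ∉ 𝒯 → psum pg s c' p = psum pg s c p) ∧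
    (∀ p ∈ 𝒯, psum pg s c' p = ∑ f, cf (γ p) f) ∧
    (∀ j, (∀ p, pg j = some p → p ∉ 𝒯) → c' j = c j) ∧
    (∀ i, ∑ j, c' j * (w j i : ℝ) = ∑ j, c j * (w j i : ℝ) +
      ∑ x, ∑ f, cf x f * ∑ p ∈ 𝒯.filter (fun p => γ p = x), (w (f p) i : ℝ)) ∧
    ∑ j, c' j * (κ j : ℝ) =
      ∑ j, c j * (κ j : ℝ) + q * ∑ x, ((𝒯.filter fun p => γ p = x).card : ℝ) * ∑ f, cf x f

/-- C1. The number of non-trivial pages in a flat. -/
def CountRow : Prop := ∀ (P ι : Type) [Fintype P] [DecidableEq P] [Fintype ι] (k g q : ℕ) (δ : ℝ)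
  (𝓑 : Finset (Finset P)) (C : Finset P → P → Finset P)
  (pg : ι → Option P) (s : ι → ℕ) (w : ι → Fin k → ℤ) (κ : ι → ℕ), IsBook g q δ 𝓑 C pg s w κ →
  ∀ B₀ ∈ 𝓑, ∀ F : Finset P, Ad C B₀ (fun p => if p ∈ F then (1 : ℝ) else 0) →
  (∀ p ∈ F, ∃ j, pg j = some p) → ∀ 𝒩 : Finset P, 𝒩 ⊆ F → (∀ p ∈ 𝒩, ¬ Triv q pg s κ p) →
    𝒩.card ≤ 2 * q * (g + 1)

/-- C2. The lower bound for complete books. -/
def FullIneq : Prop := ∀ (P ι : Type) [Fintype P] [DecidableEq P] [Fintype ι] (k g q : ℕ) (δ : ℝ)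
  (𝓑 : Finset (Finset P)) (C : Finset P → P → Finset P)
  (pg : ι → Option P) (s : ι → ℕ) (w : ι → Fin k → ℤ) (κ : ι → ℕ), IsBook g q δ 𝓑 C pg s w κ →
  (∀ p, ∃ j, pg j = some p) → ∀ (𝒬 : Finset P) (W : Fin k → ℤ), IsRes q 𝓑 pg s w κ 𝒬 W →
  ∀ p₀ ∈ 𝒬, ∀ c : ι → ℝ, (∀ j, 0 ≤ c j) → (∀ j p, pg j = some p → p ∉ 𝒬 → c j = 0) →
  (∀ p ∈ 𝒬, ∀ p' ∈ 𝒬, ∃ n : ℤ, psum pg s c p - psum pg s c p' = n) → ∀ b : Fin k → ℤ,
  (∀ i, (b i : ℝ) = ∑ j, c j * w j i + psum pg s c p₀ * W i) →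
  ((∃ p ∈ 𝒬, ∃ p' ∈ 𝒬, psum pg s c p ≠ psum pg s c p') ∨ b ≠ 0) →
  ∃ B ∈ 𝓑, B ⊆ 𝒬 ∧ min δ (1 / 2) ≤ vl q pg s κ 𝒬 c B

/-- C3. The lower bound in a flat. -/
def FlatIneq : Prop := ∀ (P ι : Type) [Fintype P] [DecidableEq P] [Fintype ι] (k g q : ℕ) (δ : ℝ)
  (𝓑 : Finset (Finset P)) (C : Finset P → P → Finset P)
  (pg : ι → Option P) (s : ι → ℕ) (w : ι → Fin k → ℤ) (κ : ι → ℕ), IsBook g q δ 𝓑 C pg s w κ →
  ∀ B₀ ∈ 𝓑, ∀ F : Finset P, Ad C B₀ (fun p => if p ∈ F then (1 : ℝ) else 0) →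
  (∃ p₁, p₁ ∉ F) → (∀ p ∈ F, ∃ j, pg j = some p) → ∀ c : ι → ℝ, (∀ j, 0 ≤ c j) →
  (∀ j p, pg j = some p → p ∉ F → c j = 0) →
  (∀ p, ∃ n : ℤ, psum pg s c p = n) → ∀ b : Fin k → ℤ, (∀ i, (b i : ℝ) = ∑ j, c j * w j i) →
  ((∃ p, psum pg s c p ≠ 0) ∨ b ≠ 0) →
  ∃ B ∈ 𝓑, min δ (1 / 2) ≤ vl q pg s κ F c B

/-- C4. Complete books: points with pages in `𝒬`. -/
def CaseV : Prop := ∀ (k g q : ℕ) (δ : ℝ), 0 < δ → ∃ k₀ : ℕ, 0 < k₀ ∧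
  ∀ (P ι : Type) [Fintype P] [DecidableEq P] [Fintype ι]
  (𝓑 : Finset (Finset P)) (C : Finset P → P → Finset P)
  (pg : ι → Option P) (s : ι → ℕ) (w : ι → Fin k → ℤ) (κ : ι → ℕ), IsBook g q δ 𝓑 C pg s w κ →
  (∀ p, ∃ j, pg j = some p) → ∀ (𝒬 : Finset P) (W : Fin k → ℤ), IsRes q 𝓑 pg s w κ 𝒬 W →
  ∀ p₀ ∈ 𝒬, ∀ B₁ ∈ 𝓑, B₁ ⊆ 𝒬 → ∀ (σ : P → ℕ) (a : Fin k → ℤ), σ p₀ = 0 →
  (∀ p ∈ 𝒬, (∀ b ∈ C B₁ p, σ p ≤ σ b) ∧ ∃ b ∈ C B₁ p, σ p = σ b) →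
  ((∃ p ∈ 𝒬, σ p ≠ 0) ∨ a ≠ 0) → InBookQ pg s w 𝒬 W σ a →
  (∃ r : ℕ, 0 < r ∧ ∃ (b : P → ℤ) (c : Fin k → ℤ), SolQ g q r pg s w κ 𝒬 W b c ∧
    0 < tval q r b c B₁ 𝒬 σ a) →
  ∀ K : ℕ, k₀ ∣ K → 0 < K → ∃ (b : P → ℤ) (c : Fin k → ℤ), SolQ g q K pg s w κ 𝒬 W b c ∧
    0 < tval q K b c B₁ 𝒬 σ a

/-- C5. Complete books. -/
def CaseM : Prop := ∀ (k g q : ℕ) (δ : ℝ), 0 < δ → ∃ k₀ : ℕ, 0 < k₀ ∧
  ∀ (P ι : Type) [Fintype P] [DecidableEq P] [Fintype ι]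
  (𝓑 : Finset (Finset P)) (C : Finset P → P → Finset P)
  (pg : ι → Option P) (s : ι → ℕ) (w : ι → Fin k → ℤ) (κ : ι → ℕ), IsBook g q δ 𝓑 C pg s w κ →
  HasReal g q 𝓑 C pg s w κ → (∀ p, ∃ j, pg j = some p) →
  ∀ K : ℕ, k₀ ∣ K → 0 < K → Goal g q K 𝓑 C pg s w κ

/-- C6. Some page has no rays. -/
def CaseA : Prop := ∀ (k g q : ℕ) (δ : ℝ), 0 < δ → ∃ k₀ : ℕ, 0 < k₀ ∧
  ∀ (P ι : Type) [Fintype P] [DecidableEq P] [Fintype ι]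
  (𝓑 : Finset (Finset P)) (C : Finset P → P → Finset P)
  (pg : ι → Option P) (s : ι → ℕ) (w : ι → Fin k → ℤ) (κ : ι → ℕ), IsBook g q δ 𝓑 C pg s w κ →
  HasReal g q 𝓑 C pg s w κ → ∀ p₁ : P, (∀ j, pg j ≠ some p₁) →
  ∀ K : ℕ, k₀ ∣ K → 0 < K → Goal g q K 𝓑 C pg s w κ

section Expos

variable {g R k N M : ℕ}

/-- The bases of the arrangement. -/
structure VecMat (a : Fin R → Fin (g + 1) → ℂ) (𝓑 : Finset (Finset (Option (Fin R))))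
    (C : Finset (Option (Fin R)) → Option (Fin R) → Finset (Option (Fin R))) : Prop where
  mat : IsMat (g + 1) 𝓑 C
  ad : ∀ w : Option (Fin R) → ℤ, TropW a w → ∃ B ∈ 𝓑, Ad C B w
  trop : ∀ w : Option (Fin R) → ℤ, ∀ B ∈ 𝓑, Ad C B w → TropW a w ∧ top a w = ∑ p ∈ B, w p

/-- The rays `v j` in terms of pages and multiplicities. -/
def Link (v : Fin N → Fin R ⊕ Fin k → ℤ) (pg : Fin N → Option (Option (Fin R)))
    (s : Fin N → ℕ) : Prop :=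
  ∀ j i, v j (Sum.inl i) =
    (pg j).elim 0 (fun p => p.elim (-(s j : ℤ)) (fun i' => if i = i' then (s j : ℤ) else 0))

/-- The lower bound for the log discrepancies at the lattice points. -/
def LcPt (a : Fin R → Fin (g + 1) → ℂ) (ε : ℝ) (r : ℕ) (v : Fin N → Fin R ⊕ Fin k → ℤ)
    (E : Fin (M + 1) → Fin R ⊕ Fin k → ℤ) : Prop :=
  ∀ α, OnTrop a α → InCone v α → α ≠ 0 → ε ≤ (logDisc a α : ℝ) - (ordMono E α : ℝ) / r

end Expos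

/-- C7. The matroid of an arrangement. -/
def VecMatEx : Prop := ∀ (g R : ℕ) (a : Fin R → Fin (g + 1) → ℂ), 0 < g → IsArr a →
  ∃ (𝓑 : Finset (Finset (Option (Fin R))))
    (C : Finset (Option (Fin R)) → Option (Fin R) → Finset (Option (Fin R))), VecMat a 𝓑 C

/-- C8. The book of a pair. -/
def ToBook : Prop := ∀ (g q : ℕ) (ε : ℝ), 0 < g → 0 < q → 0 < ε → ∀ (R k N M r : ℕ)
  (a : Fin R → Fin (g + 1) → ℂ) (𝓑 : Finset (Finset (Option (Fin R))))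
  (C : Finset (Option (Fin R)) → Option (Fin R) → Finset (Option (Fin R))), VecMat a 𝓑 C →
  ∀ (v : Fin N → Fin R ⊕ Fin k → ℤ) (E : Fin (M + 1) → Fin R ⊕ Fin k → ℤ)
  (κ : Fin N → ℕ), 0 < r → (∀ j, OnRay (v j)) →
  (∀ j, (κ j : ℚ) = q * toricDisc a r E (v j)) → (∀ j, κ j ≤ q) → LcPt a ε r v E →
  ∃ (pg : Fin N → Option (Option (Fin R))) (s : Fin N → ℕ), Link v pg s ∧
    IsBook g q (q * ε) 𝓑 C pg s (fun j l => v j (Sum.inr l)) κ ∧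
    HasReal g q 𝓑 C pg s (fun j l => v j (Sum.inr l)) κ

/-- C9. The exponents of the complement. -/
def BookExpos : Prop := ∀ (g k q : ℕ) (ε : ℝ), 0 < g → 0 < q → 0 < ε → ∃ k₀ : ℕ, 0 < k₀ ∧
  ∀ (R N M r : ℕ) (a : Fin R → Fin (g + 1) → ℂ) (v : Fin N → Fin R ⊕ Fin k → ℤ)
  (E : Fin (M + 1) → Fin R ⊕ Fin k → ℤ) (κ : Fin N → ℕ), IsArr a → 0 < r →
  (∀ j, OnRay (v j)) →
  (∀ j, (κ j : ℚ) = q * toricDisc a r E (v j)) → (∀ j, κ j ≤ q) → LcPt a ε r v E →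
  IsSubdivision a v E → ∀ K : ℕ, k₀ ∣ K → 0 < K →
  ∃ Ee : Finset (Fin R ⊕ Fin k → ℤ), Ee.Nonempty ∧
    (∀ γ ∈ Ee, ∀ α, OnTrop a α → InCone v α →
      (K : ℚ) * q * ((ordMono E α : ℚ) / r) ≤ ((∑ x, γ x * α x : ℤ) : ℚ)) ∧
    ∀ α, OnTrop a α → InCone v α → α ≠ 0 → ∃ γ ∈ Ee, ∑ x, γ x * α x < K * (q * logDisc a α)

/-! ## Geometry -/

section Chart

variable {L : Type} [Field L] [Algebra ℂ L] {d : ℕ} {U : Type} [Fintype U]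

/-- The weight of a term. -/
noncomputable def twt (w : AddValuation L (WithTop ℤ)) (y : Fin d → L) (A : U → ℂ)
    (B : U → Fin d → ℂ) (e : (U → ℤ) × (Fin d → ℤ)) : ℤ :=
  ∑ i, e.1 i * ov w (lin y A B i) + ∑ j, e.2 j * ov w (y j)

/-- There is no cancellation in the units of the chart. -/
def NoCan (w : AddValuation L (WithTop ℤ)) (y : Fin d → L) (A : U → ℂ) (B : U → Fin d → ℂ) :
    Prop :=
  ∀ i, (A i ≠ 0 → ov w (lin y A B i) ≤ 0) ∧ ∀ j, B i j ≠ 0 → ov w (lin y A B i) ≤ ov w (y j)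

end Chart

/-- D1. The equation of a chart. -/
def ChartHyp : Prop := ∀ (d : ℕ) (U : Type) [Fintype U] (L : Type) [Field L] [Algebra ℂ L]
  (y : Fin d → L) (A : U → ℂ) (B : U → Fin d → ℂ), IsRat y → (∀ i, A i ≠ 0 ∨ B i ≠ 0) →
  H647.HypData (chartY y A B) (chartF d A B)

/-- D2. The residue form of a chart. -/
def ChartRes : Prop := ∀ (d : ℕ) (U : Type) [Fintype U] (L : Type) [Field L] [Algebra ℂ L]
  (y : Fin d → L) (A : U → ℂ) (B : U → Fin d → ℂ), IsRat y → (∀ i, A i ≠ 0 ∨ B i ≠ 0) →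
  ∀ (D' : Fin d → Derivation ℂ L L) (h : L), h * Q.jac D' y = 1 →
  H647.ResForm (chartY y A B) (chartF d A B) D' ((∏ i, lin y A B i) * h)

/-- D3. Values and orders in a chart. -/
def ChartBound : Prop := ∀ (d : ℕ) (U : Type) [Fintype U] (L : Type) [Field L] [Algebra ℂ L]
  (y : Fin d → L) (A : U → ℂ) (B : U → Fin d → ℂ), 0 < d → IsRat y → (∀ i, A i ≠ 0 ∨ B i ≠ 0) →
  ∀ (Ee : Finset ((U → ℤ) × (Fin d → ℤ))) (lam : (U → ℤ) × (Fin d → ℤ) → ℂ),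
  Ee.Nonempty → (∀ e₀ ∈ Ee, ∃ δ : Derivation ℚ ℂ ℂ, (∀ i, δ (A i) = 0) ∧
    (∀ i j, δ (B i j) = 0) ∧ δ (lam e₀) = 1 ∧ ∀ e ∈ Ee, e ≠ e₀ → δ (lam e) = 0) →
  ∑ e ∈ Ee, algebraMap ℂ L (lam e) * term y A B e ≠ 0 ∧
  ∀ (w : AddValuation L (WithTop ℤ)), Q.IsDivisorial d w → NoCan w y A B →
    ∀ (D' : Fin d → Derivation ℂ L L) (h : L),
    h * Q.jac D' y = 1 → ∀ m' : ℤ, Q.FormOrder w D' m' →
    ∀ e₀ ∈ Ee, (∀ e ∈ Ee, twt w y A B e₀ ≤ twt w y A B e) →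
    ov w h + ∑ j, ov w (y j) +
      (ov w (∑ e ∈ Ee, algebraMap ℂ L (lam e) * term y A B e) - twt w y A B e₀) ≤ 1 + m'

/-- D4. Divisorial valuations with given weights. -/
def ChartExist : Prop := ∀ (d : ℕ) (U : Type) [Fintype U] (L : Type) [Field L] [Algebra ℂ L]
  (y : Fin d → L) (A : U → ℂ) (B : U → Fin d → ℂ), 0 < d → IsRat y → (∀ i, A i ≠ 0 ∨ B i ≠ 0) →
  ∀ ω : Fin d → ℤ, ω ≠ 0 →
  ∃ w : AddValuation L (WithTop ℤ), Q.IsDivisorial d w ∧ ∃ c : ℕ, 0 < c ∧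
    (∀ j, (c : ℤ) * ov w (y j) = ω j) ∧ NoCan w y A B ∧
    ∀ (D' : Fin d → Derivation ℂ L L) (h : L), h * Q.jac D' y = 1 →
      ∀ m' : ℤ, Q.FormOrder w D' m' → (c : ℤ) * (1 + m' - ov w h) = ∑ j, ω j

section Wts

variable {L : Type} [Field L] [Algebra ℂ L] {g R k N M : ℕ}

/-- The weights of a valuation. -/
noncomputable def wts (w : AddValuation L (WithTop ℤ)) (t : Fin g → L)
    (a : Fin R → Fin (g + 1) → ℂ) (z : Fin k → L) : Fin R ⊕ Fin k → ℤ :=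
  fun x => ov w (coord t a z x)

/-- The lc condition for the pull-back of the pair. -/
def LcB (v : Fin N → Fin R ⊕ Fin k → ℤ) (t : Fin g → L) (a : Fin R → Fin (g + 1) → ℂ)
    (z : Fin k → L) (D' : Fin (g + k) → Derivation ℂ L L) (h : L) (r : ℕ)
    (E : Fin (M + 1) → Fin R ⊕ Fin k → ℤ) (ε : ℝ) : Prop :=
  ∀ (w : AddValuation L (WithTop ℤ)) (m' : ℤ), Q.IsDivisorial (g + k) w →
    InCone v (wts w t a z) → Q.FormOrder w D' m' →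
    ε ≤ 1 + m' - ov w h - (ordMono E (wts w t a z) : ℝ) / r

/-- The coordinates `ℓ_{e j} / ℓ_m`, `z_l` of the chart of the hyperplanes `e` and `m`. -/
noncomputable def arrY (t : Fin g → L) (a : Fin R → Fin (g + 1) → ℂ) (z : Fin k → L)
    (m : Option (Fin R)) (e : Fin g → Option (Fin R)) : Fin (g + k) → L :=
  Fin.append (fun j => form t a (e j) / form t a m) z

end Wts

/-- D5a. The coordinates of the chart of the hyperplanes `e` and `m`. -/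
def ArrRat : Prop := ∀ (g R k : ℕ) (L : Type) [Field L] [Algebra ℂ L] (t : Fin g → L)
  (a : Fin R → Fin (g + 1) → ℂ) (z : Fin k → L), IsRat (Fin.append t z) → IsArr a → 0 < g →
  ∀ (m : Option (Fin R)) (e : Fin g → Option (Fin R)), IsBas a (Fin.cons m e) →
  IsRat (arrY t a z m e)

/-- D5b. The Jacobian determinant of the chart. -/
def ArrJac : Prop := ∀ (g R k : ℕ) (L : Type) [Field L] [Algebra ℂ L] (t : Fin g → L)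
  (a : Fin R → Fin (g + 1) → ℂ) (z : Fin k → L), IsRat (Fin.append t z) → IsArr a → 0 < g →
  ∀ (m : Option (Fin R)) (e : Fin g → Option (Fin R)), IsBas a (Fin.cons m e) →
  ∃ u : ℂ, u ≠ 0 ∧ ∀ D' : Fin (g + k) → Derivation ℂ L L,
    Q.jac D' (arrY t a z m e) =
      algebraMap ℂ L u * (form t a m)⁻¹ ^ (g + 1) * Q.jac D' (Fin.append t z)

/-- D5c. The linear forms in the chart. -/
def ArrLin : Prop := ∀ (g R k : ℕ) (L : Type) [Field L] [Algebra ℂ L] (t : Fin g → L)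
  (a : Fin R → Fin (g + 1) → ℂ) (z : Fin k → L), IsRat (Fin.append t z) → IsArr a → 0 < g →
  ∀ (m : Option (Fin R)) (e : Fin g → Option (Fin R)), IsBas a (Fin.cons m e) →
  ∃ (A : Option (Fin R) → ℂ) (B : Option (Fin R) → Fin (g + k) → ℂ),
    (∀ p, lin (arrY t a z m e) A B p = form t a p / form t a m) ∧
    (∀ p, A p ≠ 0 ∨ B p ≠ 0) ∧ (∀ p l, B p (Fin.natAdd g l) = 0) ∧
    (∀ p, vec a p = A p • vec a m + ∑ j, B p (Fin.castAdd k j) • vec a (e j)) ∧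
    ∀ δ : Derivation ℚ ℂ ℂ, (∀ i j, δ (a i j) = 0) → (∀ p, δ (A p) = 0) ∧ ∀ p j, δ (B p j) = 0

/-- D6. The linear forms are not `0`, and the weights of a valuation. -/
def WtsTrop : Prop := ∀ (g R k : ℕ) (L : Type) [Field L] [Algebra ℂ L] (t : Fin g → L)
  (a : Fin R → Fin (g + 1) → ℂ) (z : Fin k → L), IsRat (Fin.append t z) → IsArr a → 0 < g →
  (∀ p, form t a p ≠ 0) ∧ form t a none = 1 ∧
  ∀ w : AddValuation L (WithTop ℤ), (∀ c : ℂ, c ≠ 0 → w (algebraMap ℂ L c) = 0) →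
    OnTrop a (wts w t a z)

/-- D7. A basis adapted to a weight, with an element `m` of least weight. -/
def TropBasis : Prop := ∀ (g R : ℕ) (a : Fin R → Fin (g + 1) → ℂ) (w : Option (Fin R) → ℤ),
  0 < g → IsArr a → TropW a w → ∃ (m : Option (Fin R)) (e : Fin g → Option (Fin R)),
    IsBas a (Fin.cons m e) ∧ (∀ j, w m ≤ w (e j)) ∧ top a w = w m + ∑ j, w (e j) ∧
    ∀ (p : Option (Fin R)) (A : ℂ) (B : Fin g → ℂ), vec a p = A • vec a m + ∑ j, B j • vec a (e j) →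
      (A ≠ 0 → w p ≤ w m) ∧ (∀ j, B j ≠ 0 → w p ≤ w (e j)) ∧
      ((A ≠ 0 ∧ w p = w m) ∨ ∃ j, B j ≠ 0 ∧ w p = w (e j))

/-- D8. Generic functions with given exponents. -/
def GenericF : Prop := ∀ (g R k : ℕ) (L : Type) [Field L] [Algebra ℂ L] (t : Fin g → L)
  (a : Fin R → Fin (g + 1) → ℂ) (z : Fin k → L), 0 < g → IsRat (Fin.append t z) →
  IsArr a → ∀ Ee : Finset (Fin R ⊕ Fin k → ℤ), Ee.Nonempty → ∃ F : L, F ≠ 0 ∧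
    (∀ w : AddValuation L (WithTop ℤ), (∀ c : ℂ, c ≠ 0 → w (algebraMap ℂ L c) = 0) →
      ∀ B : ℤ, (∀ γ ∈ Ee, B ≤ ∑ x, γ x * wts w t a z x) → B ≤ ov w F) ∧
    ∀ w : AddValuation L (WithTop ℤ), Q.IsDivisorial (g + k) w →
      ∀ (D' : Fin (g + k) → Derivation ℂ L L) (h : L), h * Q.jac D' (Fin.append t z) = 1 →
      ∀ m' : ℤ, Q.FormOrder w D' m' → ∀ γ₀ ∈ Ee,
      (∀ γ ∈ Ee, ∑ x, γ₀ x * wts w t a z x ≤ ∑ x, γ x * wts w t a z x) →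
      ov w h + logDisc a (wts w t a z) + (ov w F - ∑ x, γ₀ x * wts w t a z x) ≤ 1 + m'

/-- D9. The log discrepancies at the lattice points. -/
def LcPoint : Prop := ∀ (g R k N M r : ℕ) (L : Type) [Field L] [Algebra ℂ L] (t : Fin g → L)
  (a : Fin R → Fin (g + 1) → ℂ) (z : Fin k → L), 0 < g → IsRat (Fin.append t z) →
  IsArr a → ∀ (v : Fin N → Fin R ⊕ Fin k → ℤ) (E : Fin (M + 1) → Fin R ⊕ Fin k → ℤ) (ε : ℝ),
  0 < ε → 0 < r → ∀ (D' : Fin (g + k) → Derivation ℂ L L) (h : L),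
  h * Q.jac D' (Fin.append t z) = 1 → LcB v t a z D' h r E ε → LcPt a ε r v E

end Vale.Agent.P283.M647
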