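import Vale.Agent.P283.A647.B5c
import Vale.Agent.P283.M647.Props

/-!
D5c. The linear forms in the chart.
-/

set_option linter.all false

namespace Vale.Agent.P283.M647

open Vale.Agent.P283.A647 (IsRat lin)

namespace D5c

section

variable {L : Type} [Field L] [Algebra ℂ L] {g R k : ℕ} {t : Fin g → L}
  {a : Fin R → Fin (g + 1) → ℂ} {z : Fin k → L}

theorem der_vec {δ : Derivation ℚ ℂ ℂ} (hδ : ∀ i j, δ (a i j) = 0) (p : Option (Fin R))
    (j : Fin (g + 1)) : δ (vec a p j) = 0 := by
  cases p with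
  | none =>
    show δ ((Pi.single 0 1 : Fin (g + 1) → ℂ) j) = 0
    by_cases hj : j = 0
    · subst hj
      rw [Pi.single_eq_same]
      exact δ.map_one_eq_zero
    · rw [Pi.single_eq_of_ne hj]
      exact map_zero δ
  | some i => exact hδ i j

/-- The matrix of the chart. -/
def mat (a : Fin R → Fin (g + 1) → ℂ) (m : Option (Fin R)) (e : Fin g → Option (Fin R)) :
    Matrix (Fin (g + 1)) (Fin (g + 1)) ℂ :=
  Matrix.of fun i => vec a ((Fin.cons m e : Fin (g + 1) → Option (Fin R)) i)

/-- The coefficients of a form in the chart. -/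
noncomputable def cf (a : Fin R → Fin (g + 1) → ℂ) (m : Option (Fin R))
    (e : Fin g → Option (Fin R)) (p : Option (Fin R)) : Fin (g + 1) → ℂ :=
  Matrix.vecMul (vec a p) (mat a m e)⁻¹

variable {m : Option (Fin R)} {e : Fin g → Option (Fin R)}

theorem mat_unit (h : IsBas a (Fin.cons m e)) : IsUnit (mat a m e).det :=
  isUnit_iff_ne_zero.2 h

theorem bas_ne (h : IsBas a (Fin.cons m e)) (i : Fin (g + 1)) :
    vec a ((Fin.cons m e : Fin (g + 1) → Option (Fin R)) i) ≠ 0 := by
  intro h0
  refine h (Matrix.det_eq_zero_of_row_eq_zero i fun j => ?_)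
  show vec a ((Fin.cons m e : Fin (g + 1) → Option (Fin R)) i) j = 0
  rw [h0]
  rfl

/-- Every vector is different from `0`. -/
theorem vec_ne (ha : IsArr a) (hg : 0 < g) (p : Option (Fin R)) : vec a p ≠ 0 := by
  intro h0
  obtain ⟨⟨b, hb⟩, hd⟩ := ha
  have h1 : ∃ p', p ≠ p' := by
    by_contra hn
    push Not at hn
    refine hb (Matrix.det_eq_zero_of_row_eq_zero 0 fun j => ?_)
    show vec a (b 0) j = 0
    rw [← hn (b 0), h0]
    rfl
  obtain ⟨p', hp'⟩ := h1
  exact hd p p' hp' 0 (by rw [h0, zero_smul])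

theorem form_ne (h : IsRat (Fin.append t z)) {p : Option (Fin R)} (hp : vec a p ≠ 0) :
    form t a p ≠ 0 := fun h0 => hp (A647.B6.form_zero h h0)

theorem vec_cf (hM : IsUnit (mat a m e).det) (p : Option (Fin R)) :
    Matrix.vecMul (cf a m e p) (mat a m e) = vec a p := by
  unfold cf
  rw [Matrix.vecMul_vecMul, Matrix.nonsing_inv_mul _ hM, Matrix.vecMul_one]

theorem vec_comb (hM : IsUnit (mat a m e).det) (p : Option (Fin R)) :
    vec a p = cf a m e p 0 • vec a m + ∑ j, cf a m e p (Fin.succ j) • vec a (e j) := by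
  funext l
  have h1 : vec a p l = ∑ i, cf a m e p i * mat a m e i l := by
    conv_lhs => rw [← vec_cf hM p]
    rfl
  rw [h1, Fin.sum_univ_succ, Pi.add_apply, Finset.sum_apply]
  rfl

theorem form_cf (hM : IsUnit (mat a m e).det) (p : Option (Fin R)) :
    form t a p = algebraMap ℂ L (cf a m e p 0) * form t a m +
      ∑ j, algebraMap ℂ L (cf a m e p (Fin.succ j)) * form t a (e j) := by
  have h2 : ∀ j, vec a p j = ∑ i, cf a m e p i * mat a m e i j := by
    intro j
    conv_lhs => rw [← vec_cf hM p]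
    rfl
  have h3 : form t a p = ∑ i, algebraMap ℂ L (cf a m e p i) *
      form t a ((Fin.cons m e : Fin (g + 1) → Option (Fin R)) i) := by
    have h4 : ∀ i, form t a ((Fin.cons m e : Fin (g + 1) → Option (Fin R)) i) =
        ∑ j, algebraMap ℂ L (mat a m e i j) * (Fin.cons 1 t : Fin (g + 1) → L) j := fun i => rfl
    simp only [h4, Finset.mul_sum]
    rw [Finset.sum_comm]
    unfold form
    refine Finset.sum_congr rfl fun j _ => ?_
    rw [h2 j, map_sum, Finset.sum_mul]
    refine Finset.sum_congr rfl fun i _ => ?_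
    rw [map_mul]
    ring
  rw [h3, Fin.sum_univ_succ]
  rfl

theorem cf_ne (hM : IsUnit (mat a m e).det) {p : Option (Fin R)} (hp : vec a p ≠ 0) :
    cf a m e p ≠ 0 := by
  intro h0
  apply hp
  rw [← vec_cf hM p, h0, Matrix.zero_vecMul]

theorem der_cf (hM : IsUnit (mat a m e).det) {δ : Derivation ℚ ℂ ℂ}
    (hδ : ∀ i j, δ (a i j) = 0) (p : Option (Fin R)) (j : Fin (g + 1)) :
    δ (cf a m e p j) = 0 := by
  show δ (∑ l, vec a p l * (mat a m e)⁻¹ l j) = 0
  rw [map_sum]
  refine Finset.sum_eq_zero fun l _ => ?_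
  rw [Derivation.leibniz, der_vec hδ, A647.B5c.der_inv hM (fun i j => der_vec hδ _ _)]
  simp

end

end D5c

open D5c in
theorem d5c : ArrLin := by
  classical
  intro g R k L _ _ t a z hrat ha hg m e hb
  have hM := mat_unit hb
  have hm : form t a m ≠ 0 := form_ne hrat (bas_ne hb 0)
  refine ⟨fun p => cf a m e p 0, fun p => Fin.append (fun j => cf a m e p j.succ) 0,
    fun p => ?_, fun p => ?_, fun p l => ?_, fun p => ?_, fun δ hδ => ⟨fun p => ?_,
      fun p j => ?_⟩⟩
  · unfold lin
    rw [Fin.sum_univ_add]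
    have h2 : ∑ i : Fin k, algebraMap ℂ L
        ((Fin.append (fun j => cf a m e p j.succ) (0 : Fin k → ℂ)) (Fin.natAdd g i)) *
          arrY t a z m e (Fin.natAdd g i) = 0 := by
      refine Finset.sum_eq_zero fun i _ => ?_
      rw [Fin.append_right]
      simp
    rw [h2, add_zero, form_cf (t := t) hM p, add_div, mul_div_cancel_right₀ _ hm, Finset.sum_div]
    congr 1
    refine Finset.sum_congr rfl fun j _ => ?_
    unfold arrY
    beta_reduce
    rw [Fin.append_left, Fin.append_left, mul_div_assoc]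
  · by_contra hn
    push Not at hn
    apply cf_ne hM (vec_ne ha hg p)
    funext i
    refine Fin.cases hn.1 (fun j => ?_) i
    have h1 := congrFun hn.2 (Fin.castAdd k j)
    rw [Fin.append_left] at h1
    exact h1
  · beta_reduce
    rw [Fin.append_right]
    rfl
  · beta_reduce
    simp only [Fin.append_left]
    exact vec_comb hM p
  · exact der_cf hM hδ p 0
  · beta_reduce
    refine Fin.addCases (fun i => ?_) (fun i => ?_) j
    · rw [Fin.append_left]
      exact der_cf hM hδ p _
    · rw [Fin.append_right]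
      exact map_zero δ

end Vale.Agent.P283.M647
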