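import Vale.Agent.P283.A647.H571.B5a
import Vale.Agent.P283.M647.D5c

/-!
D5a. The coordinates of the chart of the hyperplanes `e` and `m`.
-/

set_option linter.all false

namespace Vale.Agent.P283.M647

open Vale.Agent.P283.A647 (IsRat lin)

namespace D5a

open D5c

/-- The forms of a chart span the coordinates. -/
theorem exists_inverse {L : Type} [Field L] [Algebra ℂ L] {g R : ℕ}
    {a : Fin R → Fin (g + 1) → ℂ} {m : Option (Fin R)} {e : Fin g → Option (Fin R)}
    (hb : IsBas a (Fin.cons m e)) (t : Fin g → L) (s : Fin (g + 1)) :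
    (Fin.cons 1 t : Fin (g + 1) → L) s = ∑ i, algebraMap ℂ L ((mat a m e)⁻¹ s i) *
      form t a ((Fin.cons m e : Fin (g + 1) → Option (Fin R)) i) := by
  classical
  have hdet := mat_unit hb
  have h1 : ∀ i, form t a ((Fin.cons m e : Fin (g + 1) → Option (Fin R)) i) =
      ∑ j, algebraMap ℂ L (mat a m e i j) * (Fin.cons 1 t : Fin (g + 1) → L) j :=
    fun i => rfl
  have h2 : ∑ i, algebraMap ℂ L ((mat a m e)⁻¹ s i) *
      form t a ((Fin.cons m e : Fin (g + 1) → Option (Fin R)) i) =
      ∑ j, algebraMap ℂ L (((mat a m e)⁻¹ * mat a m e) s j) *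
        (Fin.cons 1 t : Fin (g + 1) → L) j := by
    rw [Finset.sum_congr rfl fun i _ => by rw [h1 i, Finset.mul_sum], Finset.sum_comm]
    refine Finset.sum_congr rfl fun j _ => ?_
    rw [Matrix.mul_apply, map_sum, Finset.sum_mul]
    refine Finset.sum_congr rfl fun i _ => ?_
    rw [map_mul]; ring
  rw [h2, Matrix.nonsing_inv_mul _ hdet, Finset.sum_eq_single s]
  · rw [Matrix.one_apply_eq, map_one, one_mul]
  · intro j _ hj
    rw [Matrix.one_apply_ne hj.symm, map_zero, zero_mul]
  · intro h4
    exact absurd (Finset.mem_univ _) h4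

end D5a

open D5a D5c in
theorem d5a : ArrRat := by
  classical
  intro g R k L _ _ t a z hrat ha hg m e hb
  set F := IntermediateField.adjoin ℂ (Set.range (arrY t a z m e)) with hF
  have hm : form t a m ≠ 0 := form_ne hrat (bas_ne hb 0)
  have hmemY : ∀ i, arrY t a z m e i ∈ F := fun i =>
    IntermediateField.subset_adjoin ℂ _ ⟨i, rfl⟩
  have hratio : ∀ i, form t a ((Fin.cons m e : Fin (g + 1) → Option (Fin R)) i) / form t a m ∈ F := by
    intro i
    refine Fin.cases ?_ (fun j => ?_) i
    · rw [Fin.cons_zero, div_self hm]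
      exact one_mem F
    · rw [Fin.cons_succ]
      have h1 := hmemY (Fin.castAdd k j)
      unfold arrY at h1
      rwa [Fin.append_left] at h1
  have hT : ∀ s, (Fin.cons 1 t : Fin (g + 1) → L) s / form t a m ∈ F := by
    intro s
    rw [exists_inverse hb t s, Finset.sum_div]
    refine sum_mem fun i _ => ?_
    rw [mul_div_assoc]
    exact mul_mem (IntermediateField.algebraMap_mem F _) (hratio i)
  have hinv : (form t a m)⁻¹ ∈ F := by
    have h1 := hT 0
    rwa [Fin.cons_zero, one_div] at h1
  apply A647.H571.isRat_of_le hrat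
  intro i
  refine Fin.addCases (fun j => ?_) (fun l => ?_) i
  · rw [Fin.append_left]
    have h1 := hT j.succ
    rw [Fin.cons_succ] at h1
    have h2 := div_mem h1 hinv
    rwa [div_eq_mul_inv, inv_inv, div_mul_cancel₀ _ hm] at h2
  · rw [Fin.append_right]
    have h1 := hmemY (Fin.natAdd g l)
    unfold arrY at h1
    rwa [Fin.append_right] at h1

end Vale.Agent.P283.M647
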