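import Vale.Agent.P283.A647.B5b
import Vale.Agent.P283.M647.D5c

/-!
D5b. The Jacobian determinant of the chart.
-/

set_option linter.all false

namespace Vale.Agent.P283.M647

open Vale.Agent.P283.A647 (IsRat lin)

namespace D5b

open D5c

variable {g R k : ℕ} {L : Type} [Field L] [Algebra ℂ L]

theorem der_form (t : Fin g → L) (a : Fin R → Fin (g + 1) → ℂ) (p : Option (Fin R))
    (D : Derivation ℂ L L) :
    D (form t a p) = ∑ i, algebraMap ℂ L (vec a p (Fin.succ i)) * D (t i) := by
  unfold form
  rw [Fin.sum_univ_succ]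
  simp only [Fin.cons_zero, Fin.cons_succ, map_add, map_sum, Derivation.leibniz,
    Derivation.map_algebraMap, Derivation.map_one_eq_zero, smul_zero, add_zero, smul_eq_mul,
    zero_add, mul_zero]

end D5b

open D5b D5c in
theorem d5b : ArrJac := by
  classical
  intro g R k L _ _ t a z hrat ha hg m e hb
  set Ac : Matrix (Fin (g + 1)) (Fin (g + 1)) ℂ := mat a m e with hAc
  have hdet : Ac.det ≠ 0 := hb
  refine ⟨Ac.det, hdet, fun D' => ?_⟩
  set c : Fin (g + 1) → Option (Fin R) := Fin.cons m e with hc
  set F : Fin (g + 1) → L := fun i => form t a (c i) with hF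
  set A : Matrix (Fin (g + 1)) (Fin (g + 1)) L := (algebraMap ℂ L).mapMatrix Ac with hA
  have hA' : ∀ i j, A i j = algebraMap ℂ L (vec a (c i) j) := fun i j => rfl
  have hFA : ∀ i, F i = ∑ j, A i j * (Fin.cons 1 t : Fin (g + 1) → L) j := fun i => rfl
  have h0 : F 0 ≠ 0 := form_ne hrat (bas_ne hb 0)
  have hproj := A647.H279.det_proj A (Fin.cons 1 t) F rfl hFA h0
  set M : Matrix (Fin g) (Fin g) L := Matrix.of fun j i : Fin g =>
      (F 0 * A (Fin.succ j) (Fin.succ i) - F (Fin.succ j) * A 0 (Fin.succ i)) / F 0 ^ 2 with hM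
  have hder : ∀ (D : Derivation ℂ L L) (j : Fin g), D (form t a (e j) / form t a m) =
      ∑ i, M j i * D (t i) := by
    intro D j
    have h1 : form t a (e j) = F (Fin.succ j) := rfl
    have h2 : form t a m = F 0 := rfl
    rw [Derivation.leibniz_div, der_form, der_form, h1, h2, smul_eq_mul, smul_eq_mul, smul_eq_mul,
      Finset.mul_sum, Finset.mul_sum, ← Finset.sum_sub_distrib, Finset.mul_sum]
    refine Finset.sum_congr rfl fun i _ => ?_
    have h3 : M j i = (F 0 * A (Fin.succ j) (Fin.succ i) - F (Fin.succ j) * A 0 (Fin.succ i)) /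
      F 0 ^ 2 := rfl
    have h4 : A (Fin.succ j) (Fin.succ i) = algebraMap ℂ L (vec a (e j) (Fin.succ i)) := rfl
    have h5 : A 0 (Fin.succ i) = algebraMap ℂ L (vec a m (Fin.succ i)) := rfl
    rw [h3, h4, h5, div_eq_mul_inv]
    ring
  have hmul : (Matrix.of fun i j => D' j (arrY t a z m e i)) =
      (Matrix.reindex finSumFinEquiv finSumFinEquiv (Matrix.fromBlocks M 0 0 1)) *
        (Matrix.of fun i j => D' j ((Fin.append t z : Fin (g + k) → L) i)) := by
    ext i x
    rw [Matrix.mul_apply, Fin.sum_univ_add]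
    refine Fin.addCases (fun j => ?_) (fun l => ?_) i
    · simp only [Matrix.of_apply, Matrix.reindex_apply, Matrix.submatrix_apply,
        finSumFinEquiv_symm_apply_castAdd, finSumFinEquiv_symm_apply_natAdd,
        Matrix.fromBlocks_apply₁₁, Matrix.fromBlocks_apply₁₂, Matrix.zero_apply, zero_mul,
        Finset.sum_const_zero, add_zero, Fin.append_left, arrY]
      exact hder _ _
    · simp only [Matrix.of_apply, Matrix.reindex_apply, Matrix.submatrix_apply,
        finSumFinEquiv_symm_apply_castAdd, finSumFinEquiv_symm_apply_natAdd,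
        Matrix.fromBlocks_apply₂₁, Matrix.fromBlocks_apply₂₂, Matrix.zero_apply, zero_mul,
        Finset.sum_const_zero, zero_add, Fin.append_right, arrY, Matrix.one_apply, ite_mul,
        one_mul, Finset.sum_ite_eq, Finset.mem_univ, if_true]
  have hAdet : A.det = algebraMap ℂ L Ac.det := by
    rw [hA, ← RingHom.map_det]
  have h2 : form t a m = F 0 := rfl
  unfold Q.jac
  rw [hmul, Matrix.det_mul, Matrix.det_reindex_self, Matrix.det_fromBlocks_zero₂₁, Matrix.det_one,
    mul_one, hproj, hAdet, h2]

end Vale.Agent.P283.M647
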