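import Vale.Agent.P283.M647.Props

/-!
Row D6: the linear forms are not `0`, and the weights of a valuation.
-/

set_option linter.all false

namespace Vale.Agent.P283.M647

open Vale.Agent.P283.A647 (IsRat)

namespace D6

variable {L : Type} [Field L] [Algebra ℂ L] {g R k : ℕ}

/-- A linear form is not zero. -/
theorem lin_ne {t : Fin g → L} {z : Fin k → L} (H : IsRat (Fin.append t z))
    {v : Fin (g + 1) → ℂ} (hv : v ≠ 0) :
    ∑ j, algebraMap ℂ L (v j) * (Fin.cons 1 t : Fin (g + 1) → L) j ≠ 0 := by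
  intro h0
  apply hv
  have h1 : MvPolynomial.aeval (Fin.append t z) (MvPolynomial.C (v 0) +
      ∑ j : Fin g, MvPolynomial.C (v j.succ) * MvPolynomial.X (Fin.castAdd k j) :
        MvPolynomial (Fin (g + k)) ℂ) = 0 := by
    rw [Fin.sum_univ_succ, Fin.cons_zero, mul_one] at h0
    simp only [Fin.cons_succ] at h0
    simp only [map_add, map_sum, map_mul, MvPolynomial.aeval_C, MvPolynomial.aeval_X,
      Fin.append_left]
    exact h0
  have h2 := H.ind.eq_zero_of_aeval_eq_zero _ h1
  have h3 : ∀ x : Fin (g + k) → ℂ, v 0 + ∑ j : Fin g, v j.succ * x (Fin.castAdd k j) = 0 := by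
    intro x
    have h4 := congrArg (MvPolynomial.eval x) h2
    simpa using h4
  have h5 : v 0 = 0 := by simpa using h3 0
  funext j
  refine Fin.cases h5 (fun i => ?_) j
  have h6 := h3 (Pi.single (Fin.castAdd k i) 1)
  rw [h5, zero_add, Finset.sum_eq_single i] at h6
  · rwa [Pi.single_eq_same, mul_one] at h6
  · intro j' _ hj'
    rw [Pi.single_eq_of_ne, mul_zero]
    intro h7
    exact hj' (Fin.castAdd_injective g k h7)
  · intro h
    exact absurd (Finset.mem_univ _) h

theorem form_none (t : Fin g → L) (a : Fin R → Fin (g + 1) → ℂ) : form t a none = 1 := by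
  show ∑ j, algebraMap ℂ L (vec a none j) * (Fin.cons 1 t : Fin (g + 1) → L) j = 1
  rw [Finset.sum_eq_single 0]
  · show algebraMap ℂ L ((Pi.single 0 1 : Fin (g + 1) → ℂ) 0) * _ = 1
    rw [Pi.single_eq_same, map_one, Fin.cons_zero, one_mul]
  · intro j _ hj
    show algebraMap ℂ L ((Pi.single 0 1 : Fin (g + 1) → ℂ) j) * _ = 0
    rw [Pi.single_eq_of_ne hj, map_zero, zero_mul]
  · intro h
    exact absurd (Finset.mem_univ _) h

/-- A linear relation between the vectors holds for the forms. -/
theorem sum_form (t : Fin g → L) (a : Fin R → Fin (g + 1) → ℂ) (c : Option (Fin R) → ℂ) :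
    ∑ p, algebraMap ℂ L (c p) * form t a p =
      ∑ j, algebraMap ℂ L ((∑ p, c p • vec a p) j) * (Fin.cons 1 t : Fin (g + 1) → L) j := by
  unfold form
  simp only [Finset.mul_sum]
  rw [Finset.sum_comm]
  refine Finset.sum_congr rfl fun j _ => ?_
  rw [Finset.sum_apply, map_sum, Finset.sum_mul]
  refine Finset.sum_congr rfl fun p _ => ?_
  rw [Pi.smul_apply, smul_eq_mul, map_mul]
  ring

theorem wt_eq (w : AddValuation L (WithTop ℤ)) (t : Fin g → L) (a : Fin R → Fin (g + 1) → ℂ)
    (z : Fin k → L) (p : Option (Fin R)) : wt (wts w t a z) p = ov w (form t a p) := by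
  cases p with
  | none =>
    rw [form_none]
    show (0 : ℤ) = ov w 1
    unfold ov
    rw [w.map_one]
    rfl
  | some i => rfl

/-- The coefficient vectors are not zero. -/
theorem vec_ne {a : Fin R → Fin (g + 1) → ℂ} (ha : IsArr a) (hg : 0 < g) (p : Option (Fin R)) :
    vec a p ≠ 0 := by
  obtain ⟨⟨e, he⟩, hd⟩ := ha
  have hinj : Function.Injective e := by
    intro i j hij
    by_contra hne
    apply he
    apply Matrix.det_zero_of_row_eq hne
    show vec a (e i) = vec a (e j)
    rw [hij]
  obtain ⟨p', hp'⟩ : ∃ p', p ≠ p' := by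
    by_cases h : p = e 0
    · refine ⟨e (Fin.last g), fun h' => ?_⟩
      have h1 : (0 : Fin (g + 1)) = Fin.last g := hinj (h.symm.trans h')
      have h2 := congrArg Fin.val h1
      simp at h2
      omega
    · exact ⟨e 0, h⟩
  intro h0
  apply hd p p' hp' 0
  rw [h0, zero_smul]

theorem form_ne {t : Fin g → L} {z : Fin k → L} (H : IsRat (Fin.append t z))
    {a : Fin R → Fin (g + 1) → ℂ} (ha : IsArr a) (hg : 0 < g) (p : Option (Fin R)) :
    form t a p ≠ 0 :=
  lin_ne H (vec_ne ha hg p)

end D6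

/-- D6. -/
theorem d6 : WtsTrop := by
  classical
  intro g R k L _ _ t a z H ha hg
  refine ⟨D6.form_ne H ha hg, D6.form_none t a, fun w hw => ?_⟩
  intro c hc p hp
  by_contra hcon
  push Not at hcon
  have hrel : ∑ p, algebraMap ℂ L (c p) * form t a p = 0 := by
    rw [D6.sum_form, hc]
    refine Finset.sum_eq_zero fun j _ => ?_
    rw [Pi.zero_apply, map_zero, zero_mul]
  have hp1 : algebraMap ℂ L (c p) * form t a p =
      -∑ p' ∈ Finset.univ.erase p, algebraMap ℂ L (c p') * form t a p' := by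
    rw [← Finset.add_sum_erase _ _ (Finset.mem_univ p)] at hrel
    exact eq_neg_of_add_eq_zero_left hrel
  have hlt : ((wt (wts w t a z) p : ℤ) : WithTop ℤ) < w (algebraMap ℂ L (c p) * form t a p) := by
    rw [hp1, w.map_neg]
    refine w.map_lt_sum' (WithTop.coe_lt_top _) fun p' hp' => ?_
    by_cases h0 : c p' = 0
    · rw [h0, map_zero, zero_mul, w.map_zero]
      exact WithTop.coe_lt_top _
    · rw [w.map_mul, hw _ h0, zero_add, ← coe_ov w (D6.form_ne H ha hg p'), ← D6.wt_eq w t a z]
      exact_mod_cast hcon p' (Finset.ne_of_mem_erase hp') h0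
  rw [w.map_mul, hw _ hp, zero_add, ← coe_ov w (D6.form_ne H ha hg p), ← D6.wt_eq w t a z] at hlt
  exact lt_irrefl _ hlt

end Vale.Agent.P283.M647
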