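import Vale.Agent.P283.M647.Props

/-!
Row D7: a basis adapted to a weight.
-/

set_option linter.all false

namespace Vale.Agent.P283.M647

namespace D7

variable {g R : ℕ}

/-- Replacing a member of a basis. -/
theorem isBas_update {a : Fin R → Fin (g + 1) → ℂ} {b : Fin (g + 1) → Option (Fin R)}
    (hb : IsBas a b) {p : Option (Fin R)} {x : Fin (g + 1) → ℂ}
    (hx : vec a p = ∑ i, x i • vec a (b i)) {i : Fin (g + 1)} (hi : x i ≠ 0) :
    IsBas a (Function.update b i p) := by
  classical
  unfold IsBas at hb ⊢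
  have h1 : (Matrix.of fun i' => vec a (Function.update b i p i')) =
      (Matrix.of fun i' => vec a (b i')).updateRow i (∑ i', x i' • vec a (b i')) := by
    ext i' j
    rw [Matrix.of_apply, Matrix.updateRow_apply]
    by_cases h : i' = i
    · rw [if_pos h, h, Function.update_self, ← hx]
    · rw [if_neg h, Function.update_of_ne h, Matrix.of_apply]
  rw [h1]
  have h2 : ((Matrix.of fun i' => vec a (b i')).updateRow i
      (∑ i', x i' • (Matrix.of fun i' => vec a (b i')) i')).det =
        x i • (Matrix.of fun i' => vec a (b i')).det :=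
    Matrix.det_updateRow_sum (Matrix.of fun i' => vec a (b i')) i x
  have h3 : (∑ i', x i' • vec a (b i')) = ∑ i', x i' • (Matrix.of fun i' => vec a (b i')) i' := rfl
  rw [h3, h2, smul_eq_mul]
  exact mul_ne_zero hi hb

/-- Independence of the members of a basis. -/
theorem coeff_unique {a : Fin R → Fin (g + 1) → ℂ} {b : Fin (g + 1) → Option (Fin R)}
    (hb : IsBas a b) {x y : Fin (g + 1) → ℂ}
    (hxy : ∑ i, x i • vec a (b i) = ∑ i, y i • vec a (b i)) : x = y := by
  have h1 : Matrix.vecMul (x - y) (Matrix.of fun i => vec a (b i)) = 0 := by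
    funext j
    have h2 := congrFun hxy j
    simp only [Finset.sum_apply, Pi.smul_apply, smul_eq_mul] at h2
    rw [Matrix.vecMul, dotProduct, Pi.zero_apply]
    simp only [Pi.sub_apply, Matrix.of_apply, sub_mul, Finset.sum_sub_distrib]
    rw [h2, sub_self]
  have h3 := Matrix.eq_zero_of_vecMul_eq_zero hb h1
  exact sub_eq_zero.1 h3

theorem isBas_inj {a : Fin R → Fin (g + 1) → ℂ} {b : Fin (g + 1) → Option (Fin R)}
    (hb : IsBas a b) : Function.Injective b := by
  intro i j hij
  by_contra hne
  apply hb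
  apply Matrix.det_zero_of_row_eq hne
  show vec a (b i) = vec a (b j)
  rw [hij]

/-- A basis of largest weight. -/
theorem exists_max {a : Fin R → Fin (g + 1) → ℂ} (ha : ∃ e, IsBas a e) (w : Option (Fin R) → ℤ) :
    ∃ b, IsBas a b ∧ top a w = ∑ i, w (b i) ∧ ∀ b', IsBas a b' → ∑ i, w (b' i) ≤ ∑ i, w (b i) := by
  obtain ⟨e, he⟩ := ha
  haveI : Nonempty {e : Fin (g + 1) → Option (Fin R) // IsBas a e} := ⟨⟨e, he⟩⟩
  obtain ⟨b, hb⟩ := Finite.exists_max
    fun e : {e : Fin (g + 1) → Option (Fin R) // IsBas a e} => ∑ i, w (e.1 i)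
  refine ⟨b.1, b.2, ?_, fun b' hb' => hb ⟨b', hb'⟩⟩
  unfold top
  exact le_antisymm (ciSup_le hb) (le_ciSup (f := fun e : {e : Fin (g + 1) → Option (Fin R) //
    IsBas a e} => ∑ i, w (e.1 i)) (Set.finite_range _).bddAbove b)

end D7

/-- D7. -/
theorem d7 : TropBasis := by
  classical
  intro g R a w hg ha hw
  obtain ⟨b₀, hb₀, htop, hmax⟩ := D7.exists_max ha.1 w
  obtain ⟨i₀, hi₀⟩ := Finite.exists_min fun i => w (b₀ i)
  -- move the least one to the front
  set σ : Equiv.Perm (Fin (g + 1)) := Equiv.swap 0 i₀ with hσ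
  set b : Fin (g + 1) → Option (Fin R) := b₀ ∘ σ with hbdef
  have hb : IsBas a b := by
    have h1 : (Matrix.of fun i => vec a (b i)) = (Matrix.of fun i => vec a (b₀ i)).submatrix σ id := by
      ext i j
      rfl
    unfold IsBas
    rw [h1, Matrix.det_permute]
    refine mul_ne_zero ?_ hb₀
    have h2 : ((Equiv.Perm.sign σ : ℤˣ) : ℤ) ≠ 0 := Units.ne_zero _
    exact_mod_cast h2
  have hsum : ∑ i, w (b i) = ∑ i, w (b₀ i) := Equiv.sum_comp σ fun i => w (b₀ i)
  have hcons : (Fin.cons (b 0) fun j : Fin g => b j.succ : Fin (g + 1) → Option (Fin R)) = b :=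
    Fin.cons_self_tail b
  refine ⟨b 0, fun j => b j.succ, ?_, ?_, ?_, ?_⟩
  · rw [hcons]
    exact hb
  · intro j
    have h1 : b 0 = b₀ i₀ := by
      show b₀ (Equiv.swap 0 i₀ 0) = b₀ i₀
      rw [Equiv.swap_apply_left]
    rw [h1]
    exact hi₀ _
  · rw [htop, ← hsum, Fin.sum_univ_succ]
  · intro p A B hp
    have hx : vec a p = ∑ i, (Fin.cons A B : Fin (g + 1) → ℂ) i • vec a (b i) := by
      rw [Fin.sum_univ_succ, Fin.cons_zero]
      simp only [Fin.cons_succ]
      exact hp
    set x : Fin (g + 1) → ℂ := Fin.cons A B with hxdef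
    have key1 : ∀ i, x i ≠ 0 → w p ≤ w (b i) := by
      intro i hi
      have h1 := hmax _ (D7.isBas_update hb hx hi)
      rw [← hsum] at h1
      have h2 : ∑ i', w (Function.update b i p i') = w p + ∑ i' ∈ Finset.univ.erase i, w (b i') := by
        rw [← Finset.add_sum_erase _ _ (Finset.mem_univ i), Function.update_self]
        congr 1
        refine Finset.sum_congr rfl fun i' hi' => ?_
        rw [Function.update_of_ne (Finset.ne_of_mem_erase hi')]
      have h3 := Finset.add_sum_erase Finset.univ (fun i' => w (b i')) (Finset.mem_univ i)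
      rw [h2, ← h3] at h1
      linarith
    have key2 : ∃ i, x i ≠ 0 ∧ w p = w (b i) := by
      by_cases hr : ∃ i, b i = p
      · obtain ⟨i, hi⟩ := hr
        refine ⟨i, ?_, by rw [hi]⟩
        have h1 : x = Pi.single i 1 := by
          apply D7.coeff_unique hb
          rw [← hx, Finset.sum_eq_single i]
          · rw [Pi.single_eq_same, one_smul, hi]
          · intro i' _ hi'
            rw [Pi.single_eq_of_ne hi', zero_smul]
          · intro h
            exact absurd (Finset.mem_univ _) h
        rw [h1, Pi.single_eq_same]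
        exact one_ne_zero
      · push Not at hr
        have h1 : ∑ q, ((if q = p then (1 : ℂ) else 0) - ∑ i, if b i = q then x i else 0) •
            vec a q = 0 := by
          simp only [sub_smul, Finset.sum_sub_distrib, ite_smul, one_smul, zero_smul,
            Finset.sum_ite_eq', Finset.mem_univ, if_true, Finset.sum_smul]
          rw [Finset.sum_comm]
          simp only [Finset.sum_ite_eq, Finset.mem_univ, if_true]
          rw [← hx, sub_self]
        have h2 : ((if p = p then (1 : ℂ) else 0) - ∑ i, if b i = p then x i else 0) ≠ 0 := by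
          rw [if_pos rfl, Finset.sum_eq_zero fun i _ => if_neg (hr i), sub_zero]
          exact one_ne_zero
        obtain ⟨p', hp', hc, hle⟩ := hw _ h1 p h2
        rw [if_neg hp', zero_sub, neg_ne_zero] at hc
        obtain ⟨i, _, hi⟩ := Finset.exists_ne_zero_of_sum_ne_zero hc
        by_cases hbi : b i = p'
        · rw [if_pos hbi] at hi
          refine ⟨i, hi, le_antisymm (key1 i hi) ?_⟩
          rw [hbi]
          exact hle
        · rw [if_neg hbi] at hi
          exact absurd rfl hi
    refine ⟨fun hA => key1 0 hA, fun j hj => key1 j.succ hj, ?_⟩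
    obtain ⟨i, hi, hwi⟩ := key2
    revert hi hwi
    refine Fin.cases (fun hi hwi => Or.inl ⟨hi, hwi⟩) (fun j hi hwi => Or.inr ⟨j, hi, hwi⟩) i

end Vale.Agent.P283.M647
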