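import Vale.Agent.P283.M647.Props
import Vale.Agent.P283.H647.Gen

/-!
D8. Generic functions with given exponents.
-/

set_option linter.all false

namespace Vale.Agent.P283.M647

open MvPolynomial
open Vale.Agent.P283.A647 (IsRat lin term chartY chartF)

namespace D8

theorem prod_zpow_sum' {L ι : Type} [Field L] (s : Finset ι) {x : L} (hx : x ≠ 0) (f : ι → ℤ) :
    ∏ i ∈ s, x ^ f i = x ^ ∑ i ∈ s, f i := by
  classical
  induction s using Finset.induction_on with
  | empty => simp
  | insert i s hi ih => rw [Finset.prod_insert hi, Finset.sum_insert hi, ih, zpow_add₀ hx]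

section

variable {L : Type} [Field L] [Algebra ℂ L] {g R k : ℕ} {t : Fin g → L}
  {a : Fin R → Fin (g + 1) → ℂ} {z : Fin k → L}

theorem z_ne (h : IsRat (Fin.append t z)) (l : Fin k) : z l ≠ 0 := by
  have := h.ind.ne_zero (Fin.natAdd g l)
  rwa [Fin.append_right] at this

/-- The exponents of the forms, of sum `0`. -/
def gh (γ : Fin R ⊕ Fin k → ℤ) (p : Option (Fin R)) : ℤ :=
  p.elim (-∑ i, γ (Sum.inl i)) fun i => γ (Sum.inl i)

theorem sum_option {M : Type} [AddCommMonoid M] (f : Option (Fin R) → M) :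
    ∑ p, f p = f none + ∑ i, f (some i) := Fintype.sum_option f

theorem gh_sum (γ : Fin R ⊕ Fin k → ℤ) : ∑ p, gh γ p = 0 := by
  rw [sum_option]
  show -∑ i, γ (Sum.inl i) + ∑ i, γ (Sum.inl i) = 0
  ring

/-- The exponents in the chart. -/
def ph (g : ℕ) (γ : Fin R ⊕ Fin k → ℤ) :
    (Option (Fin R) → ℤ) × (Fin (g + k) → ℤ) :=
  (gh γ, Fin.append (fun _ : Fin g => (0 : ℤ)) fun l => γ (Sum.inr l))

/-- The inverse of `ph`. -/
def bk (E : (Option (Fin R) → ℤ) × (Fin (g + k) → ℤ)) : Fin R ⊕ Fin k → ℤ :=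
  Sum.elim (fun i => E.1 (some i)) fun l => E.2 (Fin.natAdd g l)

theorem bk_ph (γ : Fin R ⊕ Fin k → ℤ) : bk (ph g γ) = γ := by
  funext x
  cases x with
  | inl i => rfl
  | inr l =>
    show (Fin.append (fun _ : Fin g => (0 : ℤ)) fun l => γ (Sum.inr l)) (Fin.natAdd g l) = _
    rw [Fin.append_right]

theorem ph_inj : Function.Injective (ph g : (Fin R ⊕ Fin k → ℤ) → _) := by
  intro γ γ' h
  rw [← bk_ph (g := g) γ, ← bk_ph (g := g) γ', h]

variable {m : Option (Fin R)} {e : Fin g → Option (Fin R)} {A : Option (Fin R) → ℂ}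
  {B : Option (Fin R) → Fin (g + k) → ℂ}

theorem term_ph (hf : ∀ p, form t a p ≠ 0) (hn : form t a none = 1)
    (hl1 : ∀ p, lin (arrY t a z m e) A B p = form t a p / form t a m) (γ : Fin R ⊕ Fin k → ℤ) :
    term (arrY t a z m e) A B (ph g γ) = ∏ x, coord t a z x ^ γ x := by
  classical
  have h1 : ∏ x, coord t a z x ^ γ x = (∏ p, form t a p ^ gh γ p) * ∏ l, z l ^ γ (Sum.inr l) := by
    rw [Fintype.prod_sum_type]
    congr 1
    rw [Fintype.prod_option, hn, one_zpow, one_mul]
    rfl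
  have h2 : ∏ p, form t a p ^ gh γ p = ∏ p, (form t a p / form t a m) ^ gh γ p := by
    have h3 : ∏ p, (form t a p / form t a m) ^ gh γ p =
        (∏ p, form t a p ^ gh γ p) * ∏ p, ((form t a m)⁻¹) ^ gh γ p := by
      rw [← Finset.prod_mul_distrib]
      exact Finset.prod_congr rfl fun p _ => by rw [div_eq_mul_inv, mul_zpow]
    rw [h3, prod_zpow_sum' _ (inv_ne_zero (hf m)), gh_sum, zpow_zero, mul_one]
  rw [h1, h2]
  unfold term
  rw [Fin.prod_univ_add]
  congr 1
  · refine Finset.prod_congr rfl fun p _ => ?_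
    rw [hl1]
    rfl
  · have h5 : ∏ j : Fin g, arrY t a z m e (Fin.castAdd k j) ^
        (ph g γ).2 (Fin.castAdd k j) = 1 := by
      refine Finset.prod_eq_one fun j _ => ?_
      have h6 : (ph g γ).2 (Fin.castAdd k j) = 0 := by
        show (Fin.append (fun _ : Fin g => (0 : ℤ)) fun l => γ (Sum.inr l)) (Fin.castAdd k j) = _
        rw [Fin.append_left]
      rw [h6, zpow_zero]
    rw [h5, one_mul]
    refine Finset.prod_congr rfl fun l _ => ?_
    show (arrY t a z m e (Fin.natAdd g l)) ^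
      ((Fin.append (fun _ : Fin g => (0 : ℤ)) fun l => γ (Sum.inr l)) (Fin.natAdd g l)) = _
    unfold arrY
    rw [Fin.append_right, Fin.append_right]

theorem coord_ne (hf : ∀ p, form t a p ≠ 0) (hz : ∀ l, z l ≠ 0) (x : Fin R ⊕ Fin k) :
    coord t a z x ≠ 0 := by
  cases x with
  | inl j => exact hf (some j)
  | inr l => exact hz l

theorem wt_wts (hn : form t a none = 1) (w : AddValuation L (WithTop ℤ)) (p : Option (Fin R)) :
    wt (wts w t a z) p = ov w (form t a p) := by
  cases p with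
  | none => rw [hn, ov_one]; rfl
  | some i => rfl

end

end D8

open D8 in
theorem d8 (hB : ChartBound) (ha : ArrRat) (hj : ArrJac) (hl : ArrLin) (hw : WtsTrop)
    (hb : TropBasis) : GenericF := by
  classical
  intro g R k L _ _ t a z hg hrat harr Ee hEe
  obtain ⟨hf, hn, hwt⟩ := hw g R k L t a z hrat harr hg
  have hz : ∀ l, z l ≠ 0 := z_ne hrat
  obtain ⟨c, hc⟩ := H647.gen_coeffs (Finset.univ.image fun x : Fin R × Fin (g + 1) => a x.1 x.2)
    Ee
  obtain ⟨c', hc'⟩ : ∃ c' : (Fin R ⊕ Fin k → ℤ) → ℂ,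
      ∀ γ (h : γ ∈ Ee), c' γ = c ⟨γ, h⟩ :=
    ⟨fun γ => if h : γ ∈ Ee then c ⟨γ, h⟩ else 0, fun γ h => by simp [h]⟩
  have hder : ∀ γ₀ ∈ Ee, ∃ δ : Derivation ℚ ℂ ℂ, (∀ i j, δ (a i j) = 0) ∧ δ (c' γ₀) = 1 ∧
      ∀ γ ∈ Ee, γ ≠ γ₀ → δ (c' γ) = 0 := by
    intro γ₀ hγ₀
    obtain ⟨δ, h1, h2, h3⟩ := hc ⟨γ₀, hγ₀⟩
    refine ⟨δ, fun i j => h1 _ (Finset.mem_image_of_mem
      (fun x : Fin R × Fin (g + 1) => a x.1 x.2) (Finset.mem_univ (i, j))), ?_, ?_⟩
    · rw [hc' _ hγ₀]; exact h2
    · intro γ hγ hne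
      rw [hc' _ hγ]
      exact h3 ⟨γ, hγ⟩ fun h => hne (congrArg Subtype.val h)
  have hc0 : ∀ γ ∈ Ee, c' γ ≠ 0 := by
    intro γ hγ h0
    obtain ⟨δ, -, h2, -⟩ := hder γ hγ
    rw [h0, map_zero] at h2
    exact zero_ne_one h2
  set F : L := ∑ γ ∈ Ee, algebraMap ℂ L (c' γ) * ∏ x, coord t a z x ^ γ x with hFdef
  -- every chart
  have key : ∀ (m : Option (Fin R)) (e : Fin g → Option (Fin R)), IsBas a (Fin.cons m e) →
      F ≠ 0 ∧
      ∀ w : AddValuation L (WithTop ℤ), Q.IsDivisorial (g + k) w →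
      (∀ (p : Option (Fin R)) (A : ℂ) (B : Fin g → ℂ),
        vec a p = A • vec a m + ∑ j, B j • vec a (e j) →
        (A ≠ 0 → ov w (form t a p) ≤ ov w (form t a m)) ∧
        (∀ j, B j ≠ 0 → ov w (form t a p) ≤ ov w (form t a (e j)))) →
      ∀ (D' : Fin (g + k) → Derivation ℂ L L) (h : L), h * Q.jac D' (Fin.append t z) = 1 →
      ∀ m' : ℤ, Q.FormOrder w D' m' → ∀ γ₀ ∈ Ee,
      (∀ γ ∈ Ee, ∑ x, γ₀ x * wts w t a z x ≤ ∑ x, γ x * wts w t a z x) →
      ov w h + (g + 1) * ov w (form t a m) + ∑ j, ov w (arrY t a z m e j) +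
        (ov w F - ∑ x, γ₀ x * wts w t a z x) ≤ 1 + m' := by
    intro m e hbas
    obtain ⟨A, B, hl1, hne, hB0, hvec, hδ⟩ := hl g R k L t a z hrat harr hg m e hbas
    obtain ⟨u, hu, hjac⟩ := hj g R k L t a z hrat harr hg m e hbas
    have hy := ha g R k L t a z hrat harr hg m e hbas
    have hF : ∑ E ∈ Ee.image (ph g), algebraMap ℂ L (c' (bk E)) *
        term (arrY t a z m e) A B E = F := by
      rw [Finset.sum_image fun γ _ γ' _ h => ph_inj h, hFdef]
      exact Finset.sum_congr rfl fun γ _ => by rw [bk_ph, term_ph hf hn hl1]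
    have hCB := hB (g + k) (Option (Fin R)) L (arrY t a z m e) A B (by omega) hy hne
      (Ee.image (ph g)) (fun E => c' (bk E)) (hEe.image _) (by
        intro e₀ he₀
        obtain ⟨γ₀, hγ₀, rfl⟩ := Finset.mem_image.1 he₀
        obtain ⟨δ, h1, h2, h3⟩ := hder γ₀ hγ₀
        obtain ⟨h4, h5⟩ := hδ δ h1
        refine ⟨δ, h4, h5, by rw [bk_ph]; exact h2, ?_⟩
        intro E hE hne
        obtain ⟨γ, hγ, rfl⟩ := Finset.mem_image.1 hE
        rw [bk_ph]
        exact h3 γ hγ fun h => hne (by rw [h]))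
    rw [hF] at hCB
    refine ⟨hCB.1, ?_⟩
    intro w hwd hmat D' h hh m' hm' γ₀ hγ₀ hmin
    have h10 : h * Q.jac D' (Fin.append t z) ≠ 0 := by rw [hh]; exact one_ne_zero
    have h0ne : h ≠ 0 := left_ne_zero_of_mul h10
    have hu' : algebraMap ℂ L u ≠ 0 := by
      rw [Ne, map_eq_zero]; exact hu
    have hh' : (h * (algebraMap ℂ L u)⁻¹ * form t a m ^ (g + 1)) *
        Q.jac D' (arrY t a z m e) = 1 := by
      rw [hjac]
      calc _ = ((algebraMap ℂ L u)⁻¹ * algebraMap ℂ L u) *
            (form t a m * (form t a m)⁻¹) ^ (g + 1) * (h * Q.jac D' (Fin.append t z)) := by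
              rw [mul_pow]; ring
        _ = 1 := by
          rw [inv_mul_cancel₀ hu', mul_inv_cancel₀ (hf m), hh, one_pow, one_mul, one_mul]
    have hwu : ov w (algebraMap ℂ L u) = 0 := by
      rw [ov, hwd.const u hu]; rfl
    have hovh : ov w (h * (algebraMap ℂ L u)⁻¹ * form t a m ^ (g + 1)) =
        ov w h + (g + 1) * ov w (form t a m) := by
      rw [ov_mul w (mul_ne_zero h0ne (inv_ne_zero hu')) (pow_ne_zero _ (hf m)),
        ov_mul w h0ne (inv_ne_zero hu'), ov_inv, hwu, ov_pow w (hf m)]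
      push_cast
      ring
    have hlv : ∀ p, ov w (lin (arrY t a z m e) A B p) =
        ov w (form t a p) - ov w (form t a m) := by
      intro p
      rw [hl1, ov_div w (hf _) (hf m)]
    have htwt : ∀ γ : Fin R ⊕ Fin k → ℤ,
        twt w (arrY t a z m e) A B (ph g γ) = ∑ x, γ x * wts w t a z x := by
      intro γ
      unfold twt
      rw [Fin.sum_univ_add, Fintype.sum_sum_type]
      have e1 : ∑ p, (ph g γ).1 p * ov w (lin (arrY t a z m e) A B p) =
          ∑ i, γ (Sum.inl i) * wts w t a z (Sum.inl i) := by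
        have e4 : ∑ p, (ph g γ).1 p * ov w (lin (arrY t a z m e) A B p) =
            ∑ p, gh γ p * wt (wts w t a z) p - (∑ p, gh γ p) * ov w (form t a m) := by
          rw [Finset.sum_mul, ← Finset.sum_sub_distrib]
          refine Finset.sum_congr rfl fun p _ => ?_
          rw [hlv, wt_wts hn]
          show gh γ p * _ = _
          ring
        rw [e4, gh_sum, zero_mul, sub_zero, sum_option]
        show -(∑ i, γ (Sum.inl i)) * 0 + ∑ i, γ (Sum.inl i) * wts w t a z (Sum.inl i) = _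
        rw [mul_zero, zero_add]
      have e2 : ∑ j : Fin g, (ph g γ).2 (Fin.castAdd k j) *
          ov w (arrY t a z m e (Fin.castAdd k j)) = 0 := by
        refine Finset.sum_eq_zero fun j _ => ?_
        have h6 : (ph g γ).2 (Fin.castAdd k j) = 0 := by
          show (Fin.append (fun _ : Fin g => (0 : ℤ)) fun l => γ (Sum.inr l))
            (Fin.castAdd k j) = _
          rw [Fin.append_left]
        rw [h6, zero_mul]
      rw [e1, e2, zero_add]
      congr 1
      refine Finset.sum_congr rfl fun l _ => ?_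
      have h7 : (ph g γ).2 (Fin.natAdd g l) = γ (Sum.inr l) := by
        show (Fin.append (fun _ : Fin g => (0 : ℤ)) fun l => γ (Sum.inr l))
          (Fin.natAdd g l) = _
        rw [Fin.append_right]
      rw [h7]
      congr 1
      unfold arrY
      rw [Fin.append_right]
      rfl
    have h2 := hCB.2 w hwd (by
        intro p
        obtain ⟨hA, hBp⟩ := hmat p (A p) (fun j => B p (Fin.castAdd k j)) (hvec p)
        refine ⟨fun hAp => ?_, fun j => ?_⟩
        · rw [hlv]
          have := hA hAp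
          linarith
        · refine Fin.addCases (fun j' hB' => ?_) (fun l hB' => ?_) j
          · rw [hlv]
            unfold arrY
            rw [Fin.append_left, ov_div w (hf _) (hf m)]
            have := hBp j' hB'
            linarith
          · exact absurd (hB0 p l) hB')
      D' _ hh' m' hm' (ph g γ₀) (Finset.mem_image_of_mem _ hγ₀) (by
        intro E hE
        obtain ⟨γ, hγ, rfl⟩ := Finset.mem_image.1 hE
        rw [htwt, htwt]
        exact hmin γ hγ)
    rw [hovh, htwt] at h2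
    exact h2
  have hF0 : F ≠ 0 := by
    obtain ⟨⟨e, he⟩, -⟩ := harr
    refine (key (e 0) (Fin.tail e) ?_).1
    rwa [Fin.cons_self_tail]
  refine ⟨F, hF0, ?_, ?_⟩
  · intro w hw B hBd
    rw [← le_iff w hF0, hFdef]
    apply AddValuation.map_le_sum
    intro γ hγ
    have hprod : ∏ x, coord t a z x ^ γ x ≠ 0 :=
      Finset.prod_ne_zero_iff.2 fun x _ => zpow_ne_zero _ (coord_ne hf hz x)
    rw [AddValuation.map_mul, hw _ (hc0 γ hγ), zero_add, le_iff w hprod,
      ov_prod _ _ fun x _ => zpow_ne_zero _ (coord_ne hf hz x)]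
    refine (hBd γ hγ).trans (le_of_eq ?_)
    exact Finset.sum_congr rfl fun x _ => (ov_zpow w (coord_ne hf hz x) _).symm
  · intro w hwd D' h hh m' hm' γ₀ hγ₀ hmin
    obtain ⟨m, e, hbas, hlow, htop, hmat⟩ := hb g R a (wt (wts w t a z)) hg harr
      (hwt w hwd.const)
    have h1 := (key m e hbas).2 w hwd (by
      intro p A B hv
      obtain ⟨h2, h3, -⟩ := hmat p A B hv
      refine ⟨fun hA => ?_, fun j hBj => ?_⟩
      · have := h2 hA
        rwa [wt_wts hn, wt_wts hn] at this
      · have := h3 j hBj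
        rwa [wt_wts hn, wt_wts hn] at this) D' h hh m' hm' γ₀ hγ₀ hmin
    have hld : logDisc a (wts w t a z) = (g + 1) * ov w (form t a m) +
        ∑ j, ov w (arrY t a z m e j) := by
      rw [Fin.sum_univ_add]
      have e1 : ∑ j : Fin g, ov w (arrY t a z m e (Fin.castAdd k j)) =
          ∑ j, wt (wts w t a z) (e j) - g * ov w (form t a m) := by
        have e2 : ∀ j : Fin g, ov w (arrY t a z m e (Fin.castAdd k j)) =
            wt (wts w t a z) (e j) - ov w (form t a m) := by
          intro j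
          unfold arrY
          rw [Fin.append_left, ov_div w (hf _) (hf m), wt_wts hn]
        rw [Finset.sum_congr rfl fun j _ => e2 j, Finset.sum_sub_distrib, Finset.sum_const,
          Finset.card_univ, Fintype.card_fin, nsmul_eq_mul]
      have e3 : ∑ l : Fin k, ov w (arrY t a z m e (Fin.natAdd g l)) =
          ∑ l, wts w t a z (Sum.inr l) := by
        refine Finset.sum_congr rfl fun l _ => ?_
        unfold arrY
        rw [Fin.append_right]
        rfl
      rw [e1, e3]
      unfold logDisc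
      rw [htop, wt_wts hn]
      ring
    rw [hld]
    linarith

end Vale.Agent.P283.M647
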