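import Vale.Agent.P283.M647.Props
import Vale.Agent.P283.A647.B8

/-!
D9. The log discrepancies at the lattice points.
-/

set_option linter.all false

namespace Vale.Agent.P283.M647

open MvPolynomial
open Vale.Agent.P283.A647 (IsRat lin)

namespace D9

theorem ordMono_le {ι : Type} [Fintype ι] {M : ℕ} (E : Fin (M + 1) → ι → ℤ) (α : ι → ℤ)
    (i : Fin (M + 1)) : ordMono E α ≤ ∑ x, E i x * α x :=
  ciInf_le (f := fun i => ∑ x, E i x * α x) (Set.finite_range _).bddBelow i

theorem ordMono_attained {ι : Type} [Fintype ι] {M : ℕ} (E : Fin (M + 1) → ι → ℤ) (α : ι → ℤ) :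
    ∃ i, ordMono E α = ∑ x, E i x * α x := by
  obtain ⟨i, hi⟩ := exists_eq_ciInf_of_finite (f := fun i => ∑ x, E i x * α x)
  exact ⟨i, hi.symm⟩

theorem ordMono_mul {ι : Type} [Fintype ι] {M : ℕ} (E : Fin (M + 1) → ι → ℤ) (α β : ι → ℤ)
    (c : ℕ) (h : ∀ x, (c : ℤ) * β x = α x) : ordMono E α = c * ordMono E β := by
  have h1 : ∀ i, ∑ x, E i x * α x = c * ∑ x, E i x * β x := by
    intro i
    rw [Finset.mul_sum]
    exact Finset.sum_congr rfl fun x _ => by rw [← h]; ring
  apply le_antisymm
  · obtain ⟨i, hi⟩ := ordMono_attained E β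
    rw [hi, ← h1]; exact ordMono_le E α i
  · obtain ⟨i, hi⟩ := ordMono_attained E α
    rw [hi, h1]
    exact mul_le_mul_of_nonneg_left (ordMono_le E β i) (by positivity)

/-- A lower bound for the value of a unit. -/
theorem lin_bound {L : Type} [Field L] [Algebra ℂ L] {d : ℕ} {U : Type} [Fintype U]
    {w : AddValuation L (WithTop ℤ)} (hconst : ∀ c : ℂ, c ≠ 0 → w (algebraMap ℂ L c) = 0)
    {y : Fin d → L} (hy : ∀ j, y j ≠ 0) {A : U → ℂ} {B : U → Fin d → ℂ} {i : U}
    (hne : lin y A B i ≠ 0) {c : ℕ} (hc : 0 < c) {b : ℤ} (hA : A i ≠ 0 → b ≤ 0)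
    (hB : ∀ j, B i j ≠ 0 → b ≤ c * ov w (y j)) : b ≤ c * ov w (lin y A B i) := by
  by_contra hlt
  push Not at hlt
  have hcZ : (0 : ℤ) < c := by exact_mod_cast hc
  have hkey : ((ov w (lin y A B i) : ℤ) : WithTop ℤ) < w (lin y A B i) := by
    unfold lin
    apply AddValuation.map_lt_add
    · by_cases h0 : A i = 0
      · rw [h0, map_zero, AddValuation.map_zero]
        exact WithTop.coe_lt_top _
      · rw [hconst _ h0]
        have h1 := hA h0
        have h2 : ov w (lin y A B i) < 0 := by
          by_contra h3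
          push Not at h3
          have := mul_nonneg hcZ.le h3
          omega
        exact_mod_cast h2
    · apply AddValuation.map_lt_sum w (by exact WithTop.coe_ne_top)
      intro j _
      by_cases h0 : B i j = 0
      · rw [h0, map_zero, zero_mul, AddValuation.map_zero]
        exact WithTop.coe_lt_top _
      · rw [AddValuation.map_mul, hconst _ h0, zero_add, ← coe_ov w (hy j)]
        have h1 := hB j h0
        have h2 : ov w (lin y A B i) < ov w (y j) := by
          by_contra h3
          push Not at h3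
          have := mul_le_mul_of_nonneg_left h3 hcZ.le
          omega
        exact_mod_cast h2
  rw [← coe_ov w hne] at hkey
  exact lt_irrefl _ hkey

end D9

open D9

theorem d9 (h : ChartExist) (ha : ArrRat) (hj : ArrJac) (hl : ArrLin) (hw₀ : WtsTrop)
    (hb : TropBasis) : LcPoint := by
  intro g R k N M r L _ _ t a z hg hrat harr v E ε hε hr D' h₀ hjac hlc α htrop hcone hα
  obtain ⟨m, e, hbas, hmin, htop, hcomb⟩ := hb g R a (wt α) hg harr htrop
  obtain ⟨hne, hnone, -⟩ := hw₀ g R k L t a z hrat harr hg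
  have hrat' := ha g R k L t a z hrat harr hg m e hbas
  obtain ⟨A, B, hlin, hAB, hB, hvec, -⟩ := hl g R k L t a z hrat harr hg m e hbas
  obtain ⟨u, hu, hu'⟩ := hj g R k L t a z hrat harr hg m e hbas
  have hω0 : (Fin.append (fun j => wt α (e j) - wt α m) (fun l => α (Sum.inr l)) :
      Fin (g + k) → ℤ) ≠ 0 := by
    intro h0
    apply hα
    have h1 : ∀ j, wt α (e j) = wt α m := by
      intro j
      have h2 := congrFun h0 (Fin.castAdd k j)
      rw [Fin.append_left] at h2
      have h3 : wt α (e j) - wt α m = 0 := h2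
      linarith
    have h2 : ∀ p, wt α p = wt α m := by
      intro p
      rcases (hcomb p _ _ (hvec p)).2.2 with ⟨-, h3⟩ | ⟨j, -, h3⟩
      · exact h3
      · rw [h3, h1]
    have h3 : wt α m = 0 := by rw [← h2 none]; rfl
    funext x
    cases x with
    | inl i =>
      have h4 := h2 (some i)
      rw [h3] at h4
      exact h4
    | inr l =>
      have h4 := congrFun h0 (Fin.natAdd g l)
      rw [Fin.append_right] at h4
      exact h4
  obtain ⟨w, hw, c, hc, hy, hnc, hdisc⟩ := h (g + k) (Option (Fin R)) L (arrY t a z m e) A B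
    (by omega) hrat' hAB _ hω0
  have hcQ : (0 : ℚ) < c := by exact_mod_cast hc
  have hcZ : (0 : ℤ) ≤ c := by exact_mod_cast hc.le
  have hyne : ∀ j, arrY t a z m e j ≠ 0 := (A647.B8.coords hrat').ne_zero
  have hyj : ∀ j : Fin g, (c : ℤ) * ov w (arrY t a z m e (Fin.castAdd k j)) =
      wt α (e j) - wt α m := by
    intro j
    have h1 := hy (Fin.castAdd k j)
    rw [Fin.append_left] at h1
    exact h1
  have hform : ∀ p, (c : ℤ) * ov w (form t a p) =
      (wt α p - wt α m) + c * ov w (form t a m) := by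
    intro p
    have hlne : lin (arrY t a z m e) A B p ≠ 0 := by
      rw [hlin]; exact div_ne_zero (hne p) (hne m)
    have h1 : (c : ℤ) * ov w (lin (arrY t a z m e) A B p) = wt α p - wt α m := by
      obtain ⟨hc1, hc2, hc3⟩ := hcomb p _ _ (hvec p)
      apply le_antisymm
      · rcases hc3 with ⟨hA, h3⟩ | ⟨j, hBj, h3⟩
        · have h4 := (hnc p).1 hA
          rw [h3, sub_self]
          exact mul_nonpos_of_nonneg_of_nonpos hcZ h4
        · have h4 := (hnc p).2 _ hBj
          rw [h3, ← hyj]
          exact mul_le_mul_of_nonneg_left h4 hcZ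
      · apply lin_bound hw.const hyne hlne hc
        · intro hA
          have := hc1 hA
          linarith
        · intro j
          refine Fin.addCases (fun j => ?_) (fun l => ?_) j
          · intro hBj
            have h4 := hc2 j hBj
            rw [hyj]
            linarith
          · intro hBj
            exact absurd (hB p l) hBj
    rw [hlin, ov_div w (hne p) (hne m)] at h1
    linear_combination h1
  have hm' : (c : ℤ) * ov w (form t a m) = wt α m := by
    have h1 := hform none
    have h3 : wt α none = 0 := rfl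
    rw [hnone, h3, ov_one] at h1
    linear_combination -h1
  have hwts : ∀ x, (c : ℤ) * wts w t a z x = α x := by
    intro x
    cases x with
    | inl i =>
      show (c : ℤ) * ov w (form t a (some i)) = _
      rw [hform, hm']
      show wt α (some i) - wt α m + wt α m = _
      rw [sub_add_cancel]
      rfl
    | inr l =>
      have h1 := hy (Fin.natAdd g l)
      have h2 : arrY t a z m e (Fin.natAdd g l) = z l := by
        unfold arrY; rw [Fin.append_right]
      rw [h2, Fin.append_right] at h1
      exact h1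
  have hcone' : InCone v (wts w t a z) := by
    obtain ⟨b, hb, hb'⟩ := hcone
    refine ⟨fun j => b j / c, fun j => div_nonneg (hb j) hcQ.le, fun x => ?_⟩
    have h2 : (α x : ℚ) = c * (wts w t a z x : ℚ) := by rw [← hwts x]; push_cast; ring
    have h3 : (wts w t a z x : ℚ) = α x / c := by rw [h2]; field_simp
    rw [h3, hb', Finset.sum_div]
    exact Finset.sum_congr rfl fun j _ => by ring
  haveI := (A647.B8.coords hrat).essFiniteType
  have h10 : h₀ * Q.jac D' (Fin.append t z) ≠ 0 := by rw [hjac]; exact one_ne_zero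
  have hjne : Q.jac D' (Fin.append t z) ≠ 0 := right_ne_zero_of_mul h10
  have h0ne : h₀ ≠ 0 := left_ne_zero_of_mul h10
  obtain ⟨m', hm'o⟩ := H647.order_exists (by omega : 0 < g + k) (A647.B8.trdeg hrat) D'
    ⟨_, hjne⟩ hw
  have h1 := hlc w m' hw hcone' hm'o
  have hune : algebraMap ℂ L u ≠ 0 := by
    rw [Ne, map_eq_zero]; exact hu
  have hjac' : ((algebraMap ℂ L u)⁻¹ * form t a m ^ (g + 1) * h₀) *
      Q.jac D' (arrY t a z m e) = 1 := by
    rw [hu' D', ← hjac]
    have hpow : form t a m ^ (g + 1) ≠ 0 := pow_ne_zero _ (hne m)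
    rw [inv_pow]
    field_simp
  have h2 := hdisc D' _ hjac' m' hm'o
  have hov : ov w ((algebraMap ℂ L u)⁻¹ * form t a m ^ (g + 1) * h₀) =
      ((g : ℤ) + 1) * ov w (form t a m) + ov w h₀ := by
    rw [ov_mul w (mul_ne_zero (inv_ne_zero hune) (pow_ne_zero _ (hne m))) h0ne,
      ov_mul w (inv_ne_zero hune) (pow_ne_zero _ (hne m)), ov_inv,
      ov_pow w (hne m), ov_eq_of w (n := 0) (by exact_mod_cast hw.const u hu)]
    push_cast; ring
  have hsum : ∑ j, (Fin.append (fun j => wt α (e j) - wt α m) (fun l => α (Sum.inr l)) :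
      Fin (g + k) → ℤ) j = ∑ j, wt α (e j) - g * wt α m + ∑ l, α (Sum.inr l) := by
    rw [Fin.sum_univ_add]
    have h5 : ∑ j : Fin g, (wt α (e j) - wt α m) = ∑ j, wt α (e j) - g * wt α m := by
      rw [Finset.sum_sub_distrib, Finset.sum_const, Finset.card_univ, Fintype.card_fin,
        nsmul_eq_mul]
    rw [← h5]
    congr 1
    · exact Finset.sum_congr rfl fun j _ => by rw [Fin.append_left]
    · exact Finset.sum_congr rfl fun l _ => by rw [Fin.append_right]
  have h3 : (c : ℤ) * (1 + m' - ov w h₀) = logDisc a α := by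
    unfold logDisc
    rw [htop]
    rw [hov, hsum] at h2
    linear_combination h2 + ((g : ℤ) + 1) * hm'
  have h4 : ordMono E α = c * ordMono E (wts w t a z) := ordMono_mul E _ _ c hwts
  have hc1 : (1 : ℝ) ≤ c := by exact_mod_cast hc
  rw [← h3, h4]
  push_cast
  have h5 : (c : ℝ) * (1 + (m' : ℝ) - ov w h₀) - c * (ordMono E (wts w t a z) : ℝ) / r =
      c * (1 + m' - ov w h₀ - (ordMono E (wts w t a z) : ℝ) / r) := by ring
  rw [h5]
  nlinarith

end Vale.Agent.P283.M647
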